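import Vale.Agent.P145.FB.Mu

/-!
P145, X-level: the law of the absolute heights and the bonds. The measure of an event at level 0
is twice the probability that the event occurs at some level divisible by four. Gap estimate: given
the circuits of the chains, the gaps are closed at level 0 up to a small proportion.
-/

namespace Vale.Agent.P145.X

open Finset Filter Topology MeasureTheory
open Vale.Agent.P152 (Ori)
open Vale.Agent.P145.FA (Hgt)
open Vale.Agent.P145.FB

/-- `P` times the counting measure on the even constants, with the bonds. -/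
noncomputable def Jmu (t : ℝ) (P : Measure (Ori (ℤ × ℤ))) : Measure (Hgt × Mk) :=
  Measure.sum fun k : ℤ => (JO t P).map (hk k)

theorem real_le_of_ae {Ω : Type*} [MeasurableSpace Ω] {μ : Measure Ω} [IsFiniteMeasure μ]
    {S T : Set Ω} (h : ∀ᵐ x ∂μ, x ∈ S → x ∈ T) : μ.real S ≤ μ.real T :=
  ENNReal.toReal_mono (measure_ne_top _ _) (measure_mono_ae h)

/-- Shift of the heights by `2 * j`. -/
def sh (j : ℤ) (x : Hgt × Mk) : Hgt × Mk := (fun q => x.1 q + 2 * j, x.2)

theorem sh_hk (j k : ℤ) (x : Ori (ℤ × ℤ) × Mk) : sh j (hk k x) = hk (k + j) x := by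
  unfold sh hk
  refine Prod.ext ?_ rfl
  funext q
  simp only
  ring

theorem MU_eq_Jmu {t : ℝ} {P : Measure (Ori (ℤ × ℤ))} [IsProbabilityMeasure P]
    (hice : ∀ᵐ ω ∂P, ∀ x y, P152.Ice ω x y) : MU t P = Jmu t P := MU_eq hice

/-- A family of events indexed by the levels, shift covariant. -/
structure LevFam (E : ℤ → Set (Hgt × Mk)) : Prop where
  meas : ∀ l, MeasurableSet (E l)
  cov : ∀ l j x, sh j x ∈ E (l + 2 * j) ↔ x ∈ E l

/-- The event occurs at some level divisible by four. -/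
def some4 (E : ℤ → Set (Hgt × Mk)) : Set (Hgt × Mk) := {x | ∃ l, 4 ∣ l ∧ x ∈ E l}

theorem some4_eq (E : ℤ → Set (Hgt × Mk)) : some4 E = ⋃ j : ℤ, E (-(4 * j)) := by
  ext x
  simp only [some4, Set.mem_ofPred_eq, Set.mem_iUnion]
  constructor
  · rintro ⟨l, ⟨m, rfl⟩, h⟩
    refine ⟨-m, ?_⟩
    have e : -(4 * -m) = 4 * m := by ring
    rw [e]; exact h
  · rintro ⟨j, h⟩
    exact ⟨_, ⟨-j, by ring⟩, h⟩

theorem LevFam.meas_some4 {E : ℤ → Set (Hgt × Mk)} (hE : LevFam E) : MeasurableSet (some4 E) := by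
  rw [some4_eq]
  exact MeasurableSet.iUnion fun j => hE.meas _

theorem LevFam.inter {E F : ℤ → Set (Hgt × Mk)} (hE : LevFam E) (hF : LevFam F) :
    LevFam fun l => E l ∩ F l :=
  ⟨fun l => (hE.meas l).inter (hF.meas l),
    fun l j x => and_congr (hE.cov l j x) (hF.cov l j x)⟩

theorem LevFam.diff {E F : ℤ → Set (Hgt × Mk)} (hE : LevFam E) (hF : LevFam F) :
    LevFam fun l => E l \ F l :=
  ⟨fun l => (hE.meas l).diff (hF.meas l),
    fun l j x => and_congr (hE.cov l j x) (not_congr (hF.cov l j x))⟩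

section
variable {t : ℝ} {P : Measure (Ori (ℤ × ℤ))}

theorem Jmu_eq {E : ℤ → Set (Hgt × Mk)} (hE : LevFam E) :
    Jmu t P (E 0) = (∑' j : ℤ, (JO t P).map (hk 0) (E (-(4 * j)))) +
      ∑' j : ℤ, (JO t P).map (hk 1) (E (-(4 * j))) := by
  have h1 : ∀ (j i : ℤ), (JO t P).map (hk (j * 2 + i)) (E 0) =
      (JO t P).map (hk i) (E (-(4 * j))) := by
    intro j i
    rw [Measure.map_apply (measurable_hk _) (hE.meas _),
      Measure.map_apply (measurable_hk _) (hE.meas _)]
    congr 1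
    ext a
    simp only [Set.mem_preimage]
    have e1 : j * 2 + i = i + 2 * j := by ring
    rw [e1, ← sh_hk]
    have := hE.cov (-(4 * j)) (2 * j) (hk i a)
    have e : -(4 * j) + 2 * (2 * j) = 0 := by ring
    rw [e] at this
    exact this
  rw [Jmu, Measure.sum_apply _ (hE.meas 0),
    ← (Int.divModEquiv 2).symm.tsum_eq (fun k : ℤ => (JO t P).map (hk k) (E 0)),
    ← ENNReal.tsum_add]
  rw [ENNReal.tsum_prod' (f := fun c : ℤ × Fin 2 =>
    (JO t P).map (hk ((Int.divModEquiv 2).symm c)) (E 0))]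
  refine tsum_congr fun j => ?_
  rw [tsum_fintype, Fin.sum_univ_two, ← h1 j 0, ← h1 j 1]
  rfl

theorem J_some4 (E : ℤ → Set (Hgt × Mk)) :
    2 * J t P (some4 E) = (JO t P).map (hk 0) (some4 E) + (JO t P).map (hk 1) (some4 E) := by
  rw [J, Measure.add_apply, Measure.smul_apply, Measure.smul_apply, smul_eq_mul, smul_eq_mul,
    mul_add, ← mul_assoc, ← mul_assoc, ENNReal.mul_inv_cancel (by norm_num) (by norm_num), one_mul,
    one_mul]

/-- Twice the probability of the event at some level is at most the measure of the event at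
level 0. -/
theorem two_mul_J_le {E : ℤ → Set (Hgt × Mk)} (hE : LevFam E) :
    2 * J t P (some4 E) ≤ Jmu t P (E 0) := by
  rw [J_some4 E, Jmu_eq hE, some4_eq]
  exact add_le_add (measure_iUnion_le _) (measure_iUnion_le _)

/-- There is equality if the event occurs at one level at most. -/
theorem Jmu_eq_two_mul {E : ℤ → Set (Hgt × Mk)} (hE : LevFam E)
    (hu : ∀ x l l', x ∈ E l → x ∈ E l' → l = l') : Jmu t P (E 0) = 2 * J t P (some4 E) := by
  have hd : Pairwise (Function.onFun Disjoint fun j : ℤ => E (-(4 * j))) := by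
    intro i j hij
    rw [Function.onFun, Set.disjoint_left]
    intro x h1 h2
    have := hu x _ _ h1 h2
    omega
  rw [J_some4 E, Jmu_eq hE, some4_eq, measure_iUnion hd fun j => hE.meas _,
    measure_iUnion hd fun j => hE.meas _]

/-- **Gap estimate.** `X` is the event of the chains of circuits, `Z` the event that everything is
closed; `A` is the increasing event (circuits of spin plus), `B i` are the separations at the gaps. -/
theorem gap_bound [IsProbabilityMeasure P] {X Z : ℤ → Set (Hgt × Mk)} (hX : LevFam X)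
    (hZ : LevFam Z) (hu : ∀ x l l', x ∈ X l → x ∈ X l' → l = l') {A : Set (Hgt × Mk)} {m : ℕ}
    {B : Fin m → Set (Hgt × Mk)} (hB : ∀ i, MeasurableSet (B i))
    (hXA : ∀ᵐ x ∂(J t P), ∀ l, 4 ∣ l → x ∈ X l → x ∈ A)
    (hAZ : ∀ᵐ x ∂(J t P), x ∈ A → (∀ i, x ∈ B i) → ∃ l, 4 ∣ l ∧ x ∈ X l ∧ x ∈ Z l)
    (hfkg : ∀ i, (J t P).real A * (J t P).real (B i) ≤ (J t P).real (A ∩ B i)) :
    Jmu t P (X 0) < ⊤ ∧
    2 * (J t P).real A * (1 - ∑ i, (1 - (J t P).real (B i))) ≤ (Jmu t P).real (X 0) ∧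
    (Jmu t P).real (X 0 \ Z 0) ≤ 2 * (J t P).real A * ∑ i, (1 - (J t P).real (B i)) := by
  have hXe := Jmu_eq_two_mul (t := t) (P := P) hX hu
  have hDe := Jmu_eq_two_mul (t := t) (P := P) (hX.diff hZ)
    fun x l l' h h' => hu x l l' h.1 h'.1
  have hr1 : (Jmu t P).real (X 0) = 2 * (J t P).real (some4 X) := by
    rw [Measure.real, hXe, ENNReal.toReal_mul, Measure.real]; rfl
  have hr2 : (Jmu t P).real (X 0 \ Z 0) = 2 * (J t P).real (some4 fun l => X l \ Z l) := by
    rw [Measure.real, hDe, ENNReal.toReal_mul, Measure.real]; rfl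
  have hbad : (J t P).real (A ∩ ⋃ i, (B i)ᶜ) ≤
      (J t P).real A * ∑ i, (1 - (J t P).real (B i)) := by
    rw [Set.inter_iUnion]
    refine (measureReal_iUnion_fintype_le _).trans ?_
    rw [Finset.mul_sum]
    refine Finset.sum_le_sum fun i _ => ?_
    have h1 : (J t P).real (A ∩ B i) + (J t P).real (A ∩ (B i)ᶜ) = (J t P).real A := by
      rw [← Set.sdiff_eq, measureReal_inter_add_sdiff (hB i)]
    have := hfkg i
    nlinarith
  refine ⟨?_, ?_, ?_⟩
  · rw [hXe]
    exact ENNReal.mul_lt_top (by norm_num) (measure_lt_top _ _)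
  · rw [hr1, mul_assoc]
    refine mul_le_mul_of_nonneg_left ?_ (by norm_num)
    have h1 : (J t P).real A ≤ (J t P).real (some4 X) + (J t P).real (A ∩ ⋃ i, (B i)ᶜ) := by
      refine (real_le_of_ae ?_).trans (measureReal_union_le (some4 X) (A ∩ ⋃ i, (B i)ᶜ))
      filter_upwards [hAZ] with x hx hxA
      by_cases hB' : ∀ i, x ∈ B i
      · obtain ⟨l, hl, h2, _⟩ := hx hxA hB'
        exact Or.inl ⟨l, hl, h2⟩
      · push Not at hB'
        obtain ⟨i, hi⟩ := hB'
        exact Or.inr ⟨hxA, Set.mem_iUnion.2 ⟨i, hi⟩⟩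
    rw [mul_sub, mul_one]
    linarith
  · rw [hr2, mul_assoc]
    refine mul_le_mul_of_nonneg_left (le_trans ?_ hbad) (by norm_num)
    refine real_le_of_ae ?_
    filter_upwards [hXA, hAZ] with x hx1 hx2 hx
    obtain ⟨l, hl, h1, h2⟩ := hx
    refine ⟨hx1 l hl h1, ?_⟩
    by_contra hc
    rw [Set.mem_iUnion] at hc
    push Not at hc
    obtain ⟨l', hl', h3, h4⟩ := hx2 (hx1 l hl h1) fun i => by
      by_contra hi
      exact hc i hi
    rw [hu x l l' h1 h3] at h2
    exact h2 h4

end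

end Vale.Agent.P145.X
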