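import Vale.Agent.P145.X.Int

/-!
P145, block F-X: properties of `avg`.
-/

namespace Vale.Agent.P145.X

open Filter Topology Set MeasureTheory ProbabilityTheory
open Vale.Agent.P152 (Ori)
open Vale.Agent.P145.FA (Hgt mu0)
open Vale.Agent.P145.FB (Pt Mk e1 e2 o1 o2 MU bl opl mkm om measurable_om bern)

/-- `g(bl(h, om h ξ))` as a function of the marks in `Λ`. -/
def gmk (Λ : Finset Pt) (g : Set Pt → ℝ) (h : Hgt) (y : Λ → Bool) : ℝ :=
  g {w | ∃ hw : w ∈ Λ, (!(decide (h (o1 w) = h (o2 w))) ||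
    (decide (h (e1 w) = h (e2 w)) && y ⟨w, hw⟩)) = true ∧ h (e1 w) = 0 ∧ h (e2 w) = 0}

theorem gmk_eq {Λ : Finset Pt} {g : Set Pt → ℝ}
    (hg : ∀ B B' : Set Pt, (∀ w ∈ Λ, w ∈ B ↔ w ∈ B') → g B = g B') (h : Hgt) (ξ : Mk) :
    g (bl (h, om h ξ)) = gmk Λ g h fun w => ξ w.1 := by
  refine hg _ _ fun w hw => ?_
  constructor
  · rintro ⟨a, b, c⟩
    exact ⟨hw, a, b, c⟩
  · rintro ⟨_, a, b, c⟩
    exact ⟨a, b, c⟩

theorem meas_gmk (Λ : Finset Pt) (g : Set Pt → ℝ) (h : Hgt) : Measurable (gmk Λ g h) :=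
  measurable_of_countable _

theorem meas_gom {A : Set Pt} {g : Set Pt → ℝ} (hg : LocS A g) (h : Hgt) :
    Measurable fun ξ : Mk => g (bl (h, om h ξ)) :=
  (meas_g hg).comp (measurable_om.comp (measurable_const.prodMk measurable_id))

theorem int_gom {A : Set Pt} {g : Set Pt → ℝ} (hg : LocS A g) (h : Hgt) (t : ℝ) :
    Integrable (fun ξ : Mk => g (bl (h, om h ξ))) (mkm t) := by
  obtain ⟨C, -, hC⟩ := bdd_g hg
  exact Integrable.of_bound (meas_gom hg h).aestronglyMeasurable C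
    (Eventually.of_forall fun ξ => hC _)

theorem avg_loc {t : ℝ} {A : Set Pt} {g : Set Pt → ℝ} (hg : LocS A g) :
    FA.Loc {q | ∃ w ∈ A, q = e1 w ∨ q = e2 w ∨ q = o1 w ∨ q = o2 w} (avg t g) := by
  classical
  obtain ⟨Λ, hA, hΛ⟩ := hg
  refine ⟨Λ.biUnion fun w => {e1 w, e2 w, o1 w, o2 w}, ?_, ?_⟩
  · intro q hq
    obtain ⟨w, hw, h1⟩ := Finset.mem_biUnion.1 hq
    exact ⟨w, hA w hw, by simpa using h1⟩
  · intro h h' hh
    have key : ∀ w ∈ Λ, h (e1 w) = h' (e1 w) ∧ h (e2 w) = h' (e2 w) ∧ h (o1 w) = h' (o1 w) ∧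
        h (o2 w) = h' (o2 w) := fun w hw =>
      ⟨hh _ (Finset.mem_biUnion.2 ⟨w, hw, by simp⟩), hh _ (Finset.mem_biUnion.2 ⟨w, hw, by simp⟩),
        hh _ (Finset.mem_biUnion.2 ⟨w, hw, by simp⟩), hh _ (Finset.mem_biUnion.2 ⟨w, hw, by simp⟩)⟩
    unfold avg
    refine integral_congr_ae (Eventually.of_forall fun ξ => ?_)
    refine hΛ _ _ fun w hw => ?_
    obtain ⟨k1, k2, k3, k4⟩ := key w hw
    have h1 : w ∈ bl (h, om h ξ) ↔ (om h ξ w = true ∧ h (e1 w) = 0 ∧ h (e2 w) = 0) := Iff.rfl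
    have h2 : w ∈ bl (h', om h' ξ) ↔ (om h' ξ w = true ∧ h' (e1 w) = 0 ∧ h' (e2 w) = 0) := Iff.rfl
    have h3 : om h ξ w = om h' ξ w := by
      unfold om
      rw [k1, k2, k3, k4]
    rw [h1, h2, h3, k1, k2]

theorem avg_mul {t : ℝ} {A A' : Set Pt} {g g' : Set Pt → ℝ} (hg : LocS A g) (hg' : LocS A' g')
    (hd : Disjoint A A') (h : Hgt) :
    avg t (fun B => g B * g' B) h = avg t g h * avg t g' h := by
  obtain ⟨Λ, hA, hΛ⟩ := hg
  obtain ⟨Λ', hA', hΛ'⟩ := hg'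
  have hdis : Disjoint Λ Λ' := by
    rw [Finset.disjoint_left]
    intro w h1 h2
    exact Set.disjoint_left.1 hd (hA w h1) (hA' w h2)
  have hind : iIndepFun (fun (i : Pt) (ξ : Mk) => ξ i) (mkm t) :=
    iIndepFun_infinitePi (P := fun _ : ℤ × ℤ => bern t) (X := fun _ p => p)
      (fun _ => measurable_id)
  have h2 := iIndepFun.indepFun_finset Λ Λ' hdis hind (fun i => measurable_pi_apply i)
  have h3 := h2.comp (meas_gmk Λ g h) (meas_gmk Λ' g' h)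
  have h4 := h3.integral_fun_mul_eq_mul_integral
    ((meas_gmk Λ g h).comp (measurable_pi_lambda _ fun i => measurable_pi_apply i.1)).aestronglyMeasurable
    ((meas_gmk Λ' g' h).comp (measurable_pi_lambda _ fun i => measurable_pi_apply i.1)).aestronglyMeasurable
  unfold avg
  simp only [gmk_eq hΛ h, gmk_eq hΛ' h]
  exact h4

theorem avg_nonneg {t : ℝ} {g : Set Pt → ℝ} (hg : ∀ B, 0 ≤ g B) (h : Hgt) : 0 ≤ avg t g h :=
  integral_nonneg fun _ => hg _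

theorem avg_le_one {t : ℝ} {A : Set Pt} {g : Set Pt → ℝ} (hl : LocS A g) (hg : ∀ B, g B ≤ 1)
    (h : Hgt) : avg t g h ≤ 1 := by
  have h1 : avg t g h ≤ ∫ _ : Mk, (1 : ℝ) ∂(mkm t) :=
    integral_mono (int_gom hl h t) (integrable_const 1) fun ξ => hg _
  simpa using h1

theorem s_avg (t : ℝ) (P : Measure (Ori (ℤ × ℤ))) [IsFiniteMeasure P] : S_avg t P where
  loc _ _ hg := avg_loc hg
  mul _ _ _ _ hg hg' hd h := avg_mul hg hg' hd h
  nonneg _ hg h := avg_nonneg hg h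
  le_one _ hl hg h := avg_le_one hl hg h
  int _ _ hg g0 hF := (avg_int hg g0 hF).2.2

end Vale.Agent.P145.X
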