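import Vale.Agent.P145.X.MomF
import Vale.Agent.P145.FB.Out
import Vale.Agent.P145.FB.ArmCut

/-!
P145, X-level: moments of the heights inside (outside) a circuit of open bonds at level `0`.

If `a` is supported inside and `b` outside the annulus and `a + b` has mass `0`, then the even moments
of `h(a)` and of `h(b)` on the event that the annulus contains a circuit at level `0` are at most
those of `h(a) + h(b)` under the plane measure.
-/

namespace Vale.Agent.P145.X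

open Finset Filter Topology MeasureTheory
open Vale.Agent.P152 (Ori Ice pth pth_isHeight IsHeight pth_zero)
open Vale.Agent.P145.FA (Hgt ev mass)
open Vale.Agent.P145.FB

/-- The open bonds at level `0` in the window `F` are those of `T`. -/
def piece (F T : Finset Pt) : Set (Hgt × Mk) := {x | ∀ w ∈ F, w ∈ bl x ↔ w ∈ T}

lemma meas_piece (F T : Finset Pt) : MeasurableSet (piece F T) :=
  meas_of_opl 0 (Q := fun A => ∀ w ∈ F, w ∈ A ↔ w ∈ T)
    ⟨F, fun _ _ h hA w hw => (h w hw).symm.trans (hA w hw)⟩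

/-- The region and the base point. -/
lemma exists_region {p q s : ℤ} (hs : 0 < s) {T : Finset Pt}
    (hA : Ann p q s (fine (T : Set Pt))) :
    ∃ (U : Finset Pt) (w0 : Pt), (∀ f ∈ U, Odd (f.1 + f.2)) ∧ w0 ∈ T ∧
      (∀ w, ((o1 w ∈ U ∧ o2 w ∉ U) ∨ (o2 w ∈ U ∧ o1 w ∉ U)) → w ∈ T) ∧
      (∀ f, fi f ∈ rc (p - s) (p + s) (q - s) (q + s) → nb U f) ∧
      (∀ f, fi f ∉ rc (p - 2 * s) (p + 2 * s) (q - 2 * s) (q + 2 * s) → ¬ nb U f) := by
  obtain ⟨o, ho⟩ := hA.base hs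
  set C : Set Pt := {z | NC (fine (T : Set Pt) ∩ annR p q s) o z} with hC
  have hsub : ∀ z ∈ C, z ∈ fine (T : Set Pt) := fun z hz => hz.right_mem.1
  have hodd : ∀ z ∈ fine (T : Set Pt), ¬ (Odd z.1 ∧ Odd z.2) := by
    rintro z (⟨h1, -⟩ | ⟨h1, -⟩) ⟨h2, h3⟩
    · exact (Int.not_odd_iff_even.2 (h2.add_odd h3)) h1
    · exact (Int.not_odd_iff_even.2 h1) h2
  have hcut : Cut C p q s := cut_of_sep (sep_iff.2 (ho.sep hs)) fun z hz => hodd z (hsub z hz)
  have hw0 : ∃ w0, w0 ∈ T := by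
    rcases ho.mem.1 with ⟨-, h⟩ | ⟨-, -, r, -, h⟩
    · exact ⟨_, h⟩
    · exact ⟨_, h⟩
  obtain ⟨w0, hw0⟩ := hw0
  refine ⟨Uf C p q s, w0, fun f hf => Uf_odd hf, hw0, fun w hw => ?_,
    fun f hf => nb_in hs hcut hf, fun f hf => nb_out hf⟩
  have h1 := hsub _ (Uf_bd hw)
  rcases h1 with ⟨-, h⟩ | ⟨h1, h2, -⟩
  · rw [vx_ep] at h
    exact h
  · exfalso
    have := ep_odd w
    exact (Int.not_odd_iff_even.2 (h1.add h2)) this

lemma refl0_b {U : Finset Pt} {b : Pt} (h : Hgt) : refl0 U b h b = h b := by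
  unfold refl0
  split_ifs <;> ring

lemma bl_rfl {U : Finset Pt} {b : Pt} {x : Hgt × Mk} (hb : x.1 b = 0) :
    bl (rfl0 U b x) = bl x := by
  have key : ∀ q, refl0 U b x.1 q = 0 ↔ x.1 q = 0 := by
    intro q
    unfold refl0
    split_ifs
    · rw [hb]; constructor <;> intro h <;> omega
    · exact Iff.rfl
  ext w
  show (x.2 w = true ∧ refl0 U b x.1 (e1 w) = 0 ∧ refl0 U b x.1 (e2 w) = 0) ↔
    (x.2 w = true ∧ x.1 (e1 w) = 0 ∧ x.1 (e2 w) = 0)
  rw [key, key]

/-- The flip on a piece. -/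
lemma lintegral_piece {c t : ℝ} (hc : 0 < c) (hct : c * t = 1) (ht1 : t ≤ 1)
    {P : Measure (Ori (ℤ × ℤ))} [IsProbabilityMeasure P] (hice : ∀ᵐ a ∂P, ∀ x y, Ice a x y)
    (hS : Swap c P) {F T U : Finset Pt} (hTF : T ⊆ F) {w0 : Pt} (hw0 : w0 ∈ T)
    (hU : ∀ f ∈ U, Odd (f.1 + f.2))
    (hbd : ∀ w, ((o1 w ∈ U ∧ o2 w ∉ U) ∨ (o2 w ∈ U ∧ o1 w ∉ U)) → w ∈ T)
    {f : Hgt × Mk → ENNReal} (hf : Measurable f) :
    ∫⁻ x in piece F T, f (rfl0 U (e1 w0) x) ∂(Jmu t P) = ∫⁻ x in piece F T, f x ∂(Jmu t P) := by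
  have hQm := measurableSet_FlipQ U (e1 w0)
  have hAm := meas_piece F T
  have h0 : ∀ x ∈ piece F T, x.1 (e1 w0) = 0 := fun x hx =>
    ((hx w0 (hTF hw0)).2 hw0).2.1
  have hsub : piece F T ⊆ FlipQ U (e1 w0) := by
    intro x hx w hw
    have hwT := hbd w hw
    have h1 := (hx w (hTF hwT)).2 hwT
    exact ⟨h1.1, by rw [h0 x hx]; exact h1.2.1, by rw [h0 x hx]; exact h1.2.2⟩
  have hinv : ∀ x, rfl0 U (e1 w0) x ∈ piece F T ↔ x ∈ piece F T := by
    intro x
    constructor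
    · intro h
      have h1 : x.1 (e1 w0) = 0 := by
        have := h0 _ h
        simpa only [rfl0, refl0_b] using this
      intro w hw
      rw [← bl_rfl (U := U) h1]
      exact h w hw
    · intro h w hw
      rw [bl_rfl (h0 x h)]
      exact h w hw
  have h1 := lintegral_rfl hc hct ht1 hice hS hU (e1 w0) (hf.indicator hAm)
  have e2 : ∀ g : Hgt × Mk → ENNReal, ∫⁻ x in FlipQ U (e1 w0), (piece F T).indicator g x
      ∂(Jmu t P) = ∫⁻ x in piece F T, g x ∂(Jmu t P) := by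
    intro g
    rw [lintegral_indicator hAm, Measure.restrict_restrict hAm, Set.inter_eq_left.2 hsub]
  have e1' : (fun x => (piece F T).indicator f (rfl0 U (e1 w0) x)) =
      (piece F T).indicator (fun x => f (rfl0 U (e1 w0) x)) := by
    funext x
    by_cases hx : x ∈ piece F T
    · rw [Set.indicator_of_mem hx, Set.indicator_of_mem ((hinv x).2 hx)]
    · rw [Set.indicator_of_notMem hx, Set.indicator_of_notMem (fun h => hx ((hinv x).1 h))]
  rw [e1', e2, e2] at h1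
  exact h1

lemma pow_half (x y : ℝ) (n : ℕ) :
    2 * ENNReal.ofReal (x ^ (2 * n)) ≤
      ENNReal.ofReal ((x + y) ^ (2 * n)) + ENNReal.ofReal ((-x + y) ^ (2 * n)) := by
  have h1 : (-x + y) ^ (2 * n) = (x - y) ^ (2 * n) := by
    rw [pow_mul, pow_mul]
    congr 1
    ring
  have hconv : ConvexOn ℝ Set.univ (fun z : ℝ => z ^ (2 * n)) := Even.convexOn_pow (even_two_mul n)
  have h2 := hconv.2 (Set.mem_univ (x + y)) (Set.mem_univ (x - y))
    (by norm_num : (0 : ℝ) ≤ 1 / 2) (by norm_num : (0 : ℝ) ≤ 1 / 2) (by norm_num)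
  simp only [smul_eq_mul] at h2
  have h3 : 1 / 2 * (x + y) + 1 / 2 * (x - y) = x := by ring
  rw [h3] at h2
  rw [h1, ← ENNReal.ofReal_ofNat, ← ENNReal.ofReal_mul (by norm_num), ← ENNReal.ofReal_add
    (Even.pow_nonneg (even_two_mul n) _) (Even.pow_nonneg (even_two_mul n) _)]
  exact ENNReal.ofReal_le_ofReal (by linarith)

lemma measurable_evH (a : (ℤ × ℤ) →₀ ℝ) : Measurable fun h : Hgt => ev a h := by
  unfold FA.ev Finsupp.sum
  refine Finset.measurable_sum _ fun q _ => Measurable.const_mul ?_ _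
  exact (measurable_of_countable (fun z : ℤ => (z : ℝ))).comp (measurable_pi_apply q)

/-- The moments on a piece. -/
lemma mom_piece {c t : ℝ} (hc : 0 < c) (hct : c * t = 1) (ht1 : t ≤ 1)
    {P : Measure (Ori (ℤ × ℤ))} [IsProbabilityMeasure P] (hice : ∀ᵐ a ∂P, ∀ x y, Ice a x y)
    (hS : Swap c P) {p q s : ℤ} (hs : 0 < s) {a b : (ℤ × ℤ) →₀ ℝ}
    (ha : ∀ v ∈ a.support, fi v ∈ rc (p - s) (p + s) (q - s) (q + s))
    (hb : ∀ v ∈ b.support, fi v ∉ rc (p - 2 * s) (p + 2 * s) (q - 2 * s) (q + 2 * s))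
    {F T : Finset Pt} (hTF : T ⊆ F) (hA : Ann p q s (fine (T : Set Pt))) (n : ℕ) :
    ∫⁻ x in piece F T, ENNReal.ofReal (ev a x.1 ^ (2 * n)) ∂(Jmu t P) ≤
      ∫⁻ x in piece F T, ENNReal.ofReal ((ev a x.1 + ev b x.1) ^ (2 * n)) ∂(Jmu t P) ∧
    ∫⁻ x in piece F T, ENNReal.ofReal (ev b x.1 ^ (2 * n)) ∂(Jmu t P) ≤
      ∫⁻ x in piece F T, ENNReal.ofReal ((ev a x.1 + ev b x.1) ^ (2 * n)) ∂(Jmu t P) := by
  obtain ⟨U, w0, hU, hw0, hbd, hin, hout⟩ := exists_region hs hA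
  have h0 : ∀ x ∈ piece F T, x.1 (e1 w0) = 0 := fun x hx => ((hx w0 (hTF hw0)).2 hw0).2.1
  have e1' : ∀ x ∈ piece F T, ev a (rfl0 U (e1 w0) x).1 = - ev a x.1 := by
    intro x hx
    unfold FA.ev Finsupp.sum
    rw [← Finset.sum_neg_distrib]
    refine Finset.sum_congr rfl fun v hv => ?_
    have : (rfl0 U (e1 w0) x).1 v = - x.1 v := by
      show refl0 U (e1 w0) x.1 v = - x.1 v
      unfold refl0
      rw [if_pos (hin v (ha v hv)), h0 x hx]
      ring
    show a v * (((rfl0 U (e1 w0) x).1 v : ℤ) : ℝ) = -(a v * ((x.1 v : ℤ) : ℝ))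
    rw [this]
    push_cast
    ring
  have e2' : ∀ x, ev b (rfl0 U (e1 w0) x).1 = ev b x.1 := by
    intro x
    unfold FA.ev Finsupp.sum
    refine Finset.sum_congr rfl fun v hv => ?_
    have : (rfl0 U (e1 w0) x).1 v = x.1 v := by
      show refl0 U (e1 w0) x.1 v = x.1 v
      unfold refl0
      rw [if_neg (hout v (hb v hv))]
    show b v * (((rfl0 U (e1 w0) x).1 v : ℤ) : ℝ) = b v * ((x.1 v : ℤ) : ℝ)
    rw [this]
  have ma : Measurable fun x : Hgt × Mk => ev a x.1 := (measurable_evH a).comp measurable_fst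
  have mb : Measurable fun x : Hgt × Mk => ev b x.1 := (measurable_evH b).comp measurable_fst
  have mf : Measurable fun x : Hgt × Mk => ENNReal.ofReal ((ev a x.1 + ev b x.1) ^ (2 * n)) :=
    ((ma.add mb).pow_const _).ennreal_ofReal
  have mg : Measurable fun x : Hgt × Mk => ENNReal.ofReal ((-ev a x.1 + ev b x.1) ^ (2 * n)) :=
    ((ma.neg.add mb).pow_const _).ennreal_ofReal
  have e3 : ∫⁻ x in piece F T, ENNReal.ofReal ((-ev a x.1 + ev b x.1) ^ (2 * n)) ∂(Jmu t P) =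
      ∫⁻ x in piece F T, ENNReal.ofReal ((ev a x.1 + ev b x.1) ^ (2 * n)) ∂(Jmu t P) := by
    rw [← lintegral_piece hc hct ht1 hice hS hTF hw0 hU hbd mf]
    refine setLIntegral_congr_fun (meas_piece F T) fun x hx => ?_
    simp only [e1' x hx, e2' x]
  have htwo : ∀ (G : Hgt × Mk → ENNReal), Measurable G → (∀ x, 2 * G x ≤
      ENNReal.ofReal ((ev a x.1 + ev b x.1) ^ (2 * n)) +
      ENNReal.ofReal ((-ev a x.1 + ev b x.1) ^ (2 * n))) →
      ∫⁻ x in piece F T, G x ∂(Jmu t P) ≤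
        ∫⁻ x in piece F T, ENNReal.ofReal ((ev a x.1 + ev b x.1) ^ (2 * n)) ∂(Jmu t P) := by
    intro G hG h
    have h1 : ∫⁻ x in piece F T, 2 * G x ∂(Jmu t P) ≤
        ∫⁻ x in piece F T, (ENNReal.ofReal ((ev a x.1 + ev b x.1) ^ (2 * n)) +
        ENNReal.ofReal ((-ev a x.1 + ev b x.1) ^ (2 * n))) ∂(Jmu t P) :=
      lintegral_mono fun x => h x
    rw [lintegral_const_mul _ hG, lintegral_add_left mf, e3, ← two_mul] at h1
    exact (ENNReal.mul_le_mul_iff_right (by norm_num) (by norm_num)).1 h1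
  refine ⟨htwo _ (ma.pow_const _).ennreal_ofReal fun x => pow_half _ _ _,
    htwo _ (mb.pow_const _).ennreal_ofReal fun x => ?_⟩
  have h1 := pow_half (ev b x.1) (ev a x.1) n
  have h2 : (-ev b x.1 + ev a x.1) ^ (2 * n) = (-ev a x.1 + ev b x.1) ^ (2 * n) := by
    rw [pow_mul, pow_mul]
    congr 1
    ring
  rw [h2, add_comm (ev b x.1)] at h1
  exact h1

/-- At most one level. -/
lemma tsum_ann {p q s : ℤ} (hs : 0 < s) (y : Ori (ℤ × ℤ) × Mk) :
    ∑' k : ℤ, ({x | Ann p q s (fine (bl x))} : Set (Hgt × Mk)).indicator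
      (fun _ => (1 : ENNReal)) (hk k y) ≤ 1 := by
  have key : ∀ k k' : ℤ, hk k y ∈ {x | Ann p q s (fine (bl x))} →
      hk k' y ∈ {x | Ann p q s (fine (bl x))} → k = k' := by
    intro k k' h h'
    have e : ∀ k : ℤ, bl (hk k y) = opl (-(2 * k)) (hk 0 y) := by
      intro k
      have h1 := opl_sh (-(2 * k)) k (hk 0 y)
      have e3 : -(2 * k) + 2 * k = 0 := by ring
      rw [e3, sh_hk, zero_add] at h1
      exact h1
    simp only [Set.mem_ofPred_eq, e] at h h'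
    have := opl_unique hs h h' (by simp [hs.le]) (by simp [hs.le])
    omega
  by_cases h : ∃ k : ℤ, hk k y ∈ {x | Ann p q s (fine (bl x))}
  · obtain ⟨k, hk'⟩ := h
    rw [tsum_eq_single k]
    · rw [Set.indicator_of_mem hk']
    · intro k' hne
      exact Set.indicator_of_notMem (fun h' => hne (key _ _ h' hk')) _
  · push Not at h
    rw [tsum_congr fun k => Set.indicator_of_notMem (h k) _, tsum_zero]
    exact zero_le_one

lemma ev_hk {w : (ℤ × ℤ) →₀ ℝ} (hw : mass w = 0) (k : ℤ) (y : Ori (ℤ × ℤ) × Mk) :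
    ev w (hk k y).1 = ev w (pth y.1) := by
  have h1 : ev w (hk k y).1 = ev w (pth y.1) + 2 * k * mass w := by
    unfold FA.ev FA.mass Finsupp.sum
    rw [Finset.mul_sum, ← Finset.sum_add_distrib]
    refine Finset.sum_congr rfl fun v _ => ?_
    simp only [hk]
    push_cast
    ring
  rw [h1, hw, mul_zero, add_zero]

lemma lintegral_JO_fst {t : ℝ} {P : Measure (Ori (ℤ × ℤ))} [IsProbabilityMeasure P]
    {f : Ori (ℤ × ℤ) → ENNReal} (hf : Measurable f) :
    ∫⁻ y, f y.1 ∂(JO t P) = ∫⁻ ω, f ω ∂P := by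
  rw [JO]
  refine (lintegral_map (hf.comp measurable_fst) measurable_oma).trans ?_
  exact (measurePreserving_fst (μ := P) (ν := mkm t)).lintegral_comp hf

/-- A function of the gradients, integrated over the event of a circuit at level `0`. -/
lemma lintegral_ann_le {t : ℝ} {P : Measure (Ori (ℤ × ℤ))} [IsProbabilityMeasure P] {p q s : ℤ}
    (hs : 0 < s) {w : (ℤ × ℤ) →₀ ℝ} (hw : mass w = 0) (n : ℕ) :
    ∫⁻ x in {x | Ann p q s (fine (bl x))}, ENNReal.ofReal (ev w x.1 ^ (2 * n)) ∂(Jmu t P) ≤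
      ∫⁻ ω, ENNReal.ofReal (ev w (pth ω) ^ (2 * n)) ∂P := by
  have hZ : MeasurableSet {x : Hgt × Mk | Ann p q s (fine (bl x))} := (levFam_Ann p q s).meas 0
  have mf : Measurable fun x : Hgt × Mk => ENNReal.ofReal (ev w x.1 ^ (2 * n)) :=
    (((measurable_evH w).comp measurable_fst).pow_const _).ennreal_ofReal
  have mp : Measurable fun ω : Ori (ℤ × ℤ) => ENNReal.ofReal (ev w (pth ω) ^ (2 * n)) :=
    (((measurable_evH w).comp (measurable_pi_lambda _ measurable_pth_apply)).pow_const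
      _).ennreal_ofReal
  rw [← lintegral_indicator hZ, lintegral_Jmu (mf.indicator hZ), ← lintegral_JO_fst (t := t) mp]
  refine lintegral_mono fun y => ?_
  have e : ∀ k : ℤ, ({x | Ann p q s (fine (bl x))} : Set (Hgt × Mk)).indicator
      (fun x => ENNReal.ofReal (ev w x.1 ^ (2 * n))) (hk k y) =
      ({x | Ann p q s (fine (bl x))} : Set (Hgt × Mk)).indicator
      (fun _ => (1 : ENNReal)) (hk k y) * ENNReal.ofReal (ev w (pth y.1) ^ (2 * n)) := by
    intro k
    by_cases h : hk k y ∈ {x | Ann p q s (fine (bl x))}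
    · rw [Set.indicator_of_mem h, Set.indicator_of_mem h, one_mul, ev_hk hw]
    · rw [Set.indicator_of_notMem h, Set.indicator_of_notMem h, zero_mul]
  simp only [e]
  rw [ENNReal.tsum_mul_right]
  exact (mul_le_mul_left (tsum_ann hs y) _).trans (one_mul _).le

/-- **MOM.** -/
theorem mom {c t : ℝ} (hc : 0 < c) (hct : c * t = 1) (ht1 : t ≤ 1)
    {P : Measure (Ori (ℤ × ℤ))} [IsProbabilityMeasure P] (hice : ∀ᵐ a ∂P, ∀ x y, Ice a x y)
    (hS : Swap c P) {p q s : ℤ} (hs : 0 < s) {a b : (ℤ × ℤ) →₀ ℝ}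
    (ha : ∀ v ∈ a.support, fi v ∈ rc (p - s) (p + s) (q - s) (q + s))
    (hb : ∀ v ∈ b.support, fi v ∉ rc (p - 2 * s) (p + 2 * s) (q - 2 * s) (q + 2 * s))
    (hm : mass (a + b) = 0) (n : ℕ) :
    ∫⁻ x in {x | Ann p q s (fine (bl x))}, ENNReal.ofReal (ev a x.1 ^ (2 * n)) ∂(Jmu t P) ≤
      ∫⁻ ω, ENNReal.ofReal (ev (a + b) (pth ω) ^ (2 * n)) ∂P ∧
    ∫⁻ x in {x | Ann p q s (fine (bl x))}, ENNReal.ofReal (ev b x.1 ^ (2 * n)) ∂(Jmu t P) ≤
      ∫⁻ ω, ENNReal.ofReal (ev (a + b) (pth ω) ^ (2 * n)) ∂P := by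
  classical
  obtain ⟨F, hF⟩ := loc_fine (IL_Ann p q s).2
  set I : Finset (Finset Pt) :=
    F.powerset.filter fun T : Finset Pt => Ann p q s (fine (T : Set Pt)) with hI
  have hZ : {x : Hgt × Mk | Ann p q s (fine (bl x))} = ⋃ T ∈ I, piece F T := by
    ext x
    simp only [Set.mem_ofPred_eq, Set.mem_iUnion, hI, Finset.mem_filter, Finset.mem_powerset,
      exists_prop]
    constructor
    · intro h
      refine ⟨F.filter (fun w => w ∈ bl x), ⟨Finset.filter_subset _ _, ?_⟩, ?_⟩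
      · exact hF _ _ (fun w hw => by simp [hw]) h
      · intro w hw
        simp [hw]
    · rintro ⟨T, ⟨-, hT⟩, h⟩
      exact hF _ _ (fun w hw => (h w hw).symm) hT
  have hdis : (I : Set (Finset Pt)).PairwiseDisjoint (piece F) := by
    intro T hT T' hT' hne
    rw [Function.onFun, Set.disjoint_left]
    intro x h1 h2
    apply hne
    simp only [hI, Finset.coe_filter, Finset.mem_powerset, Set.mem_ofPred_eq] at hT hT'
    ext w
    constructor
    · intro h
      exact (h2 w (hT.1 h)).1 ((h1 w (hT.1 h)).2 h)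
    · intro h
      exact (h1 w (hT'.1 h)).1 ((h2 w (hT'.1 h)).2 h)
  have hsum : ∀ g : Hgt × Mk → ENNReal, ∫⁻ x in {x | Ann p q s (fine (bl x))}, g x ∂(Jmu t P) =
      ∑ T ∈ I, ∫⁻ x in piece F T, g x ∂(Jmu t P) := by
    intro g
    rw [hZ]
    exact lintegral_biUnion_finset hdis (fun T _ => meas_piece F T) g
  have hlast := lintegral_ann_le (t := t) (P := P) (p := p) (q := q) hs hm n
  have hev : ∀ h : Hgt, ev (a + b) h = ev a h + ev b h := by
    intro h
    unfold FA.ev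
    rw [Finsupp.sum_add_index' (fun _ => by simp) (fun _ _ _ => by ring)]
  have hp := fun T (hT : T ∈ I) => mom_piece hc hct ht1 hice hS hs ha hb
    (Finset.mem_powerset.1 (Finset.mem_filter.1 hT).1) (Finset.mem_filter.1 hT).2 n
  constructor
  · refine le_trans ?_ hlast
    rw [hsum, hsum]
    refine Finset.sum_le_sum fun T hT => ((hp T hT).1).trans (le_of_eq ?_)
    exact lintegral_congr fun x => by rw [hev]
  · refine le_trans ?_ hlast
    rw [hsum, hsum]
    refine Finset.sum_le_sum fun T hT => ((hp T hT).2).trans (le_of_eq ?_)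
    exact lintegral_congr fun x => by rw [hev]

end Vale.Agent.P145.X
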