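import Vale.Agent.P145.X.Flow
import Vale.Agent.P145.X.Mom
import Vale.Agent.P145.FB.MomB

/-!
P145, X-level: fourth moments of the average at scale `s` on the event that there is a circuit at
level `0` at the scale `4 ^ j s`: they are at most of order `(j + 1) ^ 2`.
-/

namespace Vale.Agent.P145.X

open Finset Filter Topology MeasureTheory
open Vale.Agent.P152 (Ori Ice pth pth_isHeight IsHeight pth_zero sgb)
open Vale.Agent.P152.GFF.S (ar ar_abs ar_abs_le ar_measurable)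
open Vale.Agent.P145.FA (Hgt ev mass)
open Vale.Agent.P145.FB
open Vale.Agent.P145.FB.Mom (EGD)

/-- Vertex averages of the arrows. -/
noncomputable def dv (ω : Ori (ℤ × ℤ)) (v : ℤ × ℤ) : ℝ :=
  (ar ω (Sum.inl (v.1 - 1, v.2)) + ar ω (Sum.inl v)) / 2

noncomputable def dh (ω : Ori (ℤ × ℤ)) (v : ℤ × ℤ) : ℝ :=
  (ar ω (Sum.inr (v.1, v.2 - 1)) + ar ω (Sum.inr v)) / 2

theorem abs_dv (ω : Ori (ℤ × ℤ)) (v : ℤ × ℤ) : |dv ω v| ≤ 1 := by
  unfold dv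
  have h1 := abs_le.1 (ar_abs_le ω (Sum.inl (v.1 - 1, v.2)))
  have h2 := abs_le.1 (ar_abs_le ω (Sum.inl v))
  rw [abs_le]; constructor <;> linarith [h1.1, h1.2, h2.1, h2.2]

theorem abs_dh (ω : Ori (ℤ × ℤ)) (v : ℤ × ℤ) : |dh ω v| ≤ 1 := by
  unfold dh
  have h1 := abs_le.1 (ar_abs_le ω (Sum.inr (v.1, v.2 - 1)))
  have h2 := abs_le.1 (ar_abs_le ω (Sum.inr v))
  rw [abs_le]; constructor <;> linarith [h1.1, h1.2, h2.1, h2.2]

theorem dv_meas (v : ℤ × ℤ) : Measurable fun ω : Ori (ℤ × ℤ) => dv ω v := by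
  unfold dv
  exact ((ar_measurable _).add (ar_measurable _)).div_const 2

theorem dh_meas (v : ℤ × ℤ) : Measurable fun ω : Ori (ℤ × ℤ) => dh ω v := by
  unfold dh
  exact ((ar_measurable _).add (ar_measurable _)).div_const 2

theorem egd_ix {P : Measure (Ori (ℤ × ℤ))} {C γ : ℝ} (hγ : 0 < γ) (hE : EGD P C γ) {ι : Type*}
    (B : Finset ι) (φ : ι → ℤ × ℤ) (hφ : Set.InjOn φ B) (g : ι → ℝ) (hg : ∀ i ∈ B, |g i| ≤ γ) :
    ∫ ω, Real.exp (∑ i ∈ B, g i * dv ω (φ i)) ∂P ≤ Real.exp (C * ∑ i ∈ B, g i ^ 2) ∧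
    ∫ ω, Real.exp (∑ i ∈ B, g i * dh ω (φ i)) ∂P ≤ Real.exp (C * ∑ i ∈ B, g i ^ 2) := by
  classical
  set g' : ℤ × ℤ → ℝ := fun v => if h : ∃ i ∈ B, φ i = v then g h.choose else 0 with hg'
  have h1 : ∀ i ∈ B, g' (φ i) = g i := by
    intro i hi
    have h : ∃ k ∈ B, φ k = φ i := ⟨i, hi, rfl⟩
    simp only [hg', dif_pos h]
    rw [hφ h.choose_spec.1 hi h.choose_spec.2]
  have h2 : ∀ v, |g' v| ≤ γ := by
    intro v
    simp only [hg']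
    split_ifs with h
    · exact hg _ h.choose_spec.1
    · rw [abs_zero]; exact hγ.le
  have h3 := hE (B.image φ) g' h2
  rw [sum_image hφ] at h3
  have e1 : ∑ i ∈ B, g' (φ i) ^ 2 = ∑ i ∈ B, g i ^ 2 :=
    sum_congr rfl fun i hi => by rw [h1 i hi]
  rw [e1] at h3
  have e2 : ∀ d : Ori (ℤ × ℤ) → ℤ × ℤ → ℝ, ∀ ω, ∑ v ∈ B.image φ, g' v * d ω v =
      ∑ i ∈ B, g i * d ω (φ i) := by
    intro d ω
    rw [sum_image hφ]
    exact sum_congr rfl fun i hi => by rw [h1 i hi]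
  refine ⟨?_, ?_⟩
  · refine le_trans (le_of_eq (integral_congr_ae (Eventually.of_forall fun ω => ?_))) h3.1
    simp only
    rw [← e2 dv ω]
    rfl
  · refine le_trans (le_of_eq (integral_congr_ae (Eventually.of_forall fun ω => ?_))) h3.2
    simp only
    rw [← e2 dh ω]
    rfl

theorem bdd_int {P : Measure (Ori (ℤ × ℤ))} [IsProbabilityMeasure P] {X : Ori (ℤ × ℤ) → ℝ}
    (hm : Measurable X) {K : ℝ} (hK : ∀ ω, |X ω| ≤ K) (n : ℕ) : Integrable (fun ω => X ω ^ n) P := by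
  refine Integrable.of_bound (C := K ^ n) (hm.pow_const n).aestronglyMeasurable
    (Eventually.of_forall fun ω => ?_)
  rw [Real.norm_eq_abs, abs_pow]
  exact pow_le_pow_left₀ (abs_nonneg _) (hK ω) n

theorem bdd_exp {P : Measure (Ori (ℤ × ℤ))} [IsProbabilityMeasure P] {X : Ori (ℤ × ℤ) → ℝ}
    (hm : Measurable X) {K : ℝ} (hK : ∀ ω, |X ω| ≤ K) (a : ℝ) :
    Integrable (fun ω => Real.exp (a * X ω)) P := by
  refine Integrable.of_bound (C := Real.exp (|a| * K))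
    (Real.measurable_exp.comp (hm.const_mul a)).aestronglyMeasurable
    (Eventually.of_forall fun ω => ?_)
  rw [Real.norm_eq_abs, abs_of_pos (Real.exp_pos _), Real.exp_le_exp]
  refine (le_abs_self _).trans ?_
  rw [abs_mul]
  exact mul_le_mul_of_nonneg_left (hK ω) (abs_nonneg a)

theorem pow_four_le (x : ℝ) : x ^ 4 ≤ 24 * (Real.exp x + Real.exp (-x)) := by
  have h1 := Real.pow_div_factorial_le_exp |x| (abs_nonneg x) 4
  have h2 : |x| ^ 4 = x ^ 4 := Even.pow_abs (by decide) x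
  have h3 : ((4 : ℕ).factorial : ℝ) = 24 := by norm_num [Nat.factorial]
  rw [h2, h3, div_le_iff₀ (by norm_num)] at h1
  have h4 : Real.exp |x| ≤ Real.exp x + Real.exp (-x) := by
    rcases abs_cases x with ⟨h, _⟩ | ⟨h, _⟩ <;> rw [h]
    · have := Real.exp_pos (-x); linarith
    · have := Real.exp_pos x; linarith
  linarith

theorem four_mom {P : Measure (Ori (ℤ × ℤ))} [IsProbabilityMeasure P] {X : Ori (ℤ × ℤ) → ℝ}
    (hm : Measurable X) {K : ℝ} (hK : ∀ ω, |X ω| ≤ K) {C S : ℝ} (hS : 1 ≤ S)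
    (h : ∀ a : ℝ, |a| = 1 / √S → ∫ ω, Real.exp (a * X ω) ∂P ≤ Real.exp C) :
    ∫ ω, X ω ^ 4 ∂P ≤ 48 * Real.exp C * S ^ 2 := by
  have hS0 : 0 < S := by linarith
  set l : ℝ := 1 / √S with hl
  have hl0 : 0 < l := by positivity
  have hl4 : l ^ 4 * S ^ 2 = 1 := by
    have : √S ^ 2 = S := Real.sq_sqrt hS0.le
    have h2 : √S ^ 4 = S ^ 2 := by
      calc √S ^ 4 = (√S ^ 2) ^ 2 := by ring
        _ = S ^ 2 := by rw [this]
    rw [hl, div_pow, one_pow, h2]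
    field_simp
  have e1 := h l (abs_of_pos hl0)
  have e2 := h (-l) (by rw [abs_neg, abs_of_pos hl0])
  have key : ∫ ω, (l * X ω) ^ 4 ∂P ≤ 24 * (Real.exp C + Real.exp C) := by
    calc ∫ ω, (l * X ω) ^ 4 ∂P
        ≤ ∫ ω, 24 * (Real.exp (l * X ω) + Real.exp (-l * X ω)) ∂P := by
          refine integral_mono ?_ (((bdd_exp hm hK l).add (bdd_exp hm hK (-l))).const_mul 24)
            fun ω => ?_
          · refine ((bdd_int hm hK 4).const_mul (l ^ 4)).congr (Eventually.of_forall fun ω => ?_)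
            simp only; ring
          · have := pow_four_le (l * X ω)
            rw [← neg_mul] at this
            exact this
      _ = 24 * (∫ ω, Real.exp (l * X ω) ∂P + ∫ ω, Real.exp (-l * X ω) ∂P) := by
          rw [integral_const_mul, integral_add (bdd_exp hm hK l) (bdd_exp hm hK (-l))]
      _ ≤ _ := by linarith
  have e3 : ∫ ω, (l * X ω) ^ 4 ∂P = l ^ 4 * ∫ ω, X ω ^ 4 ∂P := by
    rw [← integral_const_mul]
    congr 1; funext ω; ring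
  rw [e3] at key
  calc ∫ ω, X ω ^ 4 ∂P = (l ^ 4 * ∫ ω, X ω ^ 4 ∂P) * S ^ 2 := by
        rw [mul_right_comm, hl4, one_mul]
    _ ≤ (24 * (Real.exp C + Real.exp C)) * S ^ 2 :=
        mul_le_mul_of_nonneg_right key (sq_nonneg S)
    _ = 48 * Real.exp C * S ^ 2 := by ring

/-- Sum over a finite set of a weighted bounded field. -/
theorem lin_meas {ι : Type*} (B : Finset ι) (φ : ι → ℤ × ℤ) (g : ι → ℝ)
    {d : Ori (ℤ × ℤ) → ℤ × ℤ → ℝ} (hd : ∀ v, Measurable fun ω => d ω v) :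
    Measurable fun ω => ∑ i ∈ B, g i * d ω (φ i) :=
  Finset.measurable_sum _ fun i _ => (hd (φ i)).const_mul _

theorem lin_bdd {ι : Type*} (B : Finset ι) (φ : ι → ℤ × ℤ) (g : ι → ℝ)
    {d : Ori (ℤ × ℤ) → ℤ × ℤ → ℝ} (hd : ∀ ω v, |d ω v| ≤ 1) (ω : Ori (ℤ × ℤ)) :
    |∑ i ∈ B, g i * d ω (φ i)| ≤ ∑ i ∈ B, |g i| := by
  refine (Finset.abs_sum_le_sum_abs _ _).trans (Finset.sum_le_sum fun i _ => ?_)
  rw [abs_mul]
  exact mul_le_of_le_one_right (abs_nonneg _) (hd ω _)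

theorem flow_mom {P : Measure (Ori (ℤ × ℤ))} [IsProbabilityMeasure P] {C γ : ℝ} (hC : 0 ≤ C)
    (hγ : 0 < γ) (hE : EGD P C γ) {ι : Type*} (B : Finset ι) (φ : ι → ℤ × ℤ)
    (hφ : Set.InjOn φ B) (g : ι → ℝ) (hg : ∀ i ∈ B, |g i| ≤ γ) {S : ℝ} (hS : 1 ≤ S)
    (hgS : ∑ i ∈ B, g i ^ 2 ≤ S) :
    ∫ ω, (∑ i ∈ B, g i * dv ω (φ i)) ^ 4 ∂P ≤ 48 * Real.exp C * S ^ 2 ∧
    ∫ ω, (∑ i ∈ B, g i * dh ω (φ i)) ^ 4 ∂P ≤ 48 * Real.exp C * S ^ 2 := by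
  have hS0 : 0 < S := by linarith
  have key : ∀ a : ℝ, |a| = 1 / √S →
      ∫ ω, Real.exp (a * ∑ i ∈ B, g i * dv ω (φ i)) ∂P ≤ Real.exp C ∧
      ∫ ω, Real.exp (a * ∑ i ∈ B, g i * dh ω (φ i)) ∂P ≤ Real.exp C := by
    intro a ha
    have hsq : 1 ≤ √S := Real.one_le_sqrt.2 hS
    have ha1 : |a| ≤ 1 := by
      rw [ha, div_le_one (by linarith)]; exact hsq
    have ha2 : a ^ 2 * S = 1 := by
      have : a ^ 2 = |a| ^ 2 := (sq_abs a).symm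
      rw [this, ha, div_pow, one_pow, Real.sq_sqrt hS0.le]
      field_simp
    have h := egd_ix hγ hE B φ hφ (fun i => a * g i) (fun i hi => by
      rw [abs_mul]
      calc |a| * |g i| ≤ 1 * |g i| := mul_le_mul_of_nonneg_right ha1 (abs_nonneg _)
        _ ≤ γ := by rw [one_mul]; exact hg i hi)
    have h2 : C * ∑ i ∈ B, (a * g i) ^ 2 ≤ C := by
      have e : ∑ i ∈ B, (a * g i) ^ 2 = a ^ 2 * ∑ i ∈ B, g i ^ 2 := by
        rw [mul_sum]; exact sum_congr rfl fun i _ => by ring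
      rw [e]
      have h3 : a ^ 2 * ∑ i ∈ B, g i ^ 2 ≤ 1 := by
        rw [← ha2]; exact mul_le_mul_of_nonneg_left hgS (sq_nonneg a)
      calc C * (a ^ 2 * ∑ i ∈ B, g i ^ 2) ≤ C * 1 := mul_le_mul_of_nonneg_left h3 hC
        _ = C := mul_one C
    have h3 := Real.exp_le_exp.2 h2
    have e1 : ∀ d : Ori (ℤ × ℤ) → ℤ × ℤ → ℝ, ∀ ω, a * ∑ i ∈ B, g i * d ω (φ i) =
        ∑ i ∈ B, a * g i * d ω (φ i) := by
      intro d ω
      rw [mul_sum]; exact sum_congr rfl fun i _ => by ring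
    constructor
    · simp_rw [e1 dv]
      exact h.1.trans h3
    · simp_rw [e1 dh]
      exact h.2.trans h3
  exact ⟨four_mom (lin_meas B φ g dv_meas) (lin_bdd B φ g abs_dv) hS fun a ha => (key a ha).1,
    four_mom (lin_meas B φ g dh_meas) (lin_bdd B φ g abs_dh) hS fun a ha => (key a ha).2⟩

theorem add_four (a b : ℝ) : (a + b) ^ 4 ≤ 8 * (a ^ 4 + b ^ 4) := by
  nlinarith [sq_nonneg (a - b), sq_nonneg (a + b), sq_nonneg (a ^ 2 - b ^ 2),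
    sq_nonneg (a * b), mul_nonneg (sq_nonneg (a - b)) (sq_nonneg (a + b)),
    mul_nonneg (sq_nonneg (a - b)) (sq_nonneg a), mul_nonneg (sq_nonneg (a - b)) (sq_nonneg b)]

/-- The heights in the coordinates of the vertices. -/
noncomputable def Hw (ω : Ori (ℤ × ℤ)) (x y : ℕ) : ℝ :=
  (pth ω ((x : ℤ) + y, (x : ℤ) - y) : ℝ)

/-- The vertices of the horizontal and of the vertical steps. -/
def f1 (p : ℕ × ℕ) : ℤ × ℤ := ((p.1 : ℤ) + p.2 + 1, (p.1 : ℤ) - p.2 + 1)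

def f2 (p : ℕ × ℕ) : ℤ × ℤ := ((p.1 : ℤ) + p.2 + 1, (p.1 : ℤ) - p.2)

theorem f1_inj : Function.Injective f1 := by
  intro p q h
  simp only [f1, Prod.mk.injEq] at h
  ext <;> omega

theorem f2_inj : Function.Injective f2 := by
  intro p q h
  simp only [f2, Prod.mk.injEq] at h
  ext <;> omega

theorem step_v {ω : Ori (ℤ × ℤ)} (hω : ∀ x y, Ice ω x y) (x y : ℤ) :
    ar ω (Sum.inl (x, y)) = (pth ω (x, y) : ℝ) - pth ω (x, y - 1) := by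
  have h := (pth_isHeight hω x y).1
  unfold ar sgb
  exact_mod_cast h.symm

theorem step_h {ω : Ori (ℤ × ℤ)} (hω : ∀ x y, Ice ω x y) (x y : ℤ) :
    ar ω (Sum.inr (x, y)) = (pth ω (x - 1, y) : ℝ) - pth ω (x, y) := by
  have h := (pth_isHeight hω x y).2
  unfold ar sgb
  exact_mod_cast h.symm

theorem Hw_step1 {ω : Ori (ℤ × ℤ)} (hω : ∀ x y, Ice ω x y) (p : ℕ × ℕ) :
    Hw ω (p.1 + 1) p.2 - Hw ω p.1 p.2 = dv ω (f1 p) - dh ω (f1 p) := by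
  unfold Hw dv dh f1
  simp only
  rw [step_v hω, step_v hω, step_h hω, step_h hω]
  have e1 : (((p.1 + 1 : ℕ) : ℤ) + (p.2 : ℤ), ((p.1 + 1 : ℕ) : ℤ) - (p.2 : ℤ)) =
      ((p.1 : ℤ) + p.2 + 1, (p.1 : ℤ) - p.2 + 1) := by push_cast; ext <;> ring
  have e2 : ((p.1 : ℤ) + p.2 + 1 - 1, (p.1 : ℤ) - p.2 + 1 - 1) =
      ((p.1 : ℤ) + (p.2 : ℤ), (p.1 : ℤ) - (p.2 : ℤ)) := by ext <;> ring
  rw [e1, e2]
  ring

theorem Hw_step2 {ω : Ori (ℤ × ℤ)} (hω : ∀ x y, Ice ω x y) (p : ℕ × ℕ) :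
    Hw ω p.1 (p.2 + 1) - Hw ω p.1 p.2 = -(dv ω (f2 p) + dh ω (f2 p)) := by
  unfold Hw dv dh f2
  simp only
  rw [step_v hω, step_v hω, step_h hω, step_h hω]
  have e1 : ((p.1 : ℤ) + ((p.2 + 1 : ℕ) : ℤ), (p.1 : ℤ) - ((p.2 + 1 : ℕ) : ℤ)) =
      ((p.1 : ℤ) + p.2 + 1, (p.1 : ℤ) - p.2 - 1) := by push_cast; ext <;> ring
  have e2 : ((p.1 : ℤ) + p.2 + 1 - 1, (p.1 : ℤ) - p.2) =
      ((p.1 : ℤ) + (p.2 : ℤ), (p.1 : ℤ) - (p.2 : ℤ)) := by ext <;> ring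
  rw [e1, e2]
  ring

theorem F1_eq {ω : Ori (ℤ × ℤ)} (hω : ∀ x y, Ice ω x y) (M : ℕ) (g : ℕ × ℕ → ℝ) :
    Flow.F1 M g (Hw ω) = ∑ p ∈ range M ×ˢ range M, g p * dv ω (f1 p) -
      ∑ p ∈ range M ×ˢ range M, g p * dh ω (f1 p) := by
  unfold Flow.F1
  rw [← sum_sub_distrib]
  exact sum_congr rfl fun p _ => by rw [Hw_step1 hω]; ring

theorem F2_eq {ω : Ori (ℤ × ℤ)} (hω : ∀ x y, Ice ω x y) (M : ℕ) (g : ℕ × ℕ → ℝ) :
    Flow.F2 M g (Hw ω) = -(∑ p ∈ range M ×ˢ range M, g p * dv ω (f2 p) +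
      ∑ p ∈ range M ×ˢ range M, g p * dh ω (f2 p)) := by
  unfold Flow.F2
  rw [← sum_add_distrib, ← sum_neg_distrib]
  exact sum_congr rfl fun p _ => by rw [Hw_step2 hω]; ring

/-- The six pieces. -/
theorem six {a1 a2 b1 b2 c1 c2 : ℝ} : ((a1 - a2) + -(b1 + b2) + (c1 - c2)) ^ 4 ≤
    512 * ((a1 ^ 4 + a2 ^ 4) + (b1 ^ 4 + b2 ^ 4) + (c1 ^ 4 + c2 ^ 4)) := by
  have h1 := add_four ((a1 - a2) + -(b1 + b2)) (c1 - c2)
  have h2 := add_four (a1 - a2) (-(b1 + b2))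
  have h3 := add_four a1 (-a2)
  have h4 := add_four b1 b2
  have h5 := add_four c1 (-c2)
  have e1 : (-(b1 + b2)) ^ 4 = (b1 + b2) ^ 4 := by ring
  have e2 : (-a2) ^ 4 = a2 ^ 4 := by ring
  have e3 : (-c2) ^ 4 = c2 ^ 4 := by ring
  rw [e1] at h2
  rw [e2, ← sub_eq_add_neg] at h3
  rw [e3, ← sub_eq_add_neg] at h5
  have p1 : 0 ≤ c1 ^ 4 := by positivity
  have p2 : 0 ≤ c2 ^ 4 := by positivity
  linarith

/-- **The moments of the difference of the averages.** -/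
theorem diff_mom {P : Measure (Ori (ℤ × ℤ))} [IsProbabilityMeasure P] {C γ : ℝ} (hC : 0 ≤ C)
    (hγ : 0 < γ) (hE : EGD P C γ) (hice : ∀ᵐ a ∂P, ∀ x y, Ice a x y) {s : ℕ} (hs : 0 < s)
    (hsγ : 2 / (s : ℝ) ≤ γ) (j : ℕ) :
    ∫⁻ ω, ENNReal.ofReal ((Flow.AS (2 * Flow.Rs s j + 1) (Flow.Rs s j) (Hw ω)
        - Flow.AA s (Hw ω)) ^ 4) ∂P ≤
      ENNReal.ofReal (512 * 6 * 48 * 49 * Real.exp C * (j + 1) ^ 2) := by
  set R := Flow.Rs s j with hR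
  set L := 2 * R + 1 with hL
  set M := L + R with hM
  have hR0 : 0 < R := Flow.Rs_pos hs j
  have hRs : s ≤ R := Flow.le_Rs s j
  have hs' : (0 : ℝ) < s := by exact_mod_cast hs
  have hR' : (s : ℝ) ≤ R := by exact_mod_cast hRs
  set S : ℝ := 7 * (j + 1) with hSd
  have hj : (0 : ℝ) ≤ j := Nat.cast_nonneg j
  have hS : 1 ≤ S := by rw [hSd]; linarith
  set B := range M ×ˢ range M with hB
  have b1 : ∀ p ∈ B, |Flow.G1 s j p| ≤ γ := fun p _ => by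
    rw [abs_of_nonneg (Flow.G1_nonneg s j p)]; exact (Flow.G1_le hs j p).trans hsγ
  have b2 : ∀ p ∈ B, |Flow.G2 s j p| ≤ γ := fun p _ => by
    rw [abs_of_nonneg (Flow.G2_nonneg s j p)]; exact (Flow.G2_le hs j p).trans hsγ
  have b3 : ∀ p ∈ B, |Flow.g3 L R p| ≤ γ := fun p _ => by
    rw [abs_of_nonneg (Flow.g3_nonneg (by omega) p)]
    refine (Flow.g3_le' p).trans (le_trans ?_ hsγ)
    calc 1 / (R : ℝ) ≤ 1 / s := one_div_le_one_div_of_le hs' hR'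
      _ ≤ 2 / s := by gcongr; norm_num
  have q1 : ∑ p ∈ B, Flow.G1 s j p ^ 2 ≤ S := (Flow.G1_sq hs j M (by omega)).trans (by
    rw [hSd]; linarith)
  have q2 : ∑ p ∈ B, Flow.G2 s j p ^ 2 ≤ S := (Flow.G2_sq hs j M (by omega)).trans (by
    rw [hSd]; linarith)
  have q3 : ∑ p ∈ B, Flow.g3 L R p ^ 2 ≤ S :=
    (Flow.g3_sq hR0 (by omega) (by omega) le_rfl).trans (by rw [hSd]; linarith)
  have m1 := flow_mom hC hγ hE B f1 f1_inj.injOn (Flow.G1 s j) b1 hS q1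
  have m2 := flow_mom hC hγ hE B f2 f2_inj.injOn (Flow.G2 s j) b2 hS q2
  have m3 := flow_mom hC hγ hE B f1 f1_inj.injOn (Flow.g3 L R) b3 hS q3
  set a1 : Ori (ℤ × ℤ) → ℝ := fun ω => ∑ p ∈ B, Flow.G1 s j p * dv ω (f1 p) with ha1
  set a2 : Ori (ℤ × ℤ) → ℝ := fun ω => ∑ p ∈ B, Flow.G1 s j p * dh ω (f1 p) with ha2
  set c1 : Ori (ℤ × ℤ) → ℝ := fun ω => ∑ p ∈ B, Flow.G2 s j p * dv ω (f2 p) with hc1
  set c2 : Ori (ℤ × ℤ) → ℝ := fun ω => ∑ p ∈ B, Flow.G2 s j p * dh ω (f2 p) with hc2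
  set d1 : Ori (ℤ × ℤ) → ℝ := fun ω => ∑ p ∈ B, Flow.g3 L R p * dv ω (f1 p) with hd1
  set d2 : Ori (ℤ × ℤ) → ℝ := fun ω => ∑ p ∈ B, Flow.g3 L R p * dh ω (f1 p) with hd2
  have i1 : Integrable (fun ω => a1 ω ^ 4) P :=
    bdd_int (lin_meas B f1 _ dv_meas) (lin_bdd B f1 _ abs_dv) 4
  have i2 : Integrable (fun ω => a2 ω ^ 4) P :=
    bdd_int (lin_meas B f1 _ dh_meas) (lin_bdd B f1 _ abs_dh) 4
  have i3 : Integrable (fun ω => c1 ω ^ 4) P :=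
    bdd_int (lin_meas B f2 _ dv_meas) (lin_bdd B f2 _ abs_dv) 4
  have i4 : Integrable (fun ω => c2 ω ^ 4) P :=
    bdd_int (lin_meas B f2 _ dh_meas) (lin_bdd B f2 _ abs_dh) 4
  have i5 : Integrable (fun ω => d1 ω ^ 4) P :=
    bdd_int (lin_meas B f1 _ dv_meas) (lin_bdd B f1 _ abs_dv) 4
  have i6 : Integrable (fun ω => d2 ω ^ 4) P :=
    bdd_int (lin_meas B f1 _ dh_meas) (lin_bdd B f1 _ abs_dh) 4
  have ia := i1.add i2
  have ic := i3.add i4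
  have id' := i5.add i6
  have itot : Integrable (fun ω => 512 * ((a1 ω ^ 4 + a2 ω ^ 4) + (c1 ω ^ 4 + c2 ω ^ 4) +
      (d1 ω ^ 4 + d2 ω ^ 4))) P := ((ia.add ic).add id').const_mul 512
  calc ∫⁻ ω, ENNReal.ofReal ((Flow.AS L R (Hw ω) - Flow.AA s (Hw ω)) ^ 4) ∂P
      ≤ ∫⁻ ω, ENNReal.ofReal (512 * ((a1 ω ^ 4 + a2 ω ^ 4) + (c1 ω ^ 4 + c2 ω ^ 4) +
        (d1 ω ^ 4 + d2 ω ^ 4))) ∂P := by
        refine lintegral_mono_ae ?_
        filter_upwards [hice] with ω hω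
        refine ENNReal.ofReal_le_ofReal ?_
        have e1 := Flow.AA_tot (Hw ω) hs (show Flow.Rs s j ≤ M by omega)
        have e2 := Flow.AS_sub (Hw ω) (L := L) (R := R) (M := M) hR0 le_rfl
        have e3 : Flow.AS L R (Hw ω) - Flow.AA s (Hw ω) =
            (a1 ω - a2 ω) + -(c1 ω + c2 ω) + (d1 ω - d2 ω) := by
          rw [F1_eq hω, F2_eq hω] at e1
          rw [F1_eq hω] at e2
          have e4 : Flow.AS L R (Hw ω) - Flow.AA s (Hw ω) =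
            (Flow.AS L R (Hw ω) - Flow.AA R (Hw ω)) + (Flow.AA R (Hw ω) - Flow.AA s (Hw ω)) := by
            ring
          rw [e4, e2, e1]
          ring
        rw [e3]
        exact six
    _ = ENNReal.ofReal (∫ ω, 512 * ((a1 ω ^ 4 + a2 ω ^ 4) + (c1 ω ^ 4 + c2 ω ^ 4) +
        (d1 ω ^ 4 + d2 ω ^ 4)) ∂P) := by
        rw [ofReal_integral_eq_lintegral_ofReal itot
          (Eventually.of_forall fun ω => by simp only [Pi.zero_apply]; positivity)]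
    _ ≤ ENNReal.ofReal (512 * 6 * 48 * 49 * Real.exp C * (j + 1) ^ 2) := by
        refine ENNReal.ofReal_le_ofReal ?_
        have e : ∫ ω, 512 * ((a1 ω ^ 4 + a2 ω ^ 4) + (c1 ω ^ 4 + c2 ω ^ 4) +
            (d1 ω ^ 4 + d2 ω ^ 4)) ∂P = 512 * ((∫ ω, a1 ω ^ 4 ∂P + ∫ ω, a2 ω ^ 4 ∂P) +
            (∫ ω, c1 ω ^ 4 ∂P + ∫ ω, c2 ω ^ 4 ∂P) +
            (∫ ω, d1 ω ^ 4 ∂P + ∫ ω, d2 ω ^ 4 ∂P)) := by
          have k1 : ∫ ω, (a1 ω ^ 4 + a2 ω ^ 4) ∂P = ∫ ω, a1 ω ^ 4 ∂P + ∫ ω, a2 ω ^ 4 ∂P :=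
            integral_add i1 i2
          have k2 : ∫ ω, (c1 ω ^ 4 + c2 ω ^ 4) ∂P = ∫ ω, c1 ω ^ 4 ∂P + ∫ ω, c2 ω ^ 4 ∂P :=
            integral_add i3 i4
          have k3 : ∫ ω, (d1 ω ^ 4 + d2 ω ^ 4) ∂P = ∫ ω, d1 ω ^ 4 ∂P + ∫ ω, d2 ω ^ 4 ∂P :=
            integral_add i5 i6
          have k4 : ∫ ω, ((a1 ω ^ 4 + a2 ω ^ 4) + (c1 ω ^ 4 + c2 ω ^ 4)) ∂P =
            ∫ ω, (a1 ω ^ 4 + a2 ω ^ 4) ∂P + ∫ ω, (c1 ω ^ 4 + c2 ω ^ 4) ∂P := integral_add ia ic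
          have k5 : ∫ ω, ((a1 ω ^ 4 + a2 ω ^ 4) + (c1 ω ^ 4 + c2 ω ^ 4) +
            (d1 ω ^ 4 + d2 ω ^ 4)) ∂P = ∫ ω, ((a1 ω ^ 4 + a2 ω ^ 4) + (c1 ω ^ 4 + c2 ω ^ 4)) ∂P +
            ∫ ω, (d1 ω ^ 4 + d2 ω ^ 4) ∂P := integral_add (ia.add ic) id'
          rw [integral_const_mul, k5, k4, k1, k2, k3]
        rw [e]
        have hS2 : S ^ 2 = 49 * ((j : ℝ) + 1) ^ 2 := by rw [hSd]; ring
        rw [hS2] at m1 m2 m3
        have := m1.1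
        have := m1.2
        have := m2.1
        have := m2.2
        have := m3.1
        have := m3.2
        linarith

/-! ### The weights -/

/-- Uniform weight on the faces of the vertices of the box `[L, L + R) × [0, R)`. -/
noncomputable def bw (L R : ℕ) : (ℤ × ℤ) →₀ ℝ :=
  ∑ x ∈ range R, ∑ y ∈ range R,
    Finsupp.single (((L + x : ℕ) : ℤ) + y, ((L + x : ℕ) : ℤ) - y) (1 / (R : ℝ) / R)

theorem ev_add' (a b : (ℤ × ℤ) →₀ ℝ) (h : Hgt) : ev (a + b) h = ev a h + ev b h := by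
  unfold FA.ev
  rw [Finsupp.sum_add_index' (fun _ => by simp) (fun _ _ _ => by ring)]

theorem mass_add' (a b : (ℤ × ℤ) →₀ ℝ) : mass (a + b) = mass a + mass b := by
  unfold FA.mass
  rw [Finsupp.sum_add_index' (fun _ => rfl) (fun _ _ _ => rfl)]

theorem ev_zero' (h : Hgt) : ev (0 : (ℤ × ℤ) →₀ ℝ) h = 0 := by
  unfold FA.ev; simp

theorem mass_zero' : mass (0 : (ℤ × ℤ) →₀ ℝ) = 0 := by
  unfold FA.mass; simp

theorem ev_sum' {ι : Type*} (B : Finset ι) (f : ι → (ℤ × ℤ) →₀ ℝ) (h : Hgt) :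
    ev (∑ i ∈ B, f i) h = ∑ i ∈ B, ev (f i) h :=
  map_sum (AddMonoidHom.mk' (fun a => ev a h) fun a b => ev_add' a b h) f B

theorem mass_sum' {ι : Type*} (B : Finset ι) (f : ι → (ℤ × ℤ) →₀ ℝ) :
    mass (∑ i ∈ B, f i) = ∑ i ∈ B, mass (f i) :=
  map_sum (AddMonoidHom.mk' mass fun a b => mass_add' a b) f B

theorem ev_neg' (a : (ℤ × ℤ) →₀ ℝ) (h : Hgt) : ev (-a) h = -ev a h :=
  map_neg (AddMonoidHom.mk' (fun a => ev a h) fun a b => ev_add' a b h) a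

theorem mass_neg' (a : (ℤ × ℤ) →₀ ℝ) : mass (-a) = -mass a :=
  map_neg (AddMonoidHom.mk' mass fun a b => mass_add' a b) a

theorem ev_single' (q : ℤ × ℤ) (a : ℝ) (h : Hgt) : ev (Finsupp.single q a) h = a * (h q : ℝ) := by
  unfold FA.ev
  rw [Finsupp.sum_single_index (by simp)]

theorem mass_single' (q : ℤ × ℤ) (a : ℝ) : mass (Finsupp.single q a) = a := by
  unfold FA.mass
  rw [Finsupp.sum_single_index rfl]

theorem mass_bw (L : ℕ) {R : ℕ} (hR : 0 < R) : mass (bw L R) = 1 := by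
  have hR' : (0 : ℝ) < R := by exact_mod_cast hR
  unfold bw
  simp only [mass_sum', mass_single', sum_const, card_range, nsmul_eq_mul]
  field_simp

theorem ev_bw (L R : ℕ) (ω : Ori (ℤ × ℤ)) : ev (bw L R) (pth ω) = Flow.AS L R (Hw ω) := by
  unfold bw Flow.AS Flow.AA
  rw [ev_sum', sum_div]
  refine sum_congr rfl fun x _ => ?_
  rw [ev_sum', sum_div, sum_div]
  refine sum_congr rfl fun y _ => ?_
  rw [ev_single']
  unfold Hw
  ring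

theorem AS_zero (R : ℕ) (H : ℕ → ℕ → ℝ) : Flow.AS 0 R H = Flow.AA R H := by
  unfold Flow.AS
  simp only [Nat.zero_add]

theorem bw_supp {L R : ℕ} {v : ℤ × ℤ} (h : v ∈ (bw L R).support) :
    ∃ x < R, ∃ y < R, v = (((L + x : ℕ) : ℤ) + y, ((L + x : ℕ) : ℤ) - y) := by
  classical
  unfold bw at h
  have h1 := Finsupp.support_finsetSum h
  rw [mem_biUnion] at h1
  obtain ⟨x, hx, h2⟩ := h1
  have h3 := Finsupp.support_finsetSum h2
  rw [mem_biUnion] at h3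
  obtain ⟨y, hy, h4⟩ := h3
  have h5 := Finsupp.support_single_subset h4
  rw [mem_singleton] at h5
  exact ⟨x, mem_range.1 hx, y, mem_range.1 hy, h5⟩

/-- **The input of the counting lemma.** There is a weight of mass one at scale `s` whose fourth
moment, on the event that there is a circuit at level `0` at scale `4 ^ j s`, is at most
`C' (j + 1) ^ 2`. -/
theorem log_mom {c t : ℝ} (hc : 0 < c) (hct : c * t = 1) (ht1 : t ≤ 1)
    {P : Measure (Ori (ℤ × ℤ))} [IsProbabilityMeasure P] (hice : ∀ᵐ a ∂P, ∀ x y, Ice a x y)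
    (hS : Swap c P) {C γ : ℝ} (hC : 0 ≤ C) (hγ : 0 < γ) (hE : EGD P C γ) :
    ∃ C' : ℝ, 0 ≤ C' ∧ ∃ s₀ : ℕ, 1 ≤ s₀ ∧ ∀ s : ℕ, s₀ ≤ s → ∃ w : (ℤ × ℤ) →₀ ℝ, mass w = 1 ∧
      ∀ j : ℕ, ∫⁻ x in {x | Ann 0 0 (4 ^ j * s) (fine (bl x))},
        ENNReal.ofReal (ev w x.1 ^ 4) ∂(Jmu t P) ≤ ENNReal.ofReal (C' * (j + 1) ^ 2) := by
  refine ⟨512 * 6 * 48 * 49 * Real.exp C, by positivity, ⌈2 / γ⌉₊ + 1, by omega, fun s hs => ?_⟩
  have hs0 : 0 < s := by omega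
  have hs0' : (0 : ℝ) < s := by exact_mod_cast hs0
  have hsγ : 2 / (s : ℝ) ≤ γ := by
    rw [div_le_iff₀ hs0']
    have h1 : 2 / γ ≤ (⌈2 / γ⌉₊ : ℝ) := Nat.le_ceil _
    have h2 : (⌈2 / γ⌉₊ : ℝ) ≤ s := by exact_mod_cast (by omega : ⌈2 / γ⌉₊ ≤ s)
    have h3 : 2 / γ ≤ s := h1.trans h2
    rw [div_le_iff₀ hγ] at h3
    linarith
  refine ⟨bw 0 s, mass_bw 0 hs0, fun j => ?_⟩
  set R := Flow.Rs s j with hR
  have hR0 : 0 < R := Flow.Rs_pos hs0 j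
  have hRs : s ≤ R := Flow.le_Rs s j
  have hRz : (4 : ℤ) ^ j * (s : ℤ) = (R : ℤ) := by rw [hR]; unfold Flow.Rs; push_cast; ring
  rw [hRz]
  have hm : mass (bw 0 s + -(bw (2 * R + 1) R)) = 0 := by
    rw [mass_add', mass_neg', mass_bw 0 hs0, mass_bw _ hR0]; ring
  have key := (mom hc hct ht1 hice hS (p := 0) (q := 0) (s := (R : ℤ)) (by exact_mod_cast hR0)
    (a := bw 0 s) (b := -(bw (2 * R + 1) R)) (fun v hv => by
      obtain ⟨x, hx, y, hy, rfl⟩ := bw_supp hv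
      unfold fi rc
      simp only [Set.mem_ofPred_eq]
      push_cast
      omega) (fun v hv => by
      rw [Finsupp.support_neg] at hv
      obtain ⟨x, hx, y, hy, rfl⟩ := bw_supp hv
      unfold fi rc
      simp only [Set.mem_ofPred_eq]
      push_cast
      omega) hm 2).1
  simp only [show 2 * 2 = 4 from rfl] at key
  refine key.trans (le_trans (le_of_eq (lintegral_congr fun ω => ?_))
    (diff_mom hC hγ hE hice hs0 hsγ j))
  congr 1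
  rw [ev_add', ev_neg', ev_bw, ev_bw, AS_zero]
  ring

end Vale.Agent.P145.X
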