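import Vale.Agent.P145.X.Cnt
import Vale.Agent.P145.X.Log

/-! P145, X-level: `S_cnt` from the exponential bound `EGD`. -/

namespace Vale.Agent.P145.X

open Finset MeasureTheory
open Vale.Agent.P152 (Ori pth Ice)
open Vale.Agent.P145.FA (Hgt mu0 pb)
open Vale.Agent.P145.FB
open Vale.Agent.P145.FB.Mom (EGD)

theorem momJ_of_egd {c t : ℝ} (hc : 0 < c) (hct : c * t = 1) (ht1 : t ≤ 1)
    {P : Measure (Ori (ℤ × ℤ))} [IsProbabilityMeasure P] (hice : ∀ᵐ a ∂P, ∀ x y, Ice a x y)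
    (hS : Swap c P) {C γ : ℝ} (hC : 0 ≤ C) (hγ : 0 < γ) (hE : EGD P C γ) : MomJ t P := by
  obtain ⟨C', hC', s₀, hs₀, h⟩ := log_mom hc hct ht1 hice hS hC hγ hE
  choose! w hw using h
  refine ⟨fun s => w s.toNat, C', s₀, hC', fun s hs => (hw s.toNat (by omega)).1, fun j =>
    ⟨s₀, fun s hs => ?_⟩⟩
  have h1 := (hw s.toNat (by omega)).2 j
  have e : ((s.toNat : ℕ) : ℤ) = s := Int.toNat_of_nonneg (by omega)
  rw [e] at h1
  exact h1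

/-- **COUNT.** -/
theorem s_cnt_egd {c t : ℝ} (hc : 0 < c) (hct : c * t = 1) (ht1 : t ≤ 1)
    {P : Measure (Ori (ℤ × ℤ))} [IsProbabilityMeasure P] (hice : ∀ᵐ a ∂P, ∀ x y, Ice a x y)
    (hS : Swap c P) {C γ : ℝ} (hC : 0 ≤ C) (hγ : 0 < γ) (hE : EGD P C γ)
    (hinv : ∀ v : ℤ × ℤ, (2 : ℤ) ∣ v.1 + v.2 → (mu0 P).map (pb (fun q => q + v)) = mu0 P)
    (hrsw : S_rsw t P) : S_cnt t P :=
  s_cnt hice hinv hrsw (momJ_of_egd hc hct ht1 hice hS hC hγ hE)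

end Vale.Agent.P145.X
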