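import Vale.Agent.P145.X.Stmt
import Vale.Agent.P145.FB.Conf

/-! # Confinement by a circuit (`S_conf`) -/

namespace Vale.Agent.P145.X

open Relation
open Vale.Agent.P145.FB (Pt fine Ann FStep pos rc conf_of_ann SepG o1 o2)

theorem pos_af (f : ℤ × ℤ) : pos (af f) = (2 * f.1 + 1, 2 * f.2 + 1) := by
  unfold pos af
  exact Prod.ext (by simp only; ring) (by simp only; ring)

theorem odd_af (f : ℤ × ℤ) : Odd ((af f).1 + (af f).2) := ⟨f.1, by unfold af; simp only; ring⟩

theorem pos_av (v : ℤ × ℤ) : pos (av v) = (2 * v.1, 2 * v.2) := by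
  unfold pos av
  exact Prod.ext (by simp only; ring) (by simp only; ring)

/-- Face paths of `ℤ²` are face paths of the six-vertex lattice. -/
theorem stp_path {B : Set Pt} {f g : ℤ × ℤ} (h : ReflTransGen (stp B) f g) :
    ReflTransGen (FStep B) (af f) (af g) := by
  induction h with
  | refl => exact ReflTransGen.refl
  | tail _ huv ih =>
    refine ih.tail ?_
    obtain ⟨w, hw, ⟨h1, h2⟩ | ⟨h1, h2⟩⟩ := huv
    · exact ⟨w, hw, Or.inl ⟨h1.symm, h2.symm⟩⟩
    · exact ⟨w, hw, Or.inr ⟨h2.symm, h1.symm⟩⟩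

/-- Separation in the fine lattice confines face paths. -/
theorem conf_of_sepG {B C : Set Pt} {p : ℤ × ℤ} {a b : ℤ} (hC : SepG C p.1 p.2 a b)
    (hCB : C ⊆ fine B) : Conf B (bx p a) (bx p b) := by
  intro f hf g hg
  unfold bx at hf
  simp only [Set.mem_ofPred_eq] at hf
  obtain ⟨h1, h2, h3, h4⟩ := hC.conf hCB (odd_af f)
    (by rw [pos_af]; simp only [rc, Set.mem_ofPred_eq]; omega) (stp_path hg)
  rw [pos_af] at h1 h2 h3 h4
  unfold bx
  simp only [Set.mem_ofPred_eq] at *
  omega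

/-- A circuit confines the box inside. -/
theorem s_conf : S_conf := by
  intro p r B hr hZ f hf g hg
  unfold bx at hf
  simp only [Set.mem_ofPred_eq] at hf
  obtain ⟨h1, h2, h3, h4⟩ := conf_of_ann (by omega) hZ (odd_af f)
    (by rw [pos_af]; simp only [rc, Set.mem_ofPred_eq]; omega) (stp_path hg)
  rw [pos_af] at h1 h2 h3 h4
  unfold bx
  simp only [Set.mem_ofPred_eq] at *
  omega

end Vale.Agent.P145.X
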