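import Vale.Agent.P145.X.DecP

/-!
P145: decay at the boundary, `S_dec`.
-/

namespace Vale.Agent.P145.X

open Filter Topology Set MeasureTheory
open Vale.Agent.P152 (Ori)
open Vale.Agent.P145.FB (Pt)
open Vale.Agent.P145.Top (Fs sq ThickC Om EE hv vh S_mb S_dec)
open Vale.Agent.P145.PT (dd TestOn bump)

/-- Fourth moments of the bump near the boundary. -/
def S_bump (c : ℝ) (δ : ℕ → ℝ) : Prop :=
  ∀ D : Set (ℝ × ℝ), IsOpen D → Bornology.IsBounded D → ThickC D → ∃ C r : ℝ, 0 < C ∧ 0 < r ∧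
    ∀ x ∈ D, dd D x < r → ∀ᶠ n in atTop,
      EE c (δ n) D (fun ω => hv (δ n) (bump (dd D x / 2) x) ω ^ 4) ≤ C

theorem s_dec_of {c t : ℝ} (hc : 1 ≤ c) {P : Measure (Ori (ℤ × ℤ))} (hint : S_int t P)
    (hlowc : S_lowc c t P) (hgap : S_gap t P) (hrsw : S_rsw t P) (hloc : S_loc) (hconf : S_conf)
    {δ : ℕ → ℝ} (hδ : ∀ n, 0 < δ n) (hlim : Tendsto δ atTop (𝓝 0)) (hmb : S_mb c δ)
    (hbump : S_bump c δ) : S_dec c δ := by
  intro D hD hb hT f hf hf0 k ε hε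
  obtain ⟨C, r₁, hC, hr₁, hbump⟩ := hbump D hD hb hT
  obtain ⟨C', hmb⟩ := hmb D hD hb f ⟨hf.1, hf.2.1, Set.subset_univ _⟩ hf0 (4 * k)
  set C'' : ℝ := max C' 1 with hC''
  have hC0 : 0 < C'' := lt_of_lt_of_le one_pos (le_max_right _ _)
  -- the size of the probability
  set η : ℝ := ε ^ 2 / √(C * C'') with hη
  have hCC : 0 < C * C'' := mul_pos hC hC0
  have hη0 : 0 < η := div_pos (pow_pos hε 2) (Real.sqrt_pos.2 hCC)
  have hη2 : C * C'' * η ^ 2 = ε ^ 4 := by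
    rw [hη, div_pow, Real.sq_sqrt hCC.le]
    field_simp
  obtain ⟨r₂, hr₂, hprob⟩ := dec_prob (c := c) hint hlowc hgap hrsw hloc hconf hδ hlim hD hb hT
    hf.2.1 hf.2.2 hη0
  refine ⟨min r₁ r₂, lt_min hr₁ hr₂, fun x hx hxr => ?_⟩
  have hd0 : 0 < dd D x := (PT.dd_pos hD hb).2 hx
  filter_upwards [hbump x hx (hxr.trans_le (min_le_left _ _)),
    hprob x hx (hxr.trans_le (min_le_right _ _)), hmb] with n h1 h2 h3
  obtain ⟨B, K, hBK, hp⟩ := h2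
  have h4 := ze_mixed hc (δ := δ n) (F := Fs (δ n) D) (b := bump (dd D x / 2) x) (f := f) k
    (O := {v | (δ n * (v.1 : ℝ), δ n * (v.2 : ℝ)) ∈ Metric.closedBall x (dd D x / 2)})
    (I := {v | (δ n * (v.1 : ℝ), δ n * (v.2 : ℝ)) ∈ tsupport f})
    (fun v hv => PT.bump_supp (by linarith) x hv) (fun v hv => subset_tsupport f hv) hBK
  have hc0 : (0 : ℝ) ≤ c := by linarith
  have n1 : 0 ≤ Dom.ze c (Fs (δ n) D) (fun x' => hv (δ n) (bump (dd D x / 2) x) (vh x') ^ 4) :=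
    ze_nonneg' hc0 _ fun x' => by positivity
  have n2 : 0 ≤ Dom.ze c (Fs (δ n) D) (fun x' => hv (δ n) f (vh x') ^ (4 * k)) :=
    ze_nonneg' hc0 _ fun x' => by
      rw [mul_comm, pow_mul]
      positivity
  have h5 : Dom.ze c (Fs (δ n) D)
      (fun x' => hv (δ n) (bump (dd D x / 2) x) (vh x') * hv (δ n) f (vh x') ^ k) ^ 4 ≤ ε ^ 4 := by
    refine h4.trans ?_
    rw [← hη2]
    refine mul_le_mul (mul_le_mul h1 (h3.trans (le_max_left _ _)) n2 hC.le)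
      (pow_le_pow_left₀ (pcn_nonneg hc _ _ _ _ _) hp 2) (by positivity) hCC.le
  show Dom.ze c (Fs (δ n) D)
      (fun x' => hv (δ n) (bump (dd D x / 2) x) (vh x') * hv (δ n) f (vh x') ^ k) ≤ ε
  by_contra hcon
  push Not at hcon
  exact absurd h5 (not_le.2 (pow_lt_pow_left₀ hcon hε.le (by norm_num)))

end Vale.Agent.P145.X
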