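import Vale.Agent.P145.X.Dec

/-!
P145, decay at the boundary: fourth moments of the bump near the boundary, uniformly in the
distance to the boundary.
-/

namespace Vale.Agent.P145.X

open Filter Topology Set MeasureTheory
open Vale.Agent.P152 (Ori)
open Vale.Agent.P145.FB (Pt)
open Vale.Agent.P145.Top (Fs sq ThickC Om Cone EE hv vh hB)
open Vale.Agent.P145.PT (dd TestOn bump Z0)

theorem bump_le (s : ℝ) (x z : ℝ × ℝ) : bump s x z ≤ Z0⁻¹ * (s ^ 2)⁻¹ := by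
  unfold PT.bump PT.rs
  have h0 : 0 ≤ Z0⁻¹ * (s ^ 2)⁻¹ :=
    mul_nonneg (inv_nonneg.2 PT.Z0_pos.le) (inv_nonneg.2 (sq_nonneg _))
  calc Z0⁻¹ * (s ^ 2)⁻¹ * PT.kk (PT.sqn (z - x) / s ^ 2) ≤ Z0⁻¹ * (s ^ 2)⁻¹ * 1 :=
        mul_le_mul_of_nonneg_left (PT.kk_le_one _) h0
    _ = _ := mul_one _

/-- The functional as a finitely supported function. -/
theorem exists_u {e : ℝ} (he : 0 < e) {b : ℝ × ℝ → ℝ} {x : ℝ × ℝ} {r : ℝ}
    (hb : ∀ z, b z ≠ 0 → z ∈ Metric.closedBall x r) :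
    ∃ u : (ℤ × ℤ) →₀ ℝ, (∀ v : ℤ × ℤ, u v = e ^ 2 * b (e * v.1, e * v.2)) ∧
      ∀ ω : Om, (u.sum fun v a => a * ω v) = hv e b ω := by
  have hfin : (Function.support fun v : ℤ × ℤ => e ^ 2 * b (e * v.1, e * v.2)).Finite := by
    refine (fin_pts he (S := Metric.closedBall x r) Metric.isBounded_closedBall).subset fun v hv => ?_
    exact hb _ (right_ne_zero_of_mul hv)
  refine ⟨Finsupp.ofSupportFinite _ hfin, fun v => rfl, fun ω => ?_⟩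
  unfold hv
  rw [finsum_eq_sum_of_support_subset (s := (Finsupp.ofSupportFinite
    (fun v : ℤ × ℤ => e ^ 2 * b (e * v.1, e * v.2)) hfin).support), Finset.mul_sum, Finsupp.sum]
  · refine Finset.sum_congr rfl fun v _ => ?_
    show e ^ 2 * b (e * v.1, e * v.2) * ω v = _
    ring
  · intro v hv
    rw [Finset.mem_coe, Finsupp.mem_support_iff]
    exact mul_ne_zero (pow_ne_zero 2 he.ne') (right_ne_zero_of_mul hv)

theorem cone_hv {e : ℝ} (he : 0 < e) {b : ℝ × ℝ → ℝ} (h0 : ∀ z, 0 ≤ b z)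
    (hb : HasCompactSupport b) (k : ℕ) : Cone fun ω => hv e b ω ^ k := by
  obtain ⟨R, hR⟩ := hb.isBounded.subset_ball (0 : ℝ × ℝ)
  obtain ⟨B, hB⟩ := Top.hv_eq_hB (R := R) he
  refine (Top.cone_pow (B := B) (δ := e) h0 k).of_eq fun ω => ?_
  rw [hB b fun z hz => hR (subset_tsupport b hz)]

/-- One coordinate: points of the bump. -/
theorem one_b {e d s a b c q : ℝ} (he : 0 < e) (hes : d ≤ e * s) (hs : 1 ≤ s)
    (h1 : |e * a - b| ≤ d / 2) (h2 : |b - c| ≤ d) (h3 : |e * q - c| ≤ 2 * (e * s) + 4 * e) :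
    |a - q| ≤ 10 * s := by
  have h0' : e ≤ e * s := by
    have := mul_le_mul_of_nonneg_left hs he.le
    linarith
  have h4 : |e * (a - q)| ≤ e * (10 * s) := by
    have : e * (a - q) = (e * a - b) + (b - c) - (e * q - c) := by ring
    rw [this]
    have i1 := abs_sub ((e * a - b) + (b - c)) (e * q - c)
    have i2 := abs_add_le (e * a - b) (b - c)
    linarith
  rw [abs_mul, abs_of_pos he] at h4
  exact le_of_mul_le_mul_left h4 he

theorem pos_b {e d : ℝ} (he : 0 < e) {s : ℤ} (hes : d ≤ e * s) (hs : 1 ≤ s)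
    {x z : ℝ × ℝ} (hxz : dist x z ≤ d) {p v : ℤ × ℤ}
    (hp1 : |e * p.1 - z.1| ≤ 2 * (e * s) + 4 * e) (hp2 : |e * p.2 - z.2| ≤ 2 * (e * s) + 4 * e)
    (hv : (e * (v.1 : ℝ), e * (v.2 : ℝ)) ∈ Metric.closedBall x (d / 2)) {K : ℝ} (hK : 10 ≤ K) :
    |((v.1 - p.1 : ℤ) : ℝ)| ≤ K * s ∧ |((v.2 - p.2 : ℤ) : ℝ)| ≤ K * s := by
  rw [Metric.mem_closedBall, Prod.dist_eq, Real.dist_eq, Real.dist_eq, max_le_iff] at hv
  rw [Prod.dist_eq, Real.dist_eq, Real.dist_eq, max_le_iff] at hxz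
  have hs' : (1 : ℝ) ≤ s := by exact_mod_cast hs
  have a1 := one_b he hes hs' hv.1 hxz.1 hp1
  have a2 := one_b he hes hs' hv.2 hxz.2 hp2
  have h3 : 10 * (s : ℝ) ≤ K * s := mul_le_mul_of_nonneg_right hK (by linarith)
  push_cast
  exact ⟨a1.trans h3, a2.trans h3⟩

theorem u_le {e d s : ℝ} (he : 0 < e) (hd : 0 < d) (hs : 0 < s) (hes : e * s ≤ 101 / 100 * d)
    {y K : ℝ} (hy : y ≤ Z0⁻¹ * ((d / 2) ^ 2)⁻¹) (hK : 5 * Z0⁻¹ ≤ K) : e ^ 2 * y ≤ K / s ^ 2 := by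
  have hZ : 0 < Z0⁻¹ := inv_pos.2 PT.Z0_pos
  have h1 : (e * s) ^ 2 ≤ (101 / 100 * d) ^ 2 := pow_le_pow_left₀ (by positivity) hes 2
  rw [le_div_iff₀ (by positivity)]
  calc e ^ 2 * y * s ^ 2 = (e * s) ^ 2 * y := by ring
    _ ≤ (e * s) ^ 2 * (Z0⁻¹ * ((d / 2) ^ 2)⁻¹) := mul_le_mul_of_nonneg_left hy (sq_nonneg _)
    _ ≤ (101 / 100 * d) ^ 2 * (Z0⁻¹ * ((d / 2) ^ 2)⁻¹) :=
        mul_le_mul_of_nonneg_right h1 (by positivity)
    _ = (101 / 100) ^ 2 * 4 * Z0⁻¹ := by field_simp; ring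
    _ ≤ 5 * Z0⁻¹ := by nlinarith
    _ ≤ K := hK

theorem s_bump {c t : ℝ} {P : Measure (Ori (ℤ × ℤ))} (hc : 1 ≤ c) (hlow : S_low c t P)
    (hmom : S_mom t P) (hrsw : S_rsw t P) (hloc : S_loc) {δ : ℕ → ℝ} (hδ : ∀ n, 0 < δ n)
    (hlim : Tendsto δ atTop (𝓝 0)) : S_bump c δ := by
  intro D hD hb hT
  obtain ⟨g, hg, hT⟩ := hT
  set K : ℝ := max 10 (5 * Z0⁻¹) with hK
  have hK10 : 10 ≤ K := le_max_left _ _
  obtain ⟨C, s₁, hs₁, hmom⟩ := hmom K 2 (by linarith)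
  obtain ⟨c₁, hc₁, r₀, hr₀, hrsw⟩ := hrsw
  refine ⟨|C| / c₁ + 1, g / 16, by positivity, by positivity, fun x hx hxr => ?_⟩
  have hd0 : 0 < dd D x := (PT.dd_pos hD hb).2 hx
  obtain ⟨z₀, hz₀, hdz⟩ := hD.isClosed_compl.exists_infDist_eq_dist (PT.compl_ne hb) x
  have hdz' : dist x z₀ = dd D x := hdz.symm
  generalize dd D x = d at hxr hd0 hdz' ⊢
  have hN₀1 : (1 : ℝ) ≤ max (s₁ : ℝ) r₀ := le_max_of_le_left (by exact_mod_cast hs₁)
  have hev : ∀ᶠ n in atTop, δ n < min (d / 100) (d / max (s₁ : ℝ) r₀) :=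
    (tendsto_order.1 hlim).2 _ (lt_min (by positivity) (by positivity))
  filter_upwards [hev] with n hn
  have hδn := hδ n
  generalize δ n = e at hn hδn ⊢
  have he1 : e < d / 100 := hn.trans_le (min_le_left _ _)
  obtain ⟨hes1, hes3, hsN⟩ := scale hδn hN₀1 he1 (hn.trans_le (min_le_right _ _))
  generalize ⌈d / e⌉ = s at hes1 hes3 hsN
  have hss : s₁ ≤ s := by exact_mod_cast (le_max_left (s₁ : ℝ) r₀).trans hsN
  have hsr : r₀ ≤ s := by exact_mod_cast (le_max_right (s₁ : ℝ) r₀).trans hsN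
  have hs0 : 1 ≤ s := hs₁.trans hss
  have hs0' : (0 : ℝ) < s := by exact_mod_cast hs0
  obtain ⟨p, hp, hpz1, hpz2⟩ := exists_box hg hT hz₀ hδn (W := s) hs0 (by linarith)
  set b : ℝ × ℝ → ℝ := bump (d / 2) x with hbdef
  have hbs : ∀ z, b z ≠ 0 → z ∈ Metric.closedBall x (d / 2) := fun z hz =>
    PT.bump_supp (by linarith) x hz
  obtain ⟨u, hu, hus⟩ := exists_u hδn hbs
  have h1 := hmom s hss p u (fun v => by
      rw [hu]
      exact ⟨mul_nonneg (sq_nonneg _) (PT.bump_nonneg _ _ _),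
        u_le hδn hd0 hs0' hes3 (bump_le _ _ _) (le_max_right _ _)⟩)
    (fun v hv => by
      rw [hu] at hv
      exact pos_b hδn hes1 hs0 hdz'.le hpz1 hpz2 (hbs _ (right_ne_zero_of_mul hv)) hK10)
  have e1 : (fun ω : Om => (u.sum fun v a => a * ω v) ^ (2 * 2)) = fun ω => hv e b ω ^ 4 := by
    funext ω
    rw [hus]
  rw [e1] at h1
  obtain ⟨-, hf1⟩ := hloc p s hs0
  have hΘ : Fn (iE (Fs e D : Set (ℤ × ℤ)))ᶜ (ind (Zr p s)) :=
    hf1.monoD fun w hw => tE_compl hδn hp hw.1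
  have h2 := hlow (Fs e D) (ind (Zr p s)) (fun ω => hv e b ω ^ 4) hΘ
    (cone_hv hδn (fun z => PT.bump_nonneg _ _ _)
      (HasCompactSupport.intro' (isCompact_closedBall x (d / 2)) Metric.isClosed_closedBall
        fun z hz => by_contra fun h => hz (hbs z h)) 4)
  have h3 := (hrsw s hsr p).1
  show Dom.ze c (Fs e D) (fun x' => hv e b (vh x') ^ 4) ≤ |C| / c₁ + 1
  have hc0 : (0 : ℝ) ≤ c := by linarith
  have n1 : 0 ≤ Dom.ze c (Fs e D) (fun x' => hv e b (vh x') ^ 4) :=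
    ze_nonneg' hc0 _ fun x' => by positivity
  have h4 : Dom.ze c (Fs e D) (fun x' => hv e b (vh x') ^ 4) * c₁ ≤ |C| :=
    (mul_le_mul_of_nonneg_left h3 n1).trans (h2.trans (h1.trans (le_abs_self C)))
  have h5 : Dom.ze c (Fs e D) (fun x' => hv e b (vh x') ^ 4) ≤ |C| / c₁ := by
    rw [le_div_iff₀ hc₁]; exact h4
  linarith

/-- The decay at the boundary. -/
theorem s_dec {c t : ℝ} (hc : 1 ≤ c) {P : Measure (Ori (ℤ × ℤ))} (hint : S_int t P)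
    (hlow : S_low c t P) (hlowc : S_lowc c t P) (hgap : S_gap t P) (hmom : S_mom t P)
    (hrsw : S_rsw t P) (hloc : S_loc) (hconf : S_conf) {δ : ℕ → ℝ} (hδ : ∀ n, 0 < δ n)
    (hlim : Tendsto δ atTop (𝓝 0)) (hmb : Top.S_mb c δ) : Top.S_dec c δ :=
  s_dec_of hc hint hlowc hgap hrsw hloc hconf hδ hlim hmb
    (s_bump hc hlow hmom hrsw hloc hδ hlim)

end Vale.Agent.P145.X
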