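import Vale.Agent.P145.Top.Stmt
import Vale.Agent.P145.FB.Out

/-!
P145, block F-X: objects and statements between the percolation input and the interface
`Top/Stmt.lean`.

Coordinates: `av v` is the (even) six-vertex face of the vertex `v` of `ℤ²`, `af f` the (odd)
six-vertex face of the face `f` (unit square with lower left corner `f`) of `ℤ²`.
-/

namespace Vale.Agent.P145.X

open Filter Topology Set MeasureTheory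
open Vale.Agent.P152 (Ori)
open Vale.Agent.P145.FA (Hgt)
open Vale.Agent.P145.FB (Pt Mk e1 e2 o1 o2 Ann MU bl fine mkm om)
open Vale.Agent.P145.Top (Om Cone vh EE hv hvl)
open Vale.Agent.P145.Dom (ze)
open Vale.Agent.P145.PT (TestOn)

/-- Level-`0` circuit in the annulus with centre `p` (vertex of `ℤ²`) and radii `r`, `2 r`. -/
def Zr (p : ℤ × ℤ) (r : ℤ) (B : Set Pt) : Prop := Ann p.1 p.2 r (fine B)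

/-- Six-vertex face of a vertex of `ℤ²`. -/
def av (v : ℤ × ℤ) : Pt := (v.1 + v.2, v.1 - v.2)

/-- Six-vertex face of a face of `ℤ²`. -/
def af (f : ℤ × ℤ) : Pt := (f.1 + f.2 + 1, f.1 - f.2)

/-- Edges with both faces in `F`. -/
def iE (F : Set (ℤ × ℤ)) : Set Pt := {w | ∃ f ∈ F, ∃ g ∈ F, o1 w = af f ∧ o2 w = af g}

/-- Edges with a face in `F`. -/
def tE (F : Set (ℤ × ℤ)) : Set Pt := {w | ∃ f ∈ F, o1 w = af f ∨ o2 w = af f}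

/-- Vertices all faces of which are in `F`. -/
def inV (F : Set (ℤ × ℤ)) : Set (ℤ × ℤ) :=
  {v | v ∈ F ∧ (v.1 - 1, v.2) ∈ F ∧ (v.1, v.2 - 1) ∈ F ∧ (v.1 - 1, v.2 - 1) ∈ F}

/-- A step of a path of faces which is not blocked by `B`. -/
def stp (B : Set Pt) (f g : ℤ × ℤ) : Prop :=
  ∃ w, w ∉ B ∧ ((o1 w = af f ∧ o2 w = af g) ∨ (o1 w = af g ∧ o2 w = af f))

/-- The faces joined to `S` by paths avoiding `B` are in `T`. -/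
def Conf (B : Set Pt) (S T : Set (ℤ × ℤ)) : Prop :=
  ∀ f ∈ S, ∀ g, Relation.ReflTransGen (stp B) f g → g ∈ T

/-- The faces in the square `[p - r, p + r]`. -/
def bx (p : ℤ × ℤ) (r : ℤ) : Set (ℤ × ℤ) :=
  {f | p.1 - r ≤ f.1 ∧ f.1 < p.1 + r ∧ p.2 - r ≤ f.2 ∧ f.2 < p.2 + r}

/-- `g` depends only on finitely many edges, in `A`. -/
def LocS (A : Set Pt) (g : Set Pt → ℝ) : Prop :=
  ∃ Λ : Finset Pt, (∀ w ∈ Λ, w ∈ A) ∧ ∀ B B' : Set Pt, (∀ w ∈ Λ, w ∈ B ↔ w ∈ B') → g B = g B'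

/-- Nonnegative local function of the set of blocked edges which vanishes on the empty set. -/
structure Fn (A : Set Pt) (g : Set Pt → ℝ) : Prop where
  nonneg : ∀ B, 0 ≤ g B
  loc : LocS A g
  pin : g ∅ = 0

/-- The heights `h / 2` at the vertices of `ℤ²`. -/
noncomputable def vm (h : Hgt) : Om := fun v => (h (av v) : ℝ) / 2

/-- `A` depends only on the heights of the vertices of `V`. -/
def On (V : Set (ℤ × ℤ)) (A : Om → ℝ) : Prop := ∀ ω ω' : Om, (∀ v ∈ V, ω v = ω' v) → A ω = A ω'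

/-- `∫ g(bl) A(heights) dMU`. -/
noncomputable def II (t : ℝ) (P : Measure (Ori (ℤ × ℤ))) (g : Set Pt → ℝ) (A : Om → ℝ) : ℝ :=
  ∫ x, g (bl x) * A (vm x.1) ∂(MU t P)

open Classical in
/-- Indicator of a property of sets of edges. -/
noncomputable def ind (Q : Set Pt → Prop) : Set Pt → ℝ := fun B => if Q B then 1 else 0

/-! ### Positive association in the plane -/

/-- Integrability. -/
def S_int (t : ℝ) (P : Measure (Ori (ℤ × ℤ))) : Prop :=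
  ∀ (g : Set Pt → ℝ) (A : Om → ℝ), LocS univ g → g ∅ = 0 → Top.Alg A →
    Integrable (fun x => g (bl x) * A (vm x.1)) (MU t P)

/-- LOW (helper145). -/
def S_low (c t : ℝ) (P : Measure (Ori (ℤ × ℤ))) : Prop :=
  ∀ (F : Finset (ℤ × ℤ)) (Θ : Set Pt → ℝ) (A : Om → ℝ), Fn (iE F)ᶜ Θ → Cone A →
    ze c F (fun x => A (vh x)) * II t P Θ (fun _ => 1) ≤ II t P Θ A

/-- UP (helper256). -/
def S_up (c t : ℝ) (P : Measure (Ori (ℤ × ℤ))) : Prop :=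
  ∀ (F F' : Finset (ℤ × ℤ)) (g : Set Pt → ℝ) (A : Om → ℝ), F ⊆ F' → Fn (iE F)ᶜ g → Monotone g →
    (∀ B, g B ≠ 0 → Conf B (F' : Set (ℤ × ℤ))ᶜ (F : Set (ℤ × ℤ))ᶜ) → Cone A → On (inV F) A →
    II t P g A ≤ ze c F' (fun x => A (vh x)) * II t P g (fun _ => 1)

/-- EXT (helper145): the cluster of the box `bx p r` is explored from inside. -/
def S_ext (t : ℝ) (P : Measure (Ori (ℤ × ℤ))) : Prop :=
  ∀ (p : ℤ × ℤ) (r : ℤ) (X Θ a : Set Pt → ℝ) (A : Om → ℝ), 1 ≤ r →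
    Fn univ X → Monotone X → (∀ B, X B ≠ 0 → Conf B (bx p r) (bx p (2 * r))) →
    Fn (tE (bx p r)) Θ →
    (∀ B, 0 ≤ a B) → LocS (tE (bx p (3 * r)))ᶜ a → Antitone a →
    Cone A → On (inV (bx p (2 * r))ᶜ) A →
    II t P (fun B => X B * a B) A * II t P Θ (fun _ => 1) ≤
      II t P X (fun _ => 1) * II t P (fun B => Θ B * a B) A

/-! ### Circuits -/

/-- RSW (helper720): circuits at level `0` exist with positive mass at all scales. -/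
def S_rsw (t : ℝ) (P : Measure (Ori (ℤ × ℤ))) : Prop :=
  ∃ c₁ : ℝ, 0 < c₁ ∧ ∃ r₀ : ℤ, 1 ≤ r₀ ∧ ∀ r, r₀ ≤ r → ∀ p : ℤ × ℤ,
    c₁ ≤ II t P (ind (Zr p r)) (fun _ => 1) ∧ II t P (ind (Zr p r)) (fun _ => 1) ≤ 2

/-- A circuit confines the box inside (deterministic). -/
def S_conf : Prop := ∀ (p : ℤ × ℤ) (r : ℤ) (B : Set Pt), 1 ≤ r → Zr p r B →
  Conf B (bx p r) (bx p (2 * r))

/-- Locality of `Zr` (deterministic). -/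
def S_loc : Prop := ∀ (p : ℤ × ℤ) (r : ℤ), 1 ≤ r →
  Monotone (ind (Zr p r)) ∧ Fn {w | w ∈ tE (bx p (2 * r)) ∧ w ∉ iE (bx p r)} (ind (Zr p r))

/-- MOM (helper65, helper745): moments near a circuit, uniformly in the scale. -/
def S_mom (t : ℝ) (P : Measure (Ori (ℤ × ℤ))) : Prop :=
  ∀ (K : ℝ) (k : ℕ), 0 < K → ∃ C : ℝ, ∃ s₀ : ℤ, 1 ≤ s₀ ∧ ∀ s, s₀ ≤ s → ∀ (p : ℤ × ℤ)
    (u : (ℤ × ℤ) →₀ ℝ), (∀ v, 0 ≤ u v ∧ u v ≤ K / (s : ℝ) ^ 2) →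
    (∀ v, u v ≠ 0 → |((v.1 - p.1 : ℤ) : ℝ)| ≤ K * s ∧ |((v.2 - p.2 : ℤ) : ℝ)| ≤ K * s) →
    II t P (ind (Zr p s)) (fun ω => (u.sum fun v a => a * ω v) ^ (2 * k)) ≤ C

/-- COUNT: at one of the first `n` scales, given a circuit at level `0`, there is another one at a
larger scale, except with relative probability `η`. -/
def S_cnt (t : ℝ) (P : Measure (Ori (ℤ × ℤ))) : Prop :=
  ∀ η : ℝ, 0 < η → ∀ N : ℕ, ∃ n : ℕ, N ≤ n ∧ ∃ s₀ : ℤ, 1 ≤ s₀ ∧ ∀ s, s₀ ≤ s → ∃ j < n,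
    ∀ p : ℤ × ℤ,
      II t P (ind fun B => Zr p (4 ^ j * s) B ∧ ∀ i, j + 4 ≤ i → i ≤ 2 * n → ¬ Zr p (4 ^ i * s) B)
        (fun _ => 1) ≤ η * II t P (ind (Zr p (4 ^ j * s))) (fun _ => 1)

/-- GAP (from `S_ext`, `S_cnt`, `S_conf`, `S_loc`). -/
def S_gap (t : ℝ) (P : Measure (Ori (ℤ × ℤ))) : Prop :=
  ∀ η : ℝ, 0 < η → ∀ N : ℕ, ∃ n : ℕ, N ≤ n ∧ ∃ s₀ : ℤ, 1 ≤ s₀ ∧ ∀ s, s₀ ≤ s → ∃ j < n,
    ∀ (p : ℤ × ℤ) (X : Set Pt → ℝ), Fn univ X → Monotone X →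
      (∀ B, X B ≠ 0 → Zr p (4 ^ (j + 1) * s) B) →
      II t P (fun B => X B * ind (fun B => ∀ i, j + 4 ≤ i → i ≤ 2 * n → ¬ Zr p (4 ^ i * s) B) B)
        (fun _ => 1) ≤ η * II t P X (fun _ => 1)

/-- POS: the full grid of circuits, all at level `0`, together with a big one. -/
def S_pos (t : ℝ) (P : Measure (Ori (ℤ × ℤ))) : Prop :=
  ∀ N : ℕ, ∃ c : ℝ, 0 < c ∧ ∃ s₀ : ℤ, 1 ≤ s₀ ∧ ∀ s, s₀ ≤ s → ∀ (y₀ : ℤ × ℤ) (m : ℤ), 1 ≤ m →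
    |y₀.1| + 2 * m ≤ N → |y₀.2| + 2 * m ≤ N →
    c ≤ II t P (ind fun B => (∀ y : ℤ × ℤ, |y.1| ≤ N → |y.2| ≤ N → Zr (s * y.1, s * y.2) s B) ∧
      Zr (s * y₀.1, s * y₀.2) (m * s) B) (fun _ => 1)

/-- Moments given a monotone event which contains a circuit (from `S_ext`). -/
def S_emom (t : ℝ) (P : Measure (Ori (ℤ × ℤ))) : Prop :=
  ∀ (p : ℤ × ℤ) (s : ℤ) (X : Set Pt → ℝ) (A : Om → ℝ), 1 ≤ s → Fn univ X → Monotone X →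
    (∀ B, X B ≠ 0 → Zr p (4 * s) B) → Cone A → On (inV (bx p (8 * s))ᶜ) A →
    II t P X A * II t P (ind (Zr p s)) (fun _ => 1) ≤
      II t P X (fun _ => 1) * II t P (ind (Zr p s)) A

/-- MM: moments of the heights given a macroscopic circuit at level `0`. -/
def S_mm (t : ℝ) (P : Measure (Ori (ℤ × ℤ))) (δ : ℕ → ℝ) : Prop := ∀ R : ℝ, 1 ≤ R → ∀ k : ℕ,
  ∃ C : ℝ, 0 ≤ C ∧ ∀ f : ℝ × ℝ → ℝ, TestOn (Metric.ball 0 R) f → ∀ ε : ℝ, 0 < ε →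
    ∀ᶠ n in atTop, ∀ (p : ℤ × ℤ) (s : ℤ), |δ n * p.1| ≤ R → |δ n * p.2| ≤ R →
      R⁻¹ ≤ δ n * s → δ n * s ≤ R →
        II t P (ind (Zr p s)) (fun ω => hv (δ n) f ω ^ (2 * k)) ≤ C * ((∫ z, f z ^ 2) + ε) ^ k

/-! ### Functionals of the heights -/

/-- Conditional expectation of `g(bl)` given the heights. -/
noncomputable def avg (t : ℝ) (g : Set Pt → ℝ) (h : Hgt) : ℝ :=
  ∫ ξ, g (bl (h, om h ξ)) ∂(mkm t)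

/-- AVG: properties of `avg`. -/
structure S_avg (t : ℝ) (P : Measure (Ori (ℤ × ℤ))) : Prop where
  loc : ∀ (A : Set Pt) (g : Set Pt → ℝ), LocS A g →
    FA.Loc {q | ∃ w ∈ A, q = e1 w ∨ q = e2 w ∨ q = o1 w ∨ q = o2 w} (avg t g)
  mul : ∀ (A A' : Set Pt) (g g' : Set Pt → ℝ), LocS A g → LocS A' g' → Disjoint A A' →
    ∀ h, avg t (fun B => g B * g' B) h = avg t g h * avg t g' h
  nonneg : ∀ g : Set Pt → ℝ, (∀ B, 0 ≤ g B) → ∀ h, 0 ≤ avg t g h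
  le_one : ∀ g : Set Pt → ℝ, LocS univ g → (∀ B, g B ≤ 1) → ∀ h, avg t g h ≤ 1
  int : ∀ (g : Set Pt → ℝ) (F : Hgt → ℂ), LocS univ g → g ∅ = 0 → FA.Loc univ F →
    ∫ h, ((avg t g h : ℝ) : ℂ) * F h ∂(FA.mu0 P) = ∫ x, ((g (bl x) : ℝ) : ℂ) * F x.1 ∂(MU t P)

/-! ### Geometry -/

/-- The regions of the pinwheel of the cell `[x₁, x₂] × [y₁, y₂]` (six-vertex coordinates). -/
def Kq (x₁ x₂ y₁ y₂ e : ℝ) (i : Fin 4) : Set (ℝ × ℝ) :=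
  {z | (i = 0 ∧ z.1 ≤ x₁ - e) ∨ (i = 1 ∧ y₂ + e ≤ z.2 ∧ x₁ ≤ z.1) ∨
    (i = 2 ∧ x₂ + e ≤ z.1 ∧ z.2 ≤ y₂) ∨ (i = 3 ∧ z.2 ≤ y₁ - e ∧ x₁ ≤ z.1 ∧ z.1 ≤ x₂)}

/-- All faces (of the six-vertex lattice) of the edges of `A` are in the region `K`. -/
def Fin6 (δ : ℝ) (A : Set Pt) (K : Set (ℝ × ℝ)) : Prop :=
  ∀ w ∈ A, ∀ q, (q = e1 w ∨ q = e2 w ∨ q = o1 w ∨ q = o2 w) → (δ * (q.1 : ℝ), δ * (q.2 : ℝ)) ∈ K

/-- The scales: `sc ε δ i = 4 ^ i ⌊ε / δ⌋`. -/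
noncomputable def sc (ε δ : ℝ) (i : ℕ) : ℤ := 4 ^ i * ⌊ε / δ⌋

/-- The centre `y`, for the spacing `w`. -/
def ce (w : ℤ) (y : ℤ × ℤ) : ℤ × ℤ := (w * y.1, w * y.2)

/-- SHELL (helper528): the net `Y` of circuits and the closing circuits at the centres `Q`. -/
def S_geom : Prop := ∀ D₁ D₂ : Set (ℝ × ℝ), IsOpen D₁ → IsOpen D₂ → Bornology.IsBounded D₂ →
  closure D₁ ⊆ D₂ → ∀ a b a' b' : ℝ, a < b → a' < b' → Top.ccell a b a' b' ⊆ D₁ →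
  ∃ N₀ : ℕ, ∀ m : ℕ, ∃ ε₀ : ℝ, 0 < ε₀ ∧ ∀ ε : ℝ, 0 < ε → ε ≤ ε₀ → ∃ N : ℕ, ∃ e : ℝ, 0 < e ∧
  ∀ j : ℕ, j + 4 ≤ m → ∀ᶠ δ in 𝓝[>] (0 : ℝ), ∃ Y Q : Finset (ℤ × ℤ), Q ⊆ Y ∧ Q.card ≤ N₀ ∧
    (∀ y ∈ Y, |y.1| ≤ N ∧ |y.2| ≤ N) ∧
    (∀ y ∈ Y, tE (bx (ce (sc ε δ (j + 1)) y) (2 * sc ε δ (j + 1))) ⊆
        (iE (Top.Fs δ D₁ : Set (ℤ × ℤ)))ᶜ ∧
      ∃ i, Fin6 δ (tE (bx (ce (sc ε δ (j + 1)) y) (2 * sc ε δ (j + 1)))) (Kq a b a' b' e i)) ∧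
    (∀ y ∈ Q, tE (bx (ce (sc ε δ (j + 1)) y) (2 * sc ε δ m)) ⊆ (iE (Top.Fs δ D₁ : Set (ℤ × ℤ)))ᶜ) ∧
    ∀ B : Set Pt, (∀ y ∈ Y, Zr (ce (sc ε δ (j + 1)) y) (sc ε δ (j + 1)) B) →
      (∀ y ∈ Q, ∃ i, j + 4 ≤ i ∧ i ≤ m ∧ Zr (ce (sc ε δ (j + 1)) y) (sc ε δ i) B) →
      Conf B (Top.Fs δ D₂ : Set (ℤ × ℤ))ᶜ (Top.Fs δ D₁ : Set (ℤ × ℤ))ᶜ

/-- FAR: a big circuit far away on the left, at a centre of the same net; `R` does not depend on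
the spacing. -/
def S_far : Prop := ∀ (D : Set (ℝ × ℝ)) (x₁ : ℝ), Bornology.IsBounded D →
  ∃ R : ℝ, 1 ≤ R ∧ D ⊆ Metric.ball 0 R ∧ ∀ (m : ℕ) (ε : ℝ), 0 < ε → 4 ^ (m + 2) * ε ≤ 1 →
  ∃ N : ℕ, ∀ j : ℕ, j ≤ m → ∀ᶠ δ in 𝓝[>] (0 : ℝ), ∃ (y : ℤ × ℤ) (l : ℤ), 1 ≤ l ∧
    |y.1| + 8 * l ≤ N ∧ |y.2| + 8 * l ≤ N ∧
    |δ * ((ce (sc ε δ (j + 1)) y).1 : ℝ)| ≤ R ∧ |δ * ((ce (sc ε δ (j + 1)) y).2 : ℝ)| ≤ R ∧
    R⁻¹ ≤ δ * ((l * sc ε δ (j + 1) : ℤ) : ℝ) ∧ δ * ((l * sc ε δ (j + 1) : ℤ) : ℝ) ≤ R ∧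
    Fin6 δ (tE (bx (ce (sc ε δ (j + 1)) y) (8 * (l * sc ε δ (j + 1))))) {z | z.1 ≤ x₁ - 1} ∧
    ∀ v : ℤ × ℤ, (δ * (v.1 : ℝ), δ * (v.2 : ℝ)) ∈ D →
      v ∈ inV (bx (ce (sc ε δ (j + 1)) y) (8 * (l * sc ε δ (j + 1))))ᶜ

end Vale.Agent.P145.X
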