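import Vale.Agent.P145.X.Shell
import Vale.Agent.P145.X.Stmt

/-!
P145: a ball which avoids the corridors of the pinwheel is in one of its four arms.
-/

namespace Vale.Agent.P145.X

open Set
open Vale.Agent.P145.FB (Pt e1 e2 o1 o2)

theorem arm_dich {X : Type*} [TopologicalSpace X] {S : Set X} (hS : IsPreconnected S)
    {f : X → ℝ} (hf : Continuous f) {α β : ℝ} (hαβ : α ≤ β)
    (h : ∀ z ∈ S, f z < α ∨ β < f z) : (∀ z ∈ S, f z < α) ∨ (∀ z ∈ S, β < f z) := by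
  by_contra hcon
  push Not at hcon
  obtain ⟨⟨x, hx, hxa⟩, y, hy, hyb⟩ := hcon
  have hx' : β < f x := by
    rcases h x hx with h1 | h1
    · linarith
    · exact h1
  have hy' : f y < α := by
    rcases h y hy with h1 | h1
    · exact h1
    · linarith
  have := hS.intermediate_value hy hx hf.continuousOn
  obtain ⟨z, hz, hfz⟩ := this ⟨hy'.le, hxa⟩
  rcases h z hz with h1 | h1 <;> linarith

theorem arms_ball' {a b a' b' e ρ : ℝ} {c : ℝ × ℝ} {D : Set (ℝ × ℝ)} (hab' : a' < b')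
    (he : 0 < e) (hD : Top.ccell a b a' b' ⊆ D) (hinf : ρ + e ≤ Metric.infDist c D)
    (hball : ∀ z, dist z c ≤ ρ → ∀ i, z ∉ cor (fun z => z.1 + z.2) (fun z => z.1 - z.2)
      (a - e / 2) (b + e / 2) (b' + e / 2) (e / 2) i) :
    (∀ z : ℝ × ℝ, dist z c ≤ ρ → z.1 + z.2 ≤ a - e) ∨
    (∀ z : ℝ × ℝ, dist z c ≤ ρ → b' + e ≤ z.1 - z.2 ∧ a ≤ z.1 + z.2) ∨
    (∀ z : ℝ × ℝ, dist z c ≤ ρ → b + e ≤ z.1 + z.2 ∧ z.1 - z.2 ≤ b') ∨
    (∀ z : ℝ × ℝ, dist z c ≤ ρ → z.1 - z.2 ≤ a' - e ∧ a ≤ z.1 + z.2 ∧ z.1 + z.2 ≤ b) := by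
  have hS : IsPreconnected (Metric.closedBall c ρ) := (convex_closedBall c ρ).isPreconnected
  have hs : Continuous fun z : ℝ × ℝ => z.1 + z.2 := continuous_fst.add continuous_snd
  have hd : Continuous fun z : ℝ × ℝ => z.1 - z.2 := continuous_fst.sub continuous_snd
  have h0 : ∀ z ∈ Metric.closedBall c ρ, z.1 + z.2 < a - e ∨ a < z.1 + z.2 := by
    intro z hz
    by_contra hcon
    push Not at hcon
    refine hball z hz 0 ?_
    show |z.1 + z.2 - (a - e / 2)| ≤ e / 2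
    rw [abs_le]
    constructor <;> linarith [hcon.1, hcon.2]
  rcases arm_dich hS hs (by linarith) h0 with h0 | h0
  · exact Or.inl fun z hz => (h0 z hz).le
  right
  have h1 : ∀ z ∈ Metric.closedBall c ρ, z.1 - z.2 < b' ∨ b' + e < z.1 - z.2 := by
    intro z hz
    by_contra hcon
    push Not at hcon
    refine hball z hz 1 ?_
    show |z.1 - z.2 - (b' + e / 2)| ≤ e / 2 ∧ a - e / 2 - e / 2 ≤ z.1 + z.2
    rw [abs_le]
    refine ⟨⟨?_, ?_⟩, ?_⟩ <;> linarith [hcon.1, hcon.2, h0 z hz]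
  rcases arm_dich hS hd (by linarith) h1 with h1 | h1
  swap
  · exact Or.inl fun z hz => ⟨(h1 z hz).le, (h0 z hz).le⟩
  right
  have h2 : ∀ z ∈ Metric.closedBall c ρ, z.1 + z.2 < b ∨ b + e < z.1 + z.2 := by
    intro z hz
    by_contra hcon
    push Not at hcon
    refine hball z hz 2 ?_
    show |z.1 + z.2 - (b + e / 2)| ≤ e / 2 ∧ z.1 - z.2 ≤ b' + e / 2 + e / 2
    rw [abs_le]
    refine ⟨⟨?_, ?_⟩, ?_⟩ <;> linarith [hcon.1, hcon.2, h1 z hz]
  rcases arm_dich hS hs (by linarith) h2 with h2 | h2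
  swap
  · exact Or.inl fun z hz => ⟨(h2 z hz).le, (h1 z hz).le⟩
  right
  intro z hz
  have hz0 := h0 z hz
  have hz1 := h1 z hz
  have hz2 := h2 z hz
  refine ⟨?_, hz0.le, hz2.le⟩
  by_contra hcon
  push Not at hcon
  -- a point of the cell close to `z`
  set m := max (z.1 - z.2) a' with hm
  have hm1 : z.1 - z.2 ≤ m := le_max_left _ _
  have hm2 : a' ≤ m := le_max_right _ _
  have hm3 : m ≤ b' := max_le hz1.le hab'.le
  have hm4 : m ≤ z.1 - z.2 + e := max_le (by linarith) (by linarith)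
  have hp : ((z.1 + z.2 + m) / 2, (z.1 + z.2 - m) / 2) ∈ D := by
    apply hD
    refine ⟨?_, ?_, ?_, ?_⟩ <;> dsimp only <;> linarith
  have hdist : dist z ((z.1 + z.2 + m) / 2, (z.1 + z.2 - m) / 2) ≤ e / 2 := by
    rw [Prod.dist_eq, Real.dist_eq, Real.dist_eq]
    refine max_le ?_ ?_ <;> dsimp only <;> rw [abs_le] <;> constructor <;> linarith
  have h3 := Metric.infDist_le_dist_of_mem (x := c) hp
  have h4 := dist_triangle c z ((z.1 + z.2 + m) / 2, (z.1 + z.2 - m) / 2)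
  have h5 : dist c z ≤ ρ := by rw [dist_comm]; exact hz
  linarith

/-- A ball away from the cell which avoids the corridors is in one of the four regions. -/
theorem arms_ball {a b a' b' e ρ : ℝ} {c : ℝ × ℝ} {D : Set (ℝ × ℝ)} (hab' : a' < b')
    (he : 0 < e) (hD : Top.ccell a b a' b' ⊆ D) (hinf : ρ + e ≤ Metric.infDist c D)
    (hball : ∀ z, dist z c ≤ ρ → ∀ i, z ∉ cor (fun z => z.1 + z.2) (fun z => z.1 - z.2)
      (a - e / 2) (b + e / 2) (b' + e / 2) (e / 2) i) :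
    ∃ i : Fin 4, ∀ z : ℝ × ℝ, dist z c ≤ ρ → (z.1 + z.2, z.1 - z.2) ∈ Kq a b a' b' e i := by
  rcases arms_ball' hab' he hD hinf hball with h | h | h | h
  · exact ⟨0, fun z hz => Or.inl ⟨rfl, h z hz⟩⟩
  · exact ⟨1, fun z hz => Or.inr (Or.inl ⟨rfl, (h z hz).1, (h z hz).2⟩)⟩
  · exact ⟨2, fun z hz => Or.inr (Or.inr (Or.inl ⟨rfl, (h z hz).1, (h z hz).2⟩))⟩
  · exact ⟨3, fun z hz => Or.inr (Or.inr (Or.inr ⟨rfl, (h z hz).1, (h z hz).2.1, (h z hz).2.2⟩))⟩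

/-- The faces (of the six-vertex lattice) of an edge are close together. -/
theorem near_faces {w q q' : Pt} (hq : q = e1 w ∨ q = e2 w ∨ q = o1 w ∨ q = o2 w)
    (hq' : q' = o1 w ∨ q' = o2 w) : |q.1 - q'.1| ≤ 1 ∧ |q.2 - q'.2| ≤ 1 := by
  unfold e1 e2 o1 o2 at hq
  unfold o1 o2 at hq'
  split_ifs at hq hq' with h <;> rcases hq with rfl | rfl | rfl | rfl <;>
    rcases hq' with rfl | rfl <;> constructor <;> rw [abs_le] <;> constructor <;>
      (try dsimp only) <;> omega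

/-- The point of the plane of a six-vertex face. -/
noncomputable def zpt (δ : ℝ) (q : Pt) : ℝ × ℝ :=
  (δ * ((q.1 : ℝ) + q.2) / 2, δ * ((q.1 : ℝ) - q.2) / 2)

theorem zpt_sd (δ : ℝ) (q : Pt) :
    ((zpt δ q).1 + (zpt δ q).2, (zpt δ q).1 - (zpt δ q).2) = (δ * (q.1 : ℝ), δ * (q.2 : ℝ)) := by
  unfold zpt
  ext <;> dsimp only <;> ring

theorem zpt_dist {δ : ℝ} (hδ : 0 ≤ δ) {p : ℤ × ℤ} {r : ℤ} {w q : Pt} (hw : w ∈ tE (bx p r))
    (hq : q = e1 w ∨ q = e2 w ∨ q = o1 w ∨ q = o2 w) :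
    dist (zpt δ q) (fpt δ p) ≤ δ * (r + 1) := by
  obtain ⟨f, ⟨h1, h2, h3, h4⟩, hf⟩ := hw
  obtain ⟨h5, h6⟩ := near_faces (q' := af f) hq (by rcases hf with h | h <;> [left; right] <;>
    exact h.symm)
  unfold af at h5 h6
  dsimp only at h5 h6
  rw [abs_le] at h5 h6
  have key : ∀ x c : ℝ, -(2 * (r + 1 : ℝ)) ≤ x - 2 * c → x - 2 * c ≤ 2 * (r + 1) →
      |δ * x / 2 - δ * c| ≤ δ * (r + 1) := by
    intro x c h7 h8
    have : δ * x / 2 - δ * c = δ * ((x - 2 * c) / 2) := by ring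
    rw [this, abs_mul, abs_of_nonneg hδ]
    refine mul_le_mul_of_nonneg_left ?_ hδ
    rw [abs_le]
    constructor <;> linarith
  rw [Prod.dist_eq, Real.dist_eq, Real.dist_eq]
  refine max_le ?_ ?_
  · refine key _ _ ?_ ?_
    · have : (-(2 * (r + 1)) : ℤ) ≤ q.1 + q.2 - 2 * p.1 := by omega
      exact_mod_cast this
    · have : (q.1 + q.2 - 2 * p.1 : ℤ) ≤ 2 * (r + 1) := by omega
      exact_mod_cast this
  · refine key _ _ ?_ ?_
    · have : (-(2 * (r + 1)) : ℤ) ≤ q.1 - q.2 - 2 * p.2 := by omega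
      exact_mod_cast this
    · have : (q.1 - q.2 - 2 * p.2 : ℤ) ≤ 2 * (r + 1) := by omega
      exact_mod_cast this

/-- If the ball of radius `ρ ≥ δ (r + 1)` around `δ p` is in a region, then so are all six-vertex
faces of the edges touching the box. -/
theorem fin6_of_ball {δ ρ : ℝ} (hδ : 0 ≤ δ) {p : ℤ × ℤ} {r : ℤ} (hr : δ * (r + 1) ≤ ρ)
    {K : Set (ℝ × ℝ)} (h : ∀ z : ℝ × ℝ, dist z (fpt δ p) ≤ ρ → (z.1 + z.2, z.1 - z.2) ∈ K) :
    Fin6 δ (tE (bx p r)) K := by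
  intro w hw q hq
  have := h (zpt δ q) ((zpt_dist hδ hw hq).trans hr)
  rwa [zpt_sd] at this

/-- **Arms.** A box of the net which avoids the corridors is in one of the four regions. -/
theorem arms_fin6 {a b a' b' e ρ δ : ℝ} {D : Set (ℝ × ℝ)} (hδ : 0 ≤ δ) (hab' : a' < b')
    (he : 0 < e) (hD : Top.ccell a b a' b' ⊆ D) {p : ℤ × ℤ} {r : ℤ} (hr : δ * (r + 1) ≤ ρ)
    (hinf : ρ + e ≤ Metric.infDist (fpt δ p) D)
    (hball : ∀ z, dist z (fpt δ p) ≤ ρ → ∀ i, z ∉ cor (fun z => z.1 + z.2) (fun z => z.1 - z.2)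
      (a - e / 2) (b + e / 2) (b' + e / 2) (e / 2) i) :
    ∃ i : Fin 4, Fin6 δ (tE (bx p r)) (Kq a b a' b' e i) := by
  obtain ⟨i, hi⟩ := arms_ball hab' he hD hinf hball
  exact ⟨i, fin6_of_ball hδ hr hi⟩

end Vale.Agent.P145.X
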