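import Vale.Agent.P145.X.Shell

/-!
P145: the shell lemma for circuits around the points of a grid.
-/

namespace Vale.Agent.P145.X

open Relation Metric

/-- The face of the point `w y` of the grid of mesh `w`. -/
noncomputable def cen (w δ : ℝ) (y : ℤ × ℤ) : ℤ × ℤ := (⌊w * y.1 / δ⌋, ⌊w * y.2 / δ⌋)

/-- The centres: points `w y` at distance between `a / 4` and `4 b` of `D` such that the ball
of radius `3 w` avoids the corridors of half width `W₀`. -/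
def Good (s d : ℝ × ℝ → ℝ) (D : Set (ℝ × ℝ)) (a₁ b₁ b₂ W₀ w a b : ℝ) (y : ℤ × ℤ) : Prop :=
  a / 4 ≤ infDist (fpt w y) D ∧ infDist (fpt w y) D ≤ 4 * b ∧
    ∀ z, dist z (fpt w y) ≤ 3 * w → ∀ i, z ∉ cor s d a₁ b₁ b₂ W₀ i

theorem abs_infDist_sub_le (D : Set (ℝ × ℝ)) (z z' : ℝ × ℝ) :
    |infDist z D - infDist z' D| ≤ dist z z' := by
  rw [abs_le]
  constructor
  · have := infDist_le_infDist_add_dist (s := D) (x := z') (y := z)
    rw [dist_comm] at this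
    linarith
  · have := infDist_le_infDist_add_dist (s := D) (x := z) (y := z')
    linarith

theorem cor_of_dist {s d : ℝ × ℝ → ℝ} (hF : Frame s d) {a₁ b₁ b₂ W W' : ℝ} {i : Fin 3}
    {z z' : ℝ × ℝ} (hz : z ∈ cor s d a₁ b₁ b₂ W i) (h : W + 2 * dist z z' ≤ W') :
    z' ∈ cor s d a₁ b₁ b₂ W' i := by
  have h1 := abs_le.1 (hF.s_lip z z')
  have h2 := abs_le.1 (hF.d_lip z z')
  fin_cases i
  · have h3 := abs_le.1 (show |s z - a₁| ≤ W from hz)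
    show |s z' - a₁| ≤ W'
    exact abs_le.2 (by constructor <;> linarith [h1.1, h1.2, h3.1, h3.2])
  · have h3 := abs_le.1 (show |d z - b₂| ≤ W from hz.1)
    have h4 : a₁ - W ≤ s z := hz.2
    exact ⟨abs_le.2 (by constructor <;> linarith [h2.1, h2.2, h3.1, h3.2]), by
      linarith [h1.1, h1.2]⟩
  · have h3 := abs_le.1 (show |s z - b₁| ≤ W from hz.1)
    have h4 : d z ≤ b₂ + W := hz.2
    exact ⟨abs_le.2 (by constructor <;> linarith [h1.1, h1.2, h3.1, h3.2]), by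
      linarith [h2.1, h2.2]⟩

/-- Every point has a grid point at distance at most `w / 2`. -/
theorem exists_grid {w : ℝ} (hw : 0 < w) (z : ℝ × ℝ) : ∃ y : ℤ × ℤ, dist z (fpt w y) ≤ w / 2 := by
  have key : ∀ x : ℝ, dist x (w * (round (x / w) : ℤ)) ≤ w / 2 := by
    intro x
    have h := abs_sub_round (x / w)
    rw [Real.dist_eq]
    have h2 : x - w * (round (x / w) : ℤ) = w * (x / w - (round (x / w) : ℤ)) := by
      field_simp
    rw [h2, abs_mul, abs_of_pos hw]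
    nlinarith
  refine ⟨(round (z.1 / w), round (z.2 / w)), ?_⟩
  rw [Prod.dist_eq]
  exact max_le (key z.1) (key z.2)

/-- Every point of the shell off the corridors has a centre at distance at most `w / 2`. -/
theorem exists_good {s d : ℝ × ℝ → ℝ} (hF : Frame s d) {D : Set (ℝ × ℝ)}
    {a₁ b₁ b₂ W₀ w a b : ℝ} (hw : 0 < w) {z : ℝ × ℝ} (ha : a / 4 + w / 2 ≤ infDist z D)
    (hb : infDist z D ≤ 4 * b - w / 2) (hz : ∀ i, z ∉ cor s d a₁ b₁ b₂ (W₀ + 7 * w) i) :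
    ∃ y, Good s d D a₁ b₁ b₂ W₀ w a b y ∧ dist z (fpt w y) ≤ w / 2 := by
  obtain ⟨y, hy⟩ := exists_grid hw z
  have h1 := abs_le.1 (abs_infDist_sub_le D z (fpt w y))
  refine ⟨y, ⟨by linarith [h1.1, h1.2], by linarith [h1.1, h1.2], fun z' hz' i hi => ?_⟩, hy⟩
  refine hz i (cor_of_dist hF hi ?_)
  have h2 := dist_triangle z' (fpt w y) z
  rw [dist_comm (fpt w y) z] at h2
  linarith

theorem cen_near {w δ ρ : ℝ} (hδ : 0 < δ) {f y : ℤ × ℤ} {R : ℤ}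
    (h : dist (fpt δ f) (fpt w y) ≤ ρ) (hR : ρ + δ ≤ δ * R) :
    |f.1 - (cen w δ y).1| ≤ R ∧ |f.2 - (cen w δ y).2| ≤ R := by
  have key : ∀ x v : ℤ, dist (δ * (x : ℝ)) (w * (v : ℝ)) ≤ ρ → |x - ⌊w * v / δ⌋| ≤ R := by
    intro x v hxv
    rw [Real.dist_eq] at hxv
    have h1 := abs_le.1 hxv
    have h2 := Int.floor_le (w * v / δ)
    have h3 := Int.lt_floor_add_one (w * v / δ)
    rw [le_div_iff₀ hδ] at h2
    rw [div_lt_iff₀ hδ] at h3
    have h4 : ((x : ℝ) - ⌊w * v / δ⌋) ≤ R := by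
      by_contra hc
      push Not at hc
      nlinarith [h1.1, h1.2]
    have h5 : -(R : ℝ) ≤ ((x : ℝ) - ⌊w * v / δ⌋) := by
      by_contra hc
      push Not at hc
      nlinarith [h1.1, h1.2]
    rw [abs_le]
    constructor
    · exact_mod_cast h5
    · exact_mod_cast h4
  rw [Prod.dist_eq] at h
  exact ⟨key _ _ ((le_max_left _ _).trans h), key _ _ ((le_max_right _ _).trans h)⟩

theorem shell_bdd {D : Set (ℝ × ℝ)} (hD : Bornology.IsBounded D) (hD0 : D.Nonempty) (b : ℝ) :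
    ∃ M : ℝ, ∀ z, infDist z D ≤ b → |z.1| ≤ M ∧ |z.2| ≤ M := by
  obtain ⟨M, hM⟩ := hD.subset_closedBall (0 : ℝ × ℝ)
  refine ⟨b + 1 + M, fun z hz => ?_⟩
  obtain ⟨p, hp, hpz⟩ := (infDist_lt_iff hD0).1 (show infDist z D < b + 1 by linarith)
  have h1 : dist p 0 ≤ M := hM hp
  have h2 := dist_triangle z p 0
  have h3 : dist z 0 ≤ b + 1 + M := by linarith
  rw [Prod.dist_eq] at h3
  have h4 := (le_max_left _ _).trans h3
  have h5 := (le_max_right _ _).trans h3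
  simp only [Prod.fst_zero, Prod.snd_zero, dist_zero_right, Real.norm_eq_abs] at h4 h5
  exact ⟨h4, h5⟩

theorem int_finite {w M : ℝ} (hw : 0 < w) : {k : ℤ | |w * k| ≤ M}.Finite := by
  refine (Set.finite_Icc ⌊-(M / w)⌋ ⌈M / w⌉).subset ?_
  intro k hk
  have h1 : |w * (k : ℝ)| ≤ M := hk
  rw [abs_mul, abs_of_pos hw, ← le_div_iff₀' hw, abs_le] at h1
  constructor
  · exact_mod_cast (Int.floor_le _).trans h1.1
  · exact_mod_cast h1.2.trans (Int.le_ceil _)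

/-- There are finitely many centres. -/
theorem good_finite {s d : ℝ × ℝ → ℝ} {D : Set (ℝ × ℝ)} (hD : Bornology.IsBounded D)
    (hD0 : D.Nonempty) {a₁ b₁ b₂ W₀ w a b : ℝ} (hw : 0 < w) :
    {y : ℤ × ℤ | Good s d D a₁ b₁ b₂ W₀ w a b y}.Finite := by
  obtain ⟨M, hM⟩ := shell_bdd hD hD0 (4 * b)
  refine ((int_finite (M := M) hw).prod (int_finite (M := M) hw)).subset ?_
  intro y hy
  exact hM _ hy.2.1

/-- The point `k` of the corridor `i`; `pt` is the inverse of `z ↦ (s z, d z)`. -/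
noncomputable def sp (pt : ℝ → ℝ → ℝ × ℝ) (a₁ b₁ b₂ l : ℝ) (i : Fin 3) (k : ℤ) : ℝ × ℝ :=
  match i with
  | 0 => pt a₁ (k * l)
  | 1 => pt (k * l) b₂
  | 2 => pt b₁ (k * l)

/-- The sparse points: points of the corridors in the shell, with coordinate a multiple of `l`. -/
def Sp (pt : ℝ → ℝ → ℝ × ℝ) (D : Set (ℝ × ℝ)) (a₁ b₁ b₂ l a b : ℝ) (i : Fin 3) (k : ℤ) : Prop :=
  a / 2 ≤ infDist (sp pt a₁ b₁ b₂ l i k) D ∧ infDist (sp pt a₁ b₁ b₂ l i k) D ≤ 2 * b ∧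
    (i = 1 → a₁ ≤ k * l) ∧ (i = 2 → k * l ≤ b₂)

/-- There are finitely many sparse points. -/
theorem sp_finite {s d : ℝ × ℝ → ℝ} (hF : Frame s d) {pt : ℝ → ℝ → ℝ × ℝ}
    (hpt : ∀ x y, s (pt x y) = x ∧ d (pt x y) = y) {D : Set (ℝ × ℝ)}
    (hD : Bornology.IsBounded D) (hD0 : D.Nonempty) {a₁ b₁ b₂ l a b : ℝ} (hl : 0 < l) :
    {q : Fin 3 × ℤ | Sp pt D a₁ b₁ b₂ l a b q.1 q.2}.Finite := by
  obtain ⟨p, hp⟩ := hD0
  obtain ⟨M, hM⟩ := shell_bdd hD ⟨p, hp⟩ (2 * b)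
  set M' : ℝ := 2 * M + |s 0| + |d 0| with hM'
  refine ((Set.finite_univ (α := Fin 3)).prod (int_finite (M := M') hl)).subset ?_
  rintro ⟨i, k⟩ hq
  refine ⟨Set.mem_univ _, ?_⟩
  have h1 := hM _ hq.2.1
  set z := sp pt a₁ b₁ b₂ l i k with hz
  have h2 : dist z 0 ≤ M := by
    rw [Prod.dist_eq]
    simp only [Prod.fst_zero, Prod.snd_zero, dist_zero_right, Real.norm_eq_abs]
    exact max_le h1.1 h1.2
  have h3 := abs_le.1 (hF.s_lip z 0)
  have h4 := abs_le.1 (hF.d_lip z 0)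
  have h5 : s z = k * l ∨ d z = k * l := by
    rw [hz]
    fin_cases i
    · exact Or.inr (hpt _ _).2
    · exact Or.inl (hpt _ _).1
    · exact Or.inr (hpt _ _).2
  have h6 := abs_le.1 (le_refl |s 0|)
  have h7 := abs_le.1 (le_refl |d 0|)
  show |l * (k : ℝ)| ≤ M'
  rw [mul_comm, abs_le]
  have h8 := abs_nonneg (s 0)
  have h9 := abs_nonneg (d 0)
  rcases h5 with h5 | h5
  · rw [← h5, hM']
    constructor <;> linarith [h3.1, h3.2, h6.1, h6.2]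
  · rw [← h5, hM']
    constructor <;> linarith [h4.1, h4.2, h7.1, h7.2]

/-- Every sparse point has a centre at distance at most `W₀ / 2 + 9 w / 2`. -/
theorem exists_xc {s d : ℝ × ℝ → ℝ} (hF : Frame s d) {pt : ℝ → ℝ → ℝ × ℝ}
    (hpt : ∀ x y, s (pt x y) = x ∧ d (pt x y) = y) {D : Set (ℝ × ℝ)} {a₁ b₁ b₂ : ℝ}
    (hp₀ : pt a₁ b₂ ∈ D) (hp₁ : pt b₁ b₂ ∈ D) {W₀ w l a b : ℝ} (hw : 0 < w) (hW₀ : 0 ≤ W₀)
    (hc : 2 * W₀ + 15 * w < b₁ - a₁) (ha : 3 * W₀ + 23 * w < a) (hab : a ≤ b)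
    {i : Fin 3} {k : ℤ} (hk : Sp pt D a₁ b₁ b₂ l a b i k) :
    ∃ y, Good s d D a₁ b₁ b₂ W₀ w a b y ∧
      dist (sp pt a₁ b₁ b₂ l i k) (fpt w y) ≤ W₀ / 2 + 9 / 2 * w := by
  -- the shifted point
  have key : ∀ z, dist (sp pt a₁ b₁ b₂ l i k) z ≤ (W₀ + 8 * w) / 2 →
      (∀ j, z ∉ cor s d a₁ b₁ b₂ (W₀ + 7 * w) j) → ∃ y, Good s d D a₁ b₁ b₂ W₀ w a b y ∧
      dist (sp pt a₁ b₁ b₂ l i k) (fpt w y) ≤ W₀ / 2 + 9 / 2 * w := by
    intro z hz hcz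
    have h1 := abs_le.1 (abs_infDist_sub_le D (sp pt a₁ b₁ b₂ l i k) z)
    obtain ⟨y, hy, hyz⟩ := exists_good (D := D) (W₀ := W₀) (a := a) (b := b) hF hw (z := z)
      (by linarith [h1.1, h1.2, hk.1]) (by linarith [h1.1, h1.2, hk.2.1]) hcz
    refine ⟨y, hy, ?_⟩
    have := dist_triangle (sp pt a₁ b₁ b₂ l i k) z (fpt w y)
    linarith
  have hfar : ∀ z, dist (sp pt a₁ b₁ b₂ l i k) z ≤ (W₀ + 8 * w) / 2 → ∀ q ∈ D,
      W₀ + 15 / 2 * w < dist z q := by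
    intro z hz q hq
    have h1 := abs_le.1 (abs_infDist_sub_le D (sp pt a₁ b₁ b₂ l i k) z)
    have h2 := infDist_le_dist_of_mem (x := z) hq
    have h3 := hk.1
    linarith [h1.1, h1.2]
  have h0 : 0 < W₀ + 8 * w := by linarith
  fin_cases i
  · -- corridor 0
    have hd := hF.dist_le (pt a₁ (k * l)) (pt (a₁ + (W₀ + 8 * w)) (k * l))
    rw [(hpt _ _).1, (hpt _ _).2, (hpt _ _).1, (hpt _ _).2, sub_self, abs_zero, add_zero,
      show a₁ - (a₁ + (W₀ + 8 * w)) = -(W₀ + 8 * w) by ring, abs_neg, abs_of_pos h0] at hd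
    have hd' : dist (pt a₁ (k * l)) (pt (a₁ + (W₀ + 8 * w)) (k * l)) ≤ (W₀ + 8 * w) / 2 := by
      linarith
    refine key (pt (a₁ + (W₀ + 8 * w)) (k * l)) hd' fun j hj => ?_
    fin_cases j
    · have hj' : |s (pt (a₁ + (W₀ + 8 * w)) (k * l)) - a₁| ≤ W₀ + 7 * w := hj
      rw [(hpt _ _).1] at hj'
      linarith [(abs_le.1 hj').2]
    · have hj' : |d (pt (a₁ + (W₀ + 8 * w)) (k * l)) - b₂| ≤ W₀ + 7 * w := hj.1
      have h4 := hfar _ hd' _ hp₀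
      have h5 := hF.dist_le (pt (a₁ + (W₀ + 8 * w)) (k * l)) (pt a₁ b₂)
      rw [(hpt a₁ b₂).1, (hpt a₁ b₂).2, (hpt (a₁ + (W₀ + 8 * w)) _).1,
        show a₁ + (W₀ + 8 * w) - a₁ = W₀ + 8 * w by ring, abs_of_pos h0] at h5
      linarith
    · have hj' : |s (pt (a₁ + (W₀ + 8 * w)) (k * l)) - b₁| ≤ W₀ + 7 * w := hj.1
      rw [(hpt _ _).1] at hj'
      linarith [(abs_le.1 hj').1]
  · -- corridor 1
    have hd := hF.dist_le (pt (k * l) b₂) (pt (k * l) (b₂ + (W₀ + 8 * w)))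
    rw [(hpt _ _).1, (hpt _ _).2, (hpt _ _).1, (hpt _ _).2, sub_self, abs_zero, zero_add,
      show b₂ - (b₂ + (W₀ + 8 * w)) = -(W₀ + 8 * w) by ring, abs_neg, abs_of_pos h0] at hd
    have hd' : dist (pt (k * l) b₂) (pt (k * l) (b₂ + (W₀ + 8 * w))) ≤ (W₀ + 8 * w) / 2 := by
      linarith
    refine key (pt (k * l) (b₂ + (W₀ + 8 * w))) hd' fun j hj => ?_
    fin_cases j
    · have hj' : |s (pt (k * l) (b₂ + (W₀ + 8 * w))) - a₁| ≤ W₀ + 7 * w := hj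
      have h4 := hfar _ hd' _ hp₀
      have h5 := hF.dist_le (pt (k * l) (b₂ + (W₀ + 8 * w))) (pt a₁ b₂)
      rw [(hpt a₁ b₂).1, (hpt a₁ b₂).2, (hpt _ (b₂ + (W₀ + 8 * w))).2,
        show b₂ + (W₀ + 8 * w) - b₂ = W₀ + 8 * w by ring, abs_of_pos h0] at h5
      linarith
    · have hj' : |d (pt (k * l) (b₂ + (W₀ + 8 * w))) - b₂| ≤ W₀ + 7 * w := hj.1
      rw [(hpt _ _).2] at hj'
      linarith [(abs_le.1 hj').2]
    · have hj' : d (pt (k * l) (b₂ + (W₀ + 8 * w))) ≤ b₂ + (W₀ + 7 * w) := hj.2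
      rw [(hpt _ _).2] at hj'
      linarith
  · -- corridor 2
    have hd := hF.dist_le (pt b₁ (k * l)) (pt (b₁ + (W₀ + 8 * w)) (k * l))
    rw [(hpt _ _).1, (hpt _ _).2, (hpt _ _).1, (hpt _ _).2, sub_self, abs_zero, add_zero,
      show b₁ - (b₁ + (W₀ + 8 * w)) = -(W₀ + 8 * w) by ring, abs_neg, abs_of_pos h0] at hd
    have hd' : dist (pt b₁ (k * l)) (pt (b₁ + (W₀ + 8 * w)) (k * l)) ≤ (W₀ + 8 * w) / 2 := by
      linarith
    refine key (pt (b₁ + (W₀ + 8 * w)) (k * l)) hd' fun j hj => ?_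
    fin_cases j
    · have hj' : |s (pt (b₁ + (W₀ + 8 * w)) (k * l)) - a₁| ≤ W₀ + 7 * w := hj
      rw [(hpt _ _).1] at hj'
      linarith [(abs_le.1 hj').2]
    · have hj' : |d (pt (b₁ + (W₀ + 8 * w)) (k * l)) - b₂| ≤ W₀ + 7 * w := hj.1
      have h4 := hfar _ hd' _ hp₁
      have h5 := hF.dist_le (pt (b₁ + (W₀ + 8 * w)) (k * l)) (pt b₁ b₂)
      rw [(hpt b₁ b₂).1, (hpt b₁ b₂).2, (hpt (b₁ + (W₀ + 8 * w)) _).1,
        show b₁ + (W₀ + 8 * w) - b₁ = W₀ + 8 * w by ring, abs_of_pos h0] at h5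
      linarith
    · have hj' : |s (pt (b₁ + (W₀ + 8 * w)) (k * l)) - b₁| ≤ W₀ + 7 * w := hj.1
      rw [(hpt _ _).1] at hj'
      linarith [(abs_le.1 hj').2]

/-- **Shell lemma, for the circuits of a grid.** -/
theorem shell_grid {E : ℤ × ℤ → ℤ × ℤ → Prop} (hs : ∀ u v, E u v → E v u)
    (hE : ∀ u v, E u v → |u.1 - v.1| ≤ 1 ∧ |u.2 - v.2| ≤ 1) {s d : ℝ × ℝ → ℝ} (hF : Frame s d)
    {pt : ℝ → ℝ → ℝ × ℝ} (hpt : ∀ x y, s (pt x y) = x ∧ d (pt x y) = y) {D : Set (ℝ × ℝ)}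
    {a₁ b₁ b₂ : ℝ} (hp₀ : pt a₁ b₂ ∈ D) (hp₁ : pt b₁ b₂ ∈ D) {δ W₀ w l h a b : ℝ} (hδ : 0 < δ)
    (hw : 0 < w) (hW₀ : 0 ≤ W₀) (hl : 0 < l) (hh : 0 < h) (hδw : 4 * δ ≤ w)
    (hc : 2 * W₀ + 15 * w < b₁ - a₁) (ha : 3 * W₀ + 23 * w < a)
    (hab : a + l + W₀ + 8 * w ≤ b) {r : ℤ} (hr : w / 2 + δ ≤ δ * r) (hrh : 4 * δ * r < h)
    (hX : ∀ y, Good s d D a₁ b₁ b₂ W₀ w a b y → CBox E (cen w δ y) r (3 * r))
    (hZ : ∀ i k, Sp pt D a₁ b₁ b₂ l a b i k → ∃ (y : ℤ × ℤ) (R : ℤ),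
      dist (sp pt a₁ b₁ b₂ l i k) (fpt w y) ≤ W₀ / 2 + 9 / 2 * w ∧
      W₀ + 8 * w + 2 * δ ≤ δ * R ∧ 4 * δ * R < h ∧ CBox E (cen w δ y) R (3 * R))
    {u v : ℤ × ℤ} (hu : infDist (fpt δ u) D ≤ a - h) (hv : b ≤ infDist (fpt δ v) D) :
    ¬ ReflTransGen E u v := by
  refine shell_geo hs hE hF hp₀ hp₁ (hpt _ _).1 (hpt _ _).2 (hpt _ _).1 (hpt _ _).2
    (W := W₀ + 7 * w) (l := l) (h := h) hδ.le (by linarith) hl hh (by linarith)
    (by linarith) (by linarith) ?_ ?_ hu hv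
  · intro f hfa hfb hf
    obtain ⟨y, hy, hyf⟩ := exists_good (D := D) (W₀ := W₀) (a := a) (b := b) hF hw (z := fpt δ f)
      (by linarith) (by linarith) hf
    obtain ⟨h3, h4⟩ := cen_near hδ hyf hr
    exact ⟨cen w δ y, r, h3, h4, hX y hy, hrh⟩
  · rintro i f hf hfa hfb ⟨k, hk⟩
    -- the distance from `f` to the sparse point
    have hdist : dist (fpt δ f) (sp pt a₁ b₁ b₂ l i k) ≤ (W₀ + 7 * w) / 2 + δ := by
      have h3 := hF.dist_le (fpt δ f) (sp pt a₁ b₁ b₂ l i k)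
      fin_cases i
      · have h4 : |s (fpt δ f) - a₁| ≤ W₀ + 7 * w := hf
        have h5 : |d (fpt δ f) - k * l| ≤ 2 * δ := hk
        change 2 * dist (fpt δ f) (pt a₁ (k * l)) ≤ |s (fpt δ f) - s (pt a₁ (k * l))| +
          |d (fpt δ f) - d (pt a₁ (k * l))| at h3
        rw [(hpt _ _).1, (hpt _ _).2] at h3
        show dist (fpt δ f) (pt a₁ (k * l)) ≤ _
        linarith
      · have h4 : |d (fpt δ f) - b₂| ≤ W₀ + 7 * w := hf.1
        have h5 : |s (fpt δ f) - k * l| ≤ 2 * δ := hk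
        change 2 * dist (fpt δ f) (pt (k * l) b₂) ≤ |s (fpt δ f) - s (pt (k * l) b₂)| +
          |d (fpt δ f) - d (pt (k * l) b₂)| at h3
        rw [(hpt _ _).1, (hpt _ _).2] at h3
        show dist (fpt δ f) (pt (k * l) b₂) ≤ _
        linarith
      · have h4 : |s (fpt δ f) - b₁| ≤ W₀ + 7 * w := hf.1
        have h5 : |d (fpt δ f) - k * l| ≤ 2 * δ := hk
        change 2 * dist (fpt δ f) (pt b₁ (k * l)) ≤ |s (fpt δ f) - s (pt b₁ (k * l))| +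
          |d (fpt δ f) - d (pt b₁ (k * l))| at h3
        rw [(hpt _ _).1, (hpt _ _).2] at h3
        show dist (fpt δ f) (pt b₁ (k * l)) ≤ _
        linarith
    have hinf := abs_le.1 (abs_infDist_sub_le D (fpt δ f) (sp pt a₁ b₁ b₂ l i k))
    have hSp : Sp pt D a₁ b₁ b₂ l a b i k := by
      refine ⟨by linarith [hinf.1, hinf.2], by linarith [hinf.1, hinf.2], ?_, ?_⟩
      · rintro rfl
        have h4 : a₁ - (W₀ + 7 * w) ≤ s (fpt δ f) := hf.2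
        have h5 := abs_le.1 (show |s (fpt δ f) - k * l| ≤ 2 * δ from hk)
        have h6 := infDist_le_dist_of_mem (x := sp pt a₁ b₁ b₂ l 1 k) hp₀
        have h7 : 2 * dist (sp pt a₁ b₁ b₂ l 1 k) (pt a₁ b₂) ≤
            |s (pt (k * l) b₂) - s (pt a₁ b₂)| + |d (pt (k * l) b₂) - d (pt a₁ b₂)| :=
          hF.dist_le (pt (k * l) b₂) (pt a₁ b₂)
        rw [(hpt _ _).1, (hpt _ _).2, (hpt _ _).1, (hpt _ _).2, sub_self, abs_zero,
          add_zero] at h7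
        by_contra hc'
        push Not at hc'
        rw [abs_of_neg (by linarith)] at h7
        linarith [h5.1, h5.2, hinf.1, hinf.2]
      · rintro rfl
        have h4 : d (fpt δ f) ≤ b₂ + (W₀ + 7 * w) := hf.2
        have h5 := abs_le.1 (show |d (fpt δ f) - k * l| ≤ 2 * δ from hk)
        have h6 := infDist_le_dist_of_mem (x := sp pt a₁ b₁ b₂ l 2 k) hp₁
        have h7 : 2 * dist (sp pt a₁ b₁ b₂ l 2 k) (pt b₁ b₂) ≤
            |s (pt b₁ (k * l)) - s (pt b₁ b₂)| + |d (pt b₁ (k * l)) - d (pt b₁ b₂)| :=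
          hF.dist_le (pt b₁ (k * l)) (pt b₁ b₂)
        rw [(hpt _ _).1, (hpt _ _).2, (hpt _ _).1, (hpt _ _).2, sub_self, abs_zero,
          zero_add] at h7
        by_contra hc'
        push Not at hc'
        rw [abs_of_pos (by linarith)] at h7
        linarith [h5.1, h5.2, hinf.1, hinf.2]
    obtain ⟨y, R, hy, hR, hRh, hC⟩ := hZ i k hSp
    have h8 := dist_triangle (fpt δ f) (sp pt a₁ b₁ b₂ l i k) (fpt w y)
    obtain ⟨h3, h4⟩ := cen_near (ρ := W₀ + 8 * w + δ) (R := R) hδ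
      (show dist (fpt δ f) (fpt w y) ≤ W₀ + 8 * w + δ by linarith) (by linarith)
    exact ⟨cen w δ y, R, h3, h4, hC, hRh⟩

/-- The standard frame. -/
theorem frame_std : Frame (fun z => z.1 + z.2) (fun z => z.1 - z.2) := by
  have key : ∀ z z' : ℝ × ℝ, |z.1 - z'.1| ≤ dist z z' ∧ |z.2 - z'.2| ≤ dist z z' := by
    intro z z'
    rw [Prod.dist_eq, Real.dist_eq, Real.dist_eq]
    exact ⟨le_max_left _ _, le_max_right _ _⟩
  refine ⟨fun z z' => ?_, fun z z' => ?_, fun z z' => ?_⟩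
  · have h := key z z'
    rw [show z.1 + z.2 - (z'.1 + z'.2) = (z.1 - z'.1) + (z.2 - z'.2) by ring]
    exact (abs_add_le _ _).trans (by linarith [h.1, h.2])
  · have h := key z z'
    rw [show z.1 - z.2 - (z'.1 - z'.2) = (z.1 - z'.1) - (z.2 - z'.2) by ring]
    exact (abs_sub _ _).trans (by linarith [h.1, h.2])
  · rw [Prod.dist_eq, Real.dist_eq, Real.dist_eq]
    have h1 : 2 * |z.1 - z'.1| ≤ |z.1 + z.2 - (z'.1 + z'.2)| + |z.1 - z.2 - (z'.1 - z'.2)| := by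
      have := abs_add_le (z.1 + z.2 - (z'.1 + z'.2)) (z.1 - z.2 - (z'.1 - z'.2))
      rw [show z.1 + z.2 - (z'.1 + z'.2) + (z.1 - z.2 - (z'.1 - z'.2)) = 2 * (z.1 - z'.1) by ring,
        abs_mul, abs_two] at this
      exact this
    have h2 : 2 * |z.2 - z'.2| ≤ |z.1 + z.2 - (z'.1 + z'.2)| + |z.1 - z.2 - (z'.1 - z'.2)| := by
      have := abs_sub (z.1 + z.2 - (z'.1 + z'.2)) (z.1 - z.2 - (z'.1 - z'.2))
      rw [show z.1 + z.2 - (z'.1 + z'.2) - (z.1 - z.2 - (z'.1 - z'.2)) = 2 * (z.2 - z'.2) by ring,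
        abs_mul, abs_two] at this
      exact this
    rcases max_cases |z.1 - z'.1| |z.2 - z'.2| with h | h <;> linarith [h.1]

theorem Frame.swap {s d : ℝ × ℝ → ℝ} (h : Frame s d) : Frame d s :=
  ⟨h.d_lip, h.s_lip, fun z z' => by rw [add_comm]; exact h.dist_le z z'⟩

theorem Frame.neg_s {s d : ℝ × ℝ → ℝ} (h : Frame s d) : Frame (fun z => -s z) d := by
  have key : ∀ z z', |-s z - -s z'| = |s z - s z'| := by
    intro z z'
    rw [show -s z - -s z' = -(s z - s z') by ring, abs_neg]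
  exact ⟨fun z z' => by rw [key]; exact h.s_lip z z', h.d_lip, fun z z' => by
    rw [key]; exact h.dist_le z z'⟩

theorem Frame.neg_d {s d : ℝ × ℝ → ℝ} (h : Frame s d) : Frame s (fun z => -d z) :=
  h.swap.neg_s.swap

end Vale.Agent.P145.X
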