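import Vale.Agent.P145.X.GeomA
import Vale.Agent.P145.X.Arms
import Vale.Agent.P145.X.Shell2

/-!
P145, block F-X: SHELL, the net of circuits and the closing circuits.
-/

namespace Vale.Agent.P145.X

open Filter Topology Set Relation Metric
open Vale.Agent.P145.FB (Pt e1 e2 o1 o2)

/-- The point with coordinates `x = z.1 + z.2`, `y = z.1 - z.2`. -/
noncomputable def ptt (x y : ℝ) : ℝ × ℝ := ((x + y) / 2, (x - y) / 2)

theorem ptt_spec (x y : ℝ) : (ptt x y).1 + (ptt x y).2 = x ∧ (ptt x y).1 - (ptt x y).2 = y := by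
  unfold ptt
  constructor <;> simp only <;> ring

theorem geo_ptt {x y x' y' c : ℝ} (hx : |x - x'| + |y - y'| ≤ 2 * c) :
    dist (ptt x y) (ptt x' y') ≤ c := by
  have h := frame_std.dist_le (ptt x y) (ptt x' y')
  simp only [(ptt_spec _ _).1, (ptt_spec _ _).2] at h
  linarith

theorem geo_cbox {B : Set Pt} {p : ℤ × ℤ} {r : ℤ} (hr : 3 ≤ r)
    (h : Conf B (bx p r) (bx p (2 * r))) : CBox (stp B) p (r - 1) (3 * (r - 1)) := by
  intro u v h1 h2 huv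
  obtain ⟨h3, h4⟩ := h.cbox h1 h2 huv
  exact ⟨h3.trans (by omega), h4.trans (by omega)⟩

theorem geo_sp {D : Set (ℝ × ℝ)} {M a₁ b₁ b₂ l a b : ℝ}
    (hM : ∀ z, infDist z D ≤ 2 * b → |z.1| ≤ M ∧ |z.2| ≤ M) {i : Fin 3} {k : ℤ}
    (h : Sp ptt D a₁ b₁ b₂ l a b i k) : |l * (k : ℝ)| ≤ 2 * M := by
  have h1 := hM _ h.2.1
  rw [abs_le, abs_le] at h1
  rw [mul_comm, abs_le]
  fin_cases i
  · have h2 := (ptt_spec a₁ (k * l)).2
    change (-M ≤ (ptt a₁ (k * l)).1 ∧ (ptt a₁ (k * l)).1 ≤ M) ∧ -M ≤ (ptt a₁ (k * l)).2 ∧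
      (ptt a₁ (k * l)).2 ≤ M at h1
    constructor <;> linarith [h1.1.1, h1.1.2, h1.2.1, h1.2.2]
  · have h2 := (ptt_spec (k * l) b₂).1
    change (-M ≤ (ptt (k * l) b₂).1 ∧ (ptt (k * l) b₂).1 ≤ M) ∧ -M ≤ (ptt (k * l) b₂).2 ∧
      (ptt (k * l) b₂).2 ≤ M at h1
    constructor <;> linarith [h1.1.1, h1.1.2, h1.2.1, h1.2.2]
  · have h2 := (ptt_spec b₁ (k * l)).2
    change (-M ≤ (ptt b₁ (k * l)).1 ∧ (ptt b₁ (k * l)).1 ≤ M) ∧ -M ≤ (ptt b₁ (k * l)).2 ∧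
      (ptt b₁ (k * l)).2 ≤ M at h1
    constructor <;> linarith [h1.1.1, h1.1.2, h1.2.1, h1.2.2]

/-- The circuits at the centres and the closing circuits confine the clusters. -/
theorem geo_path (hC : S_conf) {D₁ D₂ : Set (ℝ × ℝ)} (hb : Bornology.IsBounded D₂)
    {g : ℝ} (hgD : ∀ z, infDist z D₁ < g → z ∈ D₂) {a b b' ε δ w : ℝ} (hδ : 0 < δ)
    (hε : 0 < ε) (hδε : 100 * δ ≤ ε) {n : ℤ} {j m : ℕ} (hn : n = sc ε δ (j + 1))
    (hw : w = δ * (n : ℝ)) (hεw : ε ≤ w) (hwb : 15 * w < b - a) (hwg : 1000 * w ≤ g)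
    (hTε : 1000 * (4 ^ m * ε) ≤ g) (hq₀ : ptt (a - ε / 2) (b' + ε / 2) ∈ D₁)
    (hq₁ : ptt (b + ε / 2) (b' + ε / 2) ∈ D₁) {B : Set Pt}
    (hY : ∀ y, Good (fun z => z.1 + z.2) (fun z => z.1 - z.2) D₁ (a - ε / 2) (b + ε / 2)
      (b' + ε / 2) (ε / 2) w (g / 4) (g / 2) y → Zr (ce n y) n B)
    (hQ : ∀ i k, Sp ptt D₁ (a - ε / 2) (b + ε / 2) (b' + ε / 2) (g / 16) (g / 4) (g / 2) i k →
      ∃ y i', dist (sp ptt (a - ε / 2) (b + ε / 2) (b' + ε / 2) (g / 16) i k) (fpt w y) ≤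
        ε / 2 / 2 + 9 / 2 * w ∧ j + 4 ≤ i' ∧ i' ≤ m ∧ Zr (ce n y) (sc ε δ i') B) :
    Conf B (Top.Fs δ D₂ : Set (ℤ × ℤ))ᶜ (Top.Fs δ D₁ : Set (ℤ × ℤ))ᶜ := by
  intro f hf f' hff' hf'
  have hw0 : 0 < w := by linarith
  have hn3 : 3 ≤ n := by
    have h1 : δ * 3 < δ * (n : ℝ) := by rw [← hw]; linarith
    have h2 : (3 : ℝ) < n := lt_of_mul_lt_mul_left h1 hδ.le
    exact_mod_cast h2.le
  have hf1 := le_infDist_of_notMem hδ hb hgD hf
  have hf2 : infDist (fpt δ f') D₁ = 0 := infDist_zero_of_mem (of_mem_Fs' hδ.le hf')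
  have hrev : ReflTransGen (stp B) f' f := shell_symm (stp_symm B) hff'
  have hXB : ∀ y, Good (fun z => z.1 + z.2) (fun z => z.1 - z.2) D₁ (a - ε / 2) (b + ε / 2)
      (b' + ε / 2) (ε / 2) w (g / 4) (g / 2) y →
      CBox (stp B) (cen w δ y) (n - 1) (3 * (n - 1)) := by
    intro y hy
    rw [hw, cen_ce hδ]
    exact geo_cbox hn3 (hC _ _ _ (by omega) (hY y hy))
  have hZB : ∀ i k, Sp ptt D₁ (a - ε / 2) (b + ε / 2) (b' + ε / 2) (g / 16) (g / 4) (g / 2) i k →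
      ∃ (y : ℤ × ℤ) (R : ℤ),
      dist (sp ptt (a - ε / 2) (b + ε / 2) (b' + ε / 2) (g / 16) i k) (fpt w y) ≤
        ε / 2 / 2 + 9 / 2 * w ∧ ε / 2 + 8 * w + 2 * δ ≤ δ * R ∧ 4 * δ * R < g / 8 ∧
      CBox (stp B) (cen w δ y) R (3 * R) := by
    intro i k hik
    obtain ⟨y, i', hd, hi1, hi2, hZ⟩ := hQ i k hik
    obtain ⟨k', rfl⟩ : ∃ k', i' = j + 1 + (3 + k') := ⟨i' - (j + 4), by omega⟩
    have h1 := sc_add ε δ (j + 1) (3 + k')
    have h2 : (64 : ℤ) ≤ 4 ^ (3 + k') := by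
      rw [pow_add]
      have : (1 : ℤ) ≤ 4 ^ k' := one_le_pow₀ (by norm_num)
      linarith
    rw [← hn] at h1
    obtain ⟨S, hS⟩ : ∃ S : ℤ, S = sc ε δ (j + 1 + (3 + k')) := ⟨_, rfl⟩
    have h4 : δ * (S : ℝ) ≤ 4 ^ m * ε := by
      rw [hS]
      refine (sc_le hδ _).trans (mul_le_mul_of_nonneg_right ?_ hε.le)
      exact pow_le_pow_right₀ (by norm_num) hi2
    rw [← hS] at h1 hZ
    have h3 : 64 * n ≤ S := by
      rw [h1]
      exact mul_le_mul_of_nonneg_right h2 (by omega)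
    have h5 : 64 * w ≤ δ * (S : ℝ) := by
      have h6 : (64 : ℝ) * n ≤ (S : ℝ) := by exact_mod_cast h3
      have h7 := mul_le_mul_of_nonneg_left h6 hδ.le
      rw [hw]
      linarith
    refine ⟨y, S - 1, hd, ?_, ?_, ?_⟩
    · push_cast
      linarith
    · push_cast
      linarith
    · rw [hw, cen_ce hδ]
      exact geo_cbox (by omega) (hC _ _ _ (by omega) hZ)
  refine shell_grid (E := stp B) (stp_symm B) (stp_le B) frame_std ptt_spec hq₀ hq₁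
    (δ := δ) (W₀ := ε / 2) (w := w) (l := g / 16) (h := g / 8) (a := g / 4) (b := g / 2) hδ hw0
    (by linarith) (by linarith) (by linarith) (by linarith) (by linarith) (by linarith)
    (by linarith) (r := n - 1) ?_ ?_ hXB hZB (u := f') (v := f) (by linarith) (by linarith) hrev
  · push_cast
    linarith
  · push_cast
    linarith

/-- The corners of the corridors. -/
theorem geo_corner {D₁ : Set (ℝ × ℝ)} {x y r₀ ε x' y' : ℝ} (h : ball (ptt x y) r₀ ⊆ D₁)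
    (hε : ε / 2 < r₀) (h1 : |x' - x| = ε / 2) (h2 : |y' - y| = ε / 2) : ptt x' y' ∈ D₁ := by
  refine h (lt_of_le_of_lt (geo_ptt (c := ε / 2) ?_) hε)
  rw [h1, h2]
  linarith

/-- The finite sets of centres. -/
theorem geo_sets {D₁ : Set (ℝ × ℝ)} (hb₁ : Bornology.IsBounded D₁) (hne : D₁.Nonempty)
    {g M : ℝ} (hM : ∀ z, infDist z D₁ ≤ 2 * g → |z.1| ≤ M ∧ |z.2| ≤ M)
    {a b b' ε w : ℝ} (hε : 0 < ε) (hw0 : 0 < w) (hεw : ε ≤ w) (hwb : 15 * w < b - a)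
    (hwg : 1000 * w ≤ g) (hq₀ : ptt (a - ε / 2) (b' + ε / 2) ∈ D₁)
    (hq₁ : ptt (b + ε / 2) (b' + ε / 2) ∈ D₁) :
    ∃ Y Q : Finset (ℤ × ℤ), Q ⊆ Y ∧
      Q.card ≤ ((Finset.univ : Finset (Fin 3)) ×ˢ
        Finset.Icc (-⌈2 * M / (g / 16)⌉) ⌈2 * M / (g / 16)⌉).card ∧
      (∀ y, y ∈ Y ↔ Good (fun z => z.1 + z.2) (fun z => z.1 - z.2) D₁ (a - ε / 2) (b + ε / 2)
        (b' + ε / 2) (ε / 2) w (g / 4) (g / 2) y) ∧
      ∀ i k, Sp ptt D₁ (a - ε / 2) (b + ε / 2) (b' + ε / 2) (g / 16) (g / 4) (g / 2) i k →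
        ∃ y ∈ Q, dist (sp ptt (a - ε / 2) (b + ε / 2) (b' + ε / 2) (g / 16) i k) (fpt w y) ≤
          ε / 2 / 2 + 9 / 2 * w := by
  classical
  have hfin := good_finite (s := fun z => z.1 + z.2) (d := fun z => z.1 - z.2) hb₁ hne
    (a₁ := a - ε / 2) (b₁ := b + ε / 2) (b₂ := b' + ε / 2) (W₀ := ε / 2) (a := g / 4)
    (b := g / 2) hw0
  have hxc : ∀ q : Fin 3 × ℤ, ∃ y, Sp ptt D₁ (a - ε / 2) (b + ε / 2) (b' + ε / 2) (g / 16)
      (g / 4) (g / 2) q.1 q.2 → Good (fun z => z.1 + z.2) (fun z => z.1 - z.2) D₁ (a - ε / 2)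
      (b + ε / 2) (b' + ε / 2) (ε / 2) w (g / 4) (g / 2) y ∧
      dist (sp ptt (a - ε / 2) (b + ε / 2) (b' + ε / 2) (g / 16) q.1 q.2) (fpt w y) ≤
        ε / 2 / 2 + 9 / 2 * w := by
    intro q
    by_cases h : Sp ptt D₁ (a - ε / 2) (b + ε / 2) (b' + ε / 2) (g / 16) (g / 4) (g / 2) q.1 q.2
    · obtain ⟨y, hy⟩ := exists_xc frame_std ptt_spec hq₀ hq₁ hw0 (by linarith : 0 ≤ ε / 2)
        (by linarith) (by linarith) (by linarith) h
      exact ⟨y, fun _ => hy⟩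
    · exact ⟨0, fun h' => absurd h' h⟩
  choose xc hxc using hxc
  refine ⟨hfin.toFinset, ((Finset.univ ×ˢ Finset.Icc (-⌈2 * M / (g / 16)⌉)
    ⌈2 * M / (g / 16)⌉).filter fun q => Sp ptt D₁ (a - ε / 2) (b + ε / 2) (b' + ε / 2) (g / 16)
    (g / 4) (g / 2) q.1 q.2).image xc, ?_, ?_, ?_, ?_⟩
  · intro y hy
    obtain ⟨q, hq, rfl⟩ := Finset.mem_image.1 hy
    rw [Set.Finite.mem_toFinset]
    rw [Finset.mem_filter] at hq
    exact (hxc q hq.2).1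
  · exact Finset.card_image_le.trans (Finset.card_filter_le _ _)
  · intro y
    rw [Set.Finite.mem_toFinset]
    rfl
  · intro i k hik
    refine ⟨xc (i, k), Finset.mem_image_of_mem _ ?_, (hxc (i, k) hik).2⟩
    rw [Finset.mem_filter, Finset.mem_product]
    refine ⟨⟨Finset.mem_univ _, ?_⟩, hik⟩
    have h1 := geo_sp (M := M) (fun z hz => hM z (by linarith)) hik
    rw [abs_mul, abs_of_pos (by linarith : 0 < g / 16), mul_comm, ← le_div_iff₀ (by linarith)]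
      at h1
    have h2 := h1.trans (Int.le_ceil _)
    rw [Finset.mem_Icc]
    exact abs_le.1 (by exact_mod_cast h2)

/-- SHELL. -/
theorem s_geom (hC : S_conf) : S_geom := by
  intro D₁ D₂ hD₁ hD₂ hb hcl a b a' b' hab hab' hcc
  have hb₁ : Bornology.IsBounded D₁ := hb.subset (subset_closure.trans hcl)
  -- corners of the cell
  have hc₀ : ptt a b' ∈ Top.ccell a b a' b' := by
    obtain ⟨h1, h2⟩ := ptt_spec a b'
    exact ⟨h1.ge, by rw [h1]; exact hab.le, by rw [h2]; exact hab'.le, h2.le⟩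
  have hc₁ : ptt b b' ∈ Top.ccell a b a' b' := by
    obtain ⟨h1, h2⟩ := ptt_spec b b'
    exact ⟨by rw [h1]; exact hab.le, h1.le, by rw [h2]; exact hab'.le, h2.le⟩
  have hne : D₁.Nonempty := ⟨_, hcc hc₀⟩
  obtain ⟨g, hg, hgD⟩ := exists_thick hne hD₂ hb hcl
  obtain ⟨r₀, hr₀, hr₀D⟩ := Metric.isOpen_iff.1 hD₁ _ (hcc hc₀)
  obtain ⟨r₁, hr₁, hr₁D⟩ := Metric.isOpen_iff.1 hD₁ _ (hcc hc₁)
  obtain ⟨M, hM⟩ := shell_bdd hb₁ hne (2 * g)
  refine ⟨((Finset.univ : Finset (Fin 3)) ×ˢ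
        Finset.Icc (-⌈2 * M / (g / 16)⌉) ⌈2 * M / (g / 16)⌉).card, fun m => ?_⟩
  obtain ⟨G, hG⟩ : ∃ G : ℝ, G = min (min g (b - a)) (min r₀ r₁) := ⟨_, rfl⟩
  have hG0 : 0 < G := by
    rw [hG]
    exact lt_min (lt_min hg (by linarith)) (lt_min hr₀ hr₁)
  have hGg : G ≤ g := by rw [hG]; exact (min_le_left _ _).trans (min_le_left _ _)
  have hGb : G ≤ b - a := by rw [hG]; exact (min_le_left _ _).trans (min_le_right _ _)
  have hG₀ : G ≤ r₀ := by rw [hG]; exact (min_le_right _ _).trans (min_le_left _ _)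
  have hG₁ : G ≤ r₁ := by rw [hG]; exact (min_le_right _ _).trans (min_le_right _ _)
  have hT : (1 : ℝ) ≤ 4 ^ m := one_le_pow₀ (by norm_num)
  refine ⟨G / (1000 * 4 ^ m), by positivity, fun ε hε hε₀ => ?_⟩
  have hTε : 1000 * (4 ^ m * ε) ≤ G := by
    rw [le_div_iff₀ (by positivity)] at hε₀
    linarith
  have hεG : 1000 * ε ≤ G := by nlinarith
  refine ⟨⌈2 * M / ε⌉₊, ε, hε, fun j hj => ?_⟩
  filter_upwards [Ioo_mem_nhdsGT (show (0 : ℝ) < ε / 1000 by positivity)] with δ hδ'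
  obtain ⟨hδ, hδε⟩ := hδ'
  -- the spacing
  obtain ⟨n, hn⟩ : ∃ n : ℤ, n = sc ε δ (j + 1) := ⟨_, rfl⟩
  obtain ⟨w, hw⟩ : ∃ w : ℝ, w = δ * (n : ℝ) := ⟨_, rfl⟩
  have hp1 : (4 : ℝ) ≤ 4 ^ (j + 1) := by
    rw [pow_succ]
    have : (1 : ℝ) ≤ 4 ^ j := one_le_pow₀ (by norm_num)
    linarith
  have hp2 : (4 : ℝ) ^ (j + 1) * 64 ≤ 4 ^ m := by
    have h1 : (4 : ℝ) ^ (j + 1) * 64 = 4 ^ (j + 4) := by
      rw [pow_add, pow_add]
      norm_num
      ring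
    rw [h1]
    exact pow_le_pow_right₀ (by norm_num) hj
  have hw1 : w ≤ 4 ^ (j + 1) * ε := by rw [hw, hn]; exact sc_le hδ _
  have hw2 : 4 ^ (j + 1) * (ε / 2) ≤ w := by rw [hw, hn]; exact le_sc hδ (by linarith) _
  have hw3 : 2 * ε ≤ w := by nlinarith
  have hw4 : 64000 * w ≤ G := by nlinarith
  have hw0 : 0 < w := by linarith
  have hq₀ : ptt (a - ε / 2) (b' + ε / 2) ∈ D₁ :=
    geo_corner (ε := ε) hr₀D (by linarith) (by
      rw [show a - ε / 2 - a = -(ε / 2) by ring, abs_neg, abs_of_pos (by linarith)]) (by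
      rw [show b' + ε / 2 - b' = ε / 2 by ring, abs_of_pos (by linarith)])
  have hq₁ : ptt (b + ε / 2) (b' + ε / 2) ∈ D₁ :=
    geo_corner (ε := ε) hr₁D (by linarith) (by
      rw [show b + ε / 2 - b = ε / 2 by ring, abs_of_pos (by linarith)]) (by
      rw [show b' + ε / 2 - b' = ε / 2 by ring, abs_of_pos (by linarith)])
  obtain ⟨Y, Q, hQY, hQc, hY, hQ⟩ := geo_sets hb₁ hne hM (a := a) (b := b) (b' := b') hε hw0
    (by linarith) (by linarith) (by linarith) hq₀ hq₁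
  rw [← hn]
  have hinf : ∀ y ∈ Y, g / 4 / 4 ≤ infDist (fpt δ (ce n y)) D₁ := by
    intro y hy
    rw [← fpt_ce, ← hw]
    exact ((hY y).1 hy).1
  refine ⟨Y, Q, hQY, hQc, ?_, ?_, ?_, ?_⟩
  · intro y hy
    have h1 := hM _ (((hY y).1 hy).2.1.trans (by linarith))
    rw [hw, fpt_ce, hn] at h1
    exact ⟨abs_le_of_sc hδ (by linarith) (j + 1) h1.1, abs_le_of_sc hδ (by linarith) (j + 1) h1.2⟩
  · intro y hy
    have h1 := hinf y hy
    refine ⟨tE_bx_sub hδ.le ?_, ?_⟩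
    · push_cast
      linarith
    · refine arms_fin6 (ρ := 3 * w) hδ.le hab' hε hcc ?_ (by linarith) ?_
      · push_cast
        linarith
      · rw [← fpt_ce, ← hw]
        exact ((hY y).1 hy).2.2
  · intro y hy
    have h1 := hinf y (hQY hy)
    refine tE_bx_sub hδ.le ?_
    have h2 := sc_le (ε := ε) hδ m
    push_cast
    linarith
  · intro B hYB hQB
    refine geo_path hC hb hgD (a := a) (b := b) (b' := b') (j := j) (m := m) hδ hε (by linarith)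
      hn hw (by linarith) (by linarith) (by linarith) (by linarith) hq₀ hq₁
      (fun y hy => hYB y ((hY y).2 hy)) fun i k hik => ?_
    obtain ⟨y, hyQ, hd⟩ := hQ i k hik
    obtain ⟨i', hi1, hi2, hZ⟩ := hQB y hyQ
    exact ⟨y, i', hd, hi1, hi2, hZ⟩

end Vale.Agent.P145.X
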