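import Vale.Agent.P145.X.Stmt
import Vale.Agent.P145.FB.JLaw

/-!
P145, block F-X: integrability of local functionals of the blocked edges and of the heights with
respect to `MU t P`.
-/

namespace Vale.Agent.P145.X

open Filter Topology Set MeasureTheory
open Vale.Agent.P152 (Ori pth)
open Vale.Agent.P145.FA (Hgt mu0)
open Vale.Agent.P145.FB (Pt Mk e1 e2 o1 o2 MU bl opl mkm om measurable_om measurable_pthk abs_pth_le)
open Vale.Agent.P145.Top (Om Alg)

/-! ### Local functions of the blocked edges -/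

/-- Blocked edges in `Λ`. -/
def bvec (Λ : Finset Pt) (x : Hgt × Mk) : Λ → Bool := fun w =>
  x.2 w.1 && (decide (x.1 (e1 w.1) = 0) && decide (x.1 (e2 w.1) = 0))

/-- `g` as a function of the blocked edges in `Λ`. -/
def gvec (Λ : Finset Pt) (g : Set Pt → ℝ) (b : Λ → Bool) : ℝ :=
  g {w | ∃ h : w ∈ Λ, b ⟨w, h⟩ = true}

theorem measurable_bvec (Λ : Finset Pt) : Measurable (bvec Λ) := by
  refine measurable_pi_lambda _ fun w => ?_
  have h0 : ∀ q : Pt, Measurable fun x : Hgt × Mk => x.1 q := fun q =>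
    (measurable_pi_apply q).comp measurable_fst
  have h1 : Measurable fun x : Hgt × Mk => (x.2 w.1, x.1 (e1 w.1), x.1 (e2 w.1)) :=
    ((measurable_pi_apply w.1).comp measurable_snd).prodMk ((h0 _).prodMk (h0 _))
  have h2 : (fun x : Hgt × Mk => bvec Λ x w) =
      (fun y : Bool × ℤ × ℤ => y.1 && (decide (y.2.1 = 0) && decide (y.2.2 = 0))) ∘
      fun x => (x.2 w.1, x.1 (e1 w.1), x.1 (e2 w.1)) := rfl
  rw [h2]
  exact (measurable_of_countable _).comp h1

theorem g_eq {Λ : Finset Pt} {g : Set Pt → ℝ}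
    (hg : ∀ B B' : Set Pt, (∀ w ∈ Λ, w ∈ B ↔ w ∈ B') → g B = g B') (x : Hgt × Mk) :
    g (bl x) = gvec Λ g (bvec Λ x) := by
  refine hg _ _ fun w hw => ?_
  have h1 : w ∈ bl x ↔ (x.2 w = true ∧ x.1 (e1 w) = 0 ∧ x.1 (e2 w) = 0) := Iff.rfl
  rw [h1]
  constructor
  · rintro ⟨a, b, c⟩
    exact ⟨hw, by simp [bvec, a, b, c]⟩
  · rintro ⟨_, h2⟩
    simpa [bvec] using h2

theorem meas_g {A : Set Pt} {g : Set Pt → ℝ} (hg : LocS A g) :
    Measurable fun x : Hgt × Mk => g (bl x) := by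
  obtain ⟨Λ, -, h⟩ := hg
  have e : (fun x : Hgt × Mk => g (bl x)) = gvec Λ g ∘ bvec Λ := funext fun x => g_eq h x
  rw [e]
  exact (measurable_of_countable _).comp (measurable_bvec Λ)

theorem bdd_g {A : Set Pt} {g : Set Pt → ℝ} (hg : LocS A g) :
    ∃ C : ℝ, 0 ≤ C ∧ ∀ B, |g B| ≤ C := by
  classical
  obtain ⟨Λ, -, h⟩ := hg
  refine ⟨∑ b : Λ → Bool, |gvec Λ g b|, Finset.sum_nonneg fun _ _ => abs_nonneg _, fun B => ?_⟩
  have e : g B = gvec Λ g fun w => decide (w.1 ∈ B) := by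
    refine h _ _ fun w hw => ?_
    constructor
    · intro h1
      exact ⟨hw, by simpa using h1⟩
    · rintro ⟨_, h1⟩
      simpa using h1
  rw [e]
  exact Finset.single_le_sum (f := fun b => |gvec Λ g b|) (fun _ _ => abs_nonneg _)
    (Finset.mem_univ _)

/-! ### Local functionals of the heights -/

theorem meas_F {E : Type} [MeasurableSpace E] {A : Set (ℤ × ℤ)} {F : Hgt → E} (hF : FA.Loc A F) :
    Measurable F := by
  classical
  obtain ⟨Λ, -, h⟩ := hF
  have e : F = (fun v : Λ → ℤ => F fun q => if hq : q ∈ Λ then v ⟨q, hq⟩ else 0) ∘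
      fun h : Hgt => fun q : Λ => h q.1 := by
    funext h'
    refine h _ _ fun q hq => ?_
    simp [hq]
  rw [e]
  exact (measurable_of_countable _).comp (measurable_pi_lambda _ fun q => measurable_pi_apply q.1)

theorem bdd_F {E : Type} [NormedAddCommGroup E] {A : Set (ℤ × ℤ)} {F : Hgt → E}
    (hF : FA.Loc A F) (R : ℤ) :
    ∃ C : ℝ, 0 ≤ C ∧ ∀ h : Hgt, (∀ q, |h q| ≤ |q.1| + |q.2| + R) → ‖F h‖ ≤ C := by
  classical
  obtain ⟨Λ, -, hh⟩ := hF
  let F' : (Λ → ℤ) → E := fun v => F fun q => if hq : q ∈ Λ then v ⟨q, hq⟩ else 0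
  let b : Λ → ℤ := fun q => |q.1.1| + |q.1.2| + R
  have hfin : (Set.Icc (-b) b).Finite := Set.finite_Icc _ _
  obtain ⟨C, hC⟩ := (hfin.image fun v => ‖F' v‖).bddAbove
  refine ⟨max C 0, le_max_right _ _, fun h hb => ?_⟩
  have e : F h = F' fun q => h q.1 := by
    refine hh _ _ fun q hq => ?_
    simp [hq]
  rw [e]
  have hm : (fun q : Λ => h q.1) ∈ Set.Icc (-b) b :=
    ⟨fun q => (abs_le.1 (hb q.1)).1, fun q => (abs_le.1 (hb q.1)).2⟩
  exact le_trans (hC (Set.mem_image_of_mem (fun v => ‖F' v‖) hm)) (le_max_left _ _)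

/-- Heights with base value `2 k`. -/
def Sk (k : ℤ) : Set Hgt := {h | ∀ q, |h q - 2 * k| ≤ |q.1| + |q.2|}

theorem measurableSet_Sk (k : ℤ) : MeasurableSet (Sk k) := by
  unfold Sk
  rw [Set.ofPred_forall]
  refine MeasurableSet.iInter fun q => ?_
  have h1 : Measurable fun h : Hgt => h q := measurable_pi_apply q
  exact h1 (MeasurableSet.of_discrete (s := {n : ℤ | |n - 2 * k| ≤ |q.1| + |q.2|}))

theorem ae_Sk (P : Measure (Ori (ℤ × ℤ))) (k : ℤ) :
    ∀ᵐ h ∂(P.map fun (ω : Ori (ℤ × ℤ)) q => pth ω q + 2 * k), h ∈ Sk k := by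
  refine (ae_map_iff (p := fun h => h ∈ Sk k) (measurable_pthk k).aemeasurable
    (measurableSet_Sk k)).2 (Eventually.of_forall fun ω q => ?_)
  have h1 : pth ω q + 2 * k - 2 * k = pth ω q := by ring
  show |pth ω q + 2 * k - 2 * k| ≤ |q.1| + |q.2|
  rw [h1]
  exact abs_pth_le ω q

/-- **Integrability.** -/
theorem integrable_loc {E : Type} [NormedAddCommGroup E] [NormedSpace ℝ E] [MeasurableSpace E]
    [BorelSpace E] [SecondCountableTopology E] {t : ℝ} {P : Measure (Ori (ℤ × ℤ))}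
    [IsFiniteMeasure P] {A : Set Pt} {A' : Set (ℤ × ℤ)} {g : Set Pt → ℝ} {F : Hgt → E}
    (hg : LocS A g) (g0 : g ∅ = 0) (hF : FA.Loc A' F) :
    Integrable (fun x => g (bl x) • F x.1) (MU t P) := by
  classical
  have hm : Measurable fun x : Hgt × Mk => g (bl x) • F x.1 :=
    (meas_g hg).smul ((meas_F hF).comp measurable_fst)
  unfold MU
  rw [integrable_map_measure hm.aestronglyMeasurable measurable_om.aemeasurable, mu0,
    Measure.prod_sum_left]
  refine ⟨(hm.comp measurable_om).aestronglyMeasurable, ?_⟩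
  obtain ⟨Λ, -, hΛ⟩ := id hg
  obtain ⟨C, hC0, hC⟩ := bdd_g hg
  let R : ℤ := ∑ w ∈ Λ, (|(e1 w).1| + |(e1 w).2|)
  obtain ⟨C', hC'0, hC'⟩ := bdd_F hF R
  have hR : ∀ w ∈ Λ, |(e1 w).1| + |(e1 w).2| ≤ R := fun w hw =>
    Finset.single_le_sum (f := fun w => |(e1 w).1| + |(e1 w).2|)
      (fun _ _ => by positivity) hw
  have key : ∀ (k : ℤ) (h : Hgt) (o : Mk), h ∈ Sk k →
      ‖g (bl (h, o)) • F h‖ₑ ≤ if |2 * k| ≤ R then ENNReal.ofReal (C * C') else 0 := by
    intro k h o hk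
    by_cases hz : ∀ w ∈ Λ, h (e1 w) ≠ 0
    · have h1 : g (bl (h, o)) = 0 := by
        rw [← g0]
        refine hΛ _ _ fun w hw => ?_
        constructor
        · rintro ⟨-, h2, -⟩
          exact absurd h2 (hz w hw)
        · intro h2
          exact absurd h2 (Set.notMem_empty w)
      rw [h1, zero_smul, enorm_zero]
      exact zero_le
    · push Not at hz
      obtain ⟨w, hw, h0⟩ := hz
      have h1 : |2 * k| ≤ R := by
        have h2 := hk (e1 w)
        rw [h0, zero_sub, abs_neg] at h2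
        exact h2.trans (hR w hw)
      rw [if_pos h1, ← ofReal_norm]
      refine ENNReal.ofReal_le_ofReal ?_
      rw [norm_smul]
      refine mul_le_mul (hC _) (hC' h fun q => ?_) (norm_nonneg _) hC0
      have h2 : |h q| ≤ |h q - 2 * k| + |2 * k| := by
        have := abs_add_le (h q - 2 * k) (2 * k)
        rwa [sub_add_cancel] at this
      exact h2.trans (add_le_add (hk q) h1)
  have hkk : ∀ k : ℤ,
      ∫⁻ x, ‖g (bl (x.1, om x.1 x.2)) • F x.1‖ₑ
        ∂((P.map fun (ω : Ori (ℤ × ℤ)) q => pth ω q + 2 * k).prod (mkm t)) ≤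
      if |2 * k| ≤ R then ENNReal.ofReal (C * C') * P univ else 0 := by
    intro k
    have hpf : IsFiniteMeasure (P.map fun (ω : Ori (ℤ × ℤ)) q => pth ω q + 2 * k) :=
      Measure.isFiniteMeasure_map P _
    have h1 : ∀ᵐ x ∂((P.map fun (ω : Ori (ℤ × ℤ)) q => pth ω q + 2 * k).prod (mkm t)),
        x.1 ∈ Sk k := Measure.quasiMeasurePreserving_fst.ae (ae_Sk P k)
    refine (lintegral_mono_ae (h1.mono fun x hx => key k x.1 (om x.1 x.2) hx)).trans ?_
    by_cases h2 : |2 * k| ≤ R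
    · simp only [if_pos h2, lintegral_const]
      rw [← Set.univ_prod_univ, Measure.prod_prod, measure_univ (μ := mkm t), mul_one,
        Measure.map_apply (measurable_pthk k) MeasurableSet.univ, Set.preimage_univ]
    · simp only [if_neg h2, lintegral_zero, le_refl]
  rw [hasFiniteIntegral_iff_enorm, lintegral_sum_measure]
  refine lt_of_le_of_lt (ENNReal.tsum_le_tsum hkk) ?_
  rw [tsum_eq_sum (s := Finset.Icc (-R) R)]
  · refine ENNReal.sum_lt_top.2 fun k _ => ?_
    split_ifs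
    · exact ENNReal.mul_lt_top ENNReal.ofReal_lt_top (measure_lt_top _ _)
    · exact ENNReal.zero_lt_top
  · intro k hk
    rw [if_neg]
    intro h2
    apply hk
    rw [abs_le] at h2
    rw [Finset.mem_Icc]
    constructor <;> omega

/-- Polynomials in the heights are local. -/
theorem loc_alg {A : Om → ℝ} (hA : Alg A) : FA.Loc univ fun h : Hgt => A (vm h) := by
  classical
  have key : ∃ V : Finset (ℤ × ℤ), ∀ ω ω' : Om, (∀ v ∈ V, ω v = ω' v) → A ω = A ω' := by
    induction hA with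
    | mon l =>
      refine ⟨l.toFinset, fun ω ω' h => ?_⟩
      have : l.map ω = l.map ω' := List.map_congr_left fun v hv => h v (List.mem_toFinset.2 hv)
      simp only [this]
    | zero => exact ⟨∅, fun _ _ _ => rfl⟩
    | add _ _ h1 h2 =>
      obtain ⟨V, hV⟩ := h1
      obtain ⟨W, hW⟩ := h2
      refine ⟨V ∪ W, fun ω ω' h => ?_⟩
      have h3 := hV ω ω' fun v hv => h v (Finset.mem_union_left _ hv)
      have h4 := hW ω ω' fun v hv => h v (Finset.mem_union_right _ hv)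
      simp only [h3, h4]
    | smul c _ _ h1 =>
      obtain ⟨V, hV⟩ := h1
      refine ⟨V, fun ω ω' h => ?_⟩
      have h3 := hV ω ω' h
      simp only [h3]
  obtain ⟨V, hV⟩ := key
  refine ⟨V.image av, fun _ _ => Set.mem_univ _, fun h h' hh => hV _ _ fun v hv => ?_⟩
  unfold vm
  rw [hh _ (Finset.mem_image_of_mem _ hv)]

theorem s_int (t : ℝ) (P : Measure (Ori (ℤ × ℤ))) [IsFiniteMeasure P] : S_int t P := by
  intro g A hg g0 hA
  exact integrable_loc (E := ℝ) hg g0 (loc_alg hA)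

/-- The part `int` of `S_avg`, with integrability. -/
theorem avg_int {t : ℝ} {P : Measure (Ori (ℤ × ℤ))} [IsFiniteMeasure P] {A : Set Pt}
    {A' : Set (ℤ × ℤ)} {g : Set Pt → ℝ} {F : Hgt → ℂ} (hg : LocS A g) (g0 : g ∅ = 0)
    (hF : FA.Loc A' F) :
    Integrable (fun x => ((g (bl x) : ℝ) : ℂ) * F x.1) (MU t P) ∧
    Integrable (fun h => ((avg t g h : ℝ) : ℂ) * F h) (mu0 P) ∧
    ∫ h, ((avg t g h : ℝ) : ℂ) * F h ∂(mu0 P) = ∫ x, ((g (bl x) : ℝ) : ℂ) * F x.1 ∂(MU t P) := by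
  have hi : Integrable (fun x => ((g (bl x) : ℝ) : ℂ) * F x.1) (MU t P) := by
    have h1 := integrable_loc (E := ℂ) (t := t) (P := P) hg g0 hF
    simpa only [Complex.real_smul] using h1
  have hs : SFinite (mu0 P) := by unfold mu0; infer_instance
  have h2 : Integrable (fun x : Hgt × Mk => ((g (bl (x.1, om x.1 x.2)) : ℝ) : ℂ) * F x.1)
      ((mu0 P).prod (mkm t)) :=
    (integrable_map_measure hi.aestronglyMeasurable measurable_om.aemeasurable).1 hi
  have h3 : ∀ h : Hgt, ∫ ξ, ((g (bl (h, om h ξ)) : ℝ) : ℂ) * F h ∂(mkm t) =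
      ((avg t g h : ℝ) : ℂ) * F h := by
    intro h
    rw [integral_mul_const]
    congr 1
    exact integral_ofReal
  refine ⟨hi, ?_, ?_⟩
  · have h4 := h2.integral_prod_left
    simpa only [h3] using h4
  · unfold MU
    rw [integral_map measurable_om.aemeasurable hi.aestronglyMeasurable, integral_prod _ h2]
    simp only [h3]

end Vale.Agent.P145.X
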