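import Vale.Agent.P145.X.Stmt

/-!
P145, block X: reflection of the Ashkin-Teller lattice in the first axis. The faces `FP.fc s` and
`av v`, `af f` of the six-vertex lattice differ by this reflection.
-/

namespace Vale.Agent.P145.X

open Filter Topology Set MeasureTheory
open Vale.Agent.P145.FP (Site)
open Vale.Agent.P145.Dom (ZH zw zs ze)
open Vale.Agent.P145.Top (vh Om)

/-- Reflection of the vertices. -/
def rv (v : ℤ × ℤ) : ℤ × ℤ := (v.1, -v.2)

/-- Reflection of the faces. -/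
def rf (f : ℤ × ℤ) : ℤ × ℤ := (f.1, -f.2 - 1)

@[simp] theorem rv_rv (v : ℤ × ℤ) : rv (rv v) = v := Prod.ext rfl (by simp [rv])
@[simp] theorem rf_rf (f : ℤ × ℤ) : rf (rf f) = f := Prod.ext rfl (by simp [rf])

theorem rf_inj : Function.Injective rf := Function.LeftInverse.injective rf_rf
theorem rv_inj : Function.Injective rv := Function.LeftInverse.injective rv_rv

/-- Reflection of the sites. -/
def rs : Site → Site
  | Sum.inl v => Sum.inl (rv v)
  | Sum.inr f => Sum.inr (rf f)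

@[simp] theorem rs_rs (s : Site) : rs (rs s) = s := by cases s <;> simp [rs]

theorem fc_rs (s : Site) : FP.fc (rs s) = s.elim av af := by
  cases s with
  | inl v =>
    show ((v.1 - -v.2, v.1 + -v.2) : ℤ × ℤ) = (v.1 + v.2, v.1 - v.2)
    exact Prod.ext (by ring) (by ring)
  | inr f =>
    show ((f.1 - (-f.2 - 1), f.1 + (-f.2 - 1) + 1) : ℤ × ℤ) = (f.1 + f.2 + 1, f.1 - f.2)
    exact Prod.ext (by ring) (by ring)

theorem fc_rv (v : ℤ × ℤ) : FP.fc (Sum.inl (rv v)) = av v := fc_rs (Sum.inl v)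
theorem fc_rf (f : ℤ × ℤ) : FP.fc (Sum.inr (rf f)) = af f := fc_rs (Sum.inr f)
theorem av_rv (v : ℤ × ℤ) : av (rv v) = FP.fc (Sum.inl v) := by rw [← fc_rv, rv_rv]
theorem af_rf (f : ℤ × ℤ) : af (rf f) = FP.fc (Sum.inr f) := by rw [← fc_rf, rf_rf]

theorem vh_rs (x : Site → ℤ) (v : ℤ × ℤ) : vh (fun s => x (rs s)) v = vh x (rv v) := rfl

theorem mem_image_rf {F : Finset (ℤ × ℤ)} {f : ℤ × ℤ} : f ∈ F.image rf ↔ rf f ∈ F := by
  rw [Finset.mem_image]
  constructor
  · rintro ⟨g, hg, rfl⟩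
    rwa [rf_rf]
  · intro h
    exact ⟨rf f, h, rf_rf f⟩

theorem zh_rs {F : Finset (ℤ × ℤ)} {x : Site → ℤ} (hx : x ∈ ZH F) :
    (fun s => x (rs s)) ∈ ZH (F.image rf) := by
  obtain ⟨h1, h2, h3⟩ := hx
  refine ⟨fun v => h1 (rv v), fun f hf => h2 (rf f) fun h => hf (mem_image_rf.2 h),
    fun f a b ha hb => ?_⟩
  have hb' : (1 - b = 0 ∨ 1 - b = 1) := by omega
  have h := h3 (rf f) a (1 - b) ha hb'
  have e : (((rf f).1 + a, (rf f).2 + (1 - b)) : ℤ × ℤ) = rv (f.1 + a, f.2 + b) :=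
    Prod.ext rfl (by simp [rf, rv]; ring)
  rw [e] at h
  exact ⟨fun hf => h.1 fun h' => hf (mem_image_rf.2 h'), fun hf => h.2 (mem_image_rf.1 hf)⟩

theorem image_rf_rf (F : Finset (ℤ × ℤ)) : (F.image rf).image rf = F := by
  ext f
  rw [mem_image_rf, mem_image_rf, rf_rf]

theorem zw_rs (c : ℝ) (F : Finset (ℤ × ℤ)) (x : Site → ℤ) :
    zw c (F.image rf) (fun s => x (rs s)) = zw c F x := by
  unfold zw
  congr 1
  · refine Finset.prod_nbij' rv rv ?_ ?_ (fun e _ => rv_rv e) (fun e _ => rv_rv e) ?_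
    · intro e he
      rw [Finset.mem_filter, mem_image_rf, mem_image_rf] at he
      rw [Finset.mem_filter]
      have e1 : rf (e - (0, 1)) = rv e := Prod.ext (by simp [rf, rv]) (by simp [rf, rv])
      have e2 : rf e = rv e - (0, 1) := Prod.ext (by simp [rf, rv]) (by simp [rf, rv])
      rw [e1, e2] at he
      exact ⟨he.2, he.1⟩
    · intro e he
      rw [Finset.mem_filter] at he
      rw [Finset.mem_filter, mem_image_rf, mem_image_rf]
      have e1 : rf (rv e - (0, 1)) = e := Prod.ext (by simp [rf, rv]) (by simp [rf, rv])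
      have e2 : rf (rv e) = e - (0, 1) := Prod.ext (by simp [rf, rv]) (by simp [rf, rv])
      rw [e1, e2]
      exact ⟨he.2, he.1⟩
    · intro e he
      have e1 : rs (Sum.inl (e.1 + 1, e.2)) = Sum.inl ((rv e).1 + 1, (rv e).2) := rfl
      have e2 : rs (Sum.inr e) = Sum.inr ((rv e).1, (rv e).2 - 1) := rfl
      have e3 : rs (Sum.inr (e.1, e.2 - 1)) = Sum.inr (rv e) :=
        congrArg Sum.inr (Prod.ext rfl (by simp [rf, rv]))
      have e4 : rs (Sum.inl e) = Sum.inl (rv e) := rfl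
      simp only [e1, e2, e3, e4]
      have e5 : (x (Sum.inr ((rv e).1, (rv e).2 - 1)) = x (Sum.inr (rv e))) ↔
          (x (Sum.inr (rv e)) = x (Sum.inr ((rv e).1, (rv e).2 - 1))) := eq_comm
      simp only [e5]
  · refine Finset.prod_nbij' rf rf ?_ ?_ (fun e _ => rf_rf e) (fun e _ => rf_rf e) ?_
    · intro e he
      rw [Finset.mem_filter, mem_image_rf, mem_image_rf] at he
      rw [Finset.mem_filter]
      have e1 : rf (e - (1, 0)) = rf e - (1, 0) := Prod.ext (by simp [rf]) (by simp [rf])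
      rwa [e1] at he
    · intro e he
      rw [Finset.mem_filter] at he
      rw [Finset.mem_filter, mem_image_rf, mem_image_rf]
      have e1 : rf (rf e - (1, 0)) = e - (1, 0) := Prod.ext (by simp [rf]) (by simp [rf])
      rw [e1, rf_rf]
      exact he
    · intro e he
      have e1 : rs (Sum.inl (e.1, e.2 + 1)) = Sum.inl (rf e) :=
        congrArg Sum.inl (Prod.ext rfl (by simp [rf, rv]; ring))
      have e2 : rs (Sum.inl e) = Sum.inl ((rf e).1, (rf e).2 + 1) :=
        congrArg Sum.inl (Prod.ext rfl (by simp [rf, rv]))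
      have e3 : rs (Sum.inr e) = Sum.inr (rf e) := rfl
      have e4 : rs (Sum.inr (e.1 - 1, e.2)) = Sum.inr ((rf e).1 - 1, (rf e).2) := rfl
      simp only [e1, e2, e3, e4]
      have e5 : (x (Sum.inl ((rf e).1, (rf e).2 + 1)) = x (Sum.inl (rf e))) ↔
          (x (Sum.inl (rf e)) = x (Sum.inl ((rf e).1, (rf e).2 + 1))) := eq_comm
      simp only [e5]

theorem zs_rs (c : ℝ) (F : Finset (ℤ × ℤ)) (Φ : (Site → ℤ) → ℝ) :
    zs c (F.image rf) Φ = zs c F fun x => Φ fun s => x (rs s) := by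
  unfold zs
  symm
  refine finsum_mem_eq_of_bijOn (fun x s => x (rs s)) ⟨fun x hx => zh_rs hx, ?_, ?_⟩ ?_
  · intro x _ y _ h
    funext s
    have := congrFun h (rs s)
    simpa using this
  · intro y hy
    refine ⟨fun s => y (rs s), ?_, ?_⟩
    · have := zh_rs hy
      rwa [image_rf_rf] at this
    · funext s
      simp
  · intro x _
    rw [zw_rs]

/-- Reflection invariance of the zero boundary law. -/
theorem ze_rs (c : ℝ) (F : Finset (ℤ × ℤ)) (Φ : (Site → ℤ) → ℝ) :
    ze c (F.image rf) Φ = ze c F fun x => Φ fun s => x (rs s) := by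
  unfold ze
  rw [zs_rs, zs_rs]

/-- The same for functions of the heights of the vertices. -/
theorem ze_rv (c : ℝ) (F : Finset (ℤ × ℤ)) (A : Om → ℝ) :
    ze c (F.image rf) (fun x => A (vh x)) = ze c F fun x => A fun v => vh x (rv v) :=
  ze_rs c F fun x => A (vh x)

/-- The same, with the reflection on the other side. -/
theorem ze_rv' (c : ℝ) (F : Finset (ℤ × ℤ)) (A : Om → ℝ) :
    ze c (F.image rf) (fun x => A fun v => vh x (rv v)) = ze c F fun x => A (vh x) := by
  have h := ze_rv c F fun ω => A fun v => ω (rv v)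
  simpa only [rv_rv] using h

end Vale.Agent.P145.X
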