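import Vale.Agent.P145.FK.Ext
import Vale.Agent.P145.X.Refl

/-!
P145, X-level: the comparison inequalities LOW and EXT in the plane, for functions of the set of the
blocked edges and for polynomials in the heights of the vertices.
-/

namespace Vale.Agent.P145.X

open Filter Topology Set MeasureTheory
open Vale.Agent.P152 (Ori)
open Vale.Agent.P145.FA (Hgt)
open Vale.Agent.P145.FB (Pt Mk e1 e2 o1 o2 MU bl mkm om)
open Vale.Agent.P145.Top (Om Cone vh)
open Vale.Agent.P145.FP (Site)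
open Vale.Agent.P145.Dom (ze)
open Vale.Agent.P145.FK (PosM PosH OutM InM DecM Loc6 Sq Ins In6 Cf6 st6 mem_Sq)

namespace LowE

/-! ### Functions of the blocked edges -/

lemma bl_eq (x : Hgt × Mk) : FK.bl x = bl x := by
  ext w
  constructor
  · exact fun h => ⟨h.2.2, h.1, h.2.1⟩
  · exact fun h => ⟨h.2.1, h.2.2, h.1⟩

/-- A square which contains the faces of finitely many edges. -/
lemma exists_sq (Λ : Finset Pt) : ∃ m : ℕ, ∀ n, m ≤ n → ∀ w ∈ Λ, w ∈ FC.VB (Sq n) := by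
  refine ⟨∑ w ∈ Λ, (w.1.natAbs + w.2.natAbs) + 2, fun n hn w hw => ?_⟩
  have h1 : w.1.natAbs + w.2.natAbs ≤ ∑ w ∈ Λ, (w.1.natAbs + w.2.natAbs) :=
    Finset.single_le_sum (f := fun w : Pt => w.1.natAbs + w.2.natAbs) (fun _ _ => Nat.zero_le _) hw
  have h2 : |w.1| ≤ n - 1 := abs_le.2 ⟨by omega, by omega⟩
  have h3 : |w.2| ≤ n - 1 := abs_le.2 ⟨by omega, by omega⟩
  have a1 := abs_sub w.1 1
  have a2 := abs_sub w.2 1
  have a3 : |(1 : ℤ)| = 1 := abs_one
  rw [FK.mem_VB]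
  unfold e1 e2 o1 o2
  refine ⟨?_, ?_, ?_, ?_⟩ <;> rw [mem_Sq] <;> split_ifs <;> constructor <;> linarith

lemma loc6_of {A : Set Pt} {g : Set Pt → ℝ} (hg : LocS A g) :
    ∃ m : ℕ, ∀ n, m ≤ n → Loc6 n (fun _ b => g b) := by
  obtain ⟨Λ, _, h2⟩ := hg
  obtain ⟨m, hm⟩ := exists_sq Λ
  exact ⟨m, fun n hn h h' b b' _ hb => h2 _ _ fun w hw => hb w (hm n hn w hw)⟩

/-! ### Orientation -/

lemma In6_iff' {F : Set (ℤ × ℤ)} {w : Pt} : In6 (rf ⁻¹' F) w ↔ w ∈ iE F := by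
  constructor
  · rintro ⟨⟨g, hg, h1⟩, ⟨g', hg', h2⟩⟩
    refine ⟨rf g, hg, rf g', hg', ?_, ?_⟩
    · rw [af_rf]; exact h1.symm
    · rw [af_rf]; exact h2.symm
  · rintro ⟨f, hf, g, hg, h1, h2⟩
    refine ⟨⟨rf f, ?_, ?_⟩, ⟨rf g, ?_, ?_⟩⟩
    · rw [Set.mem_preimage, rf_rf]; exact hf
    · rw [fc_rf]; exact h1.symm
    · rw [Set.mem_preimage, rf_rf]; exact hg
    · rw [fc_rf]; exact h2.symm

lemma out_of {F : Set (ℤ × ℤ)} {g : Set Pt → ℝ} (hg : LocS (iE F)ᶜ g) :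
    OutM (rf ⁻¹' F) (fun _ b => g b) := by
  obtain ⟨Λ, h1, h2⟩ := hg
  intro h h' b b' _ hb
  exact h2 _ _ fun w hw => hb w fun h => h1 w hw (In6_iff'.1 h)

lemma af_inj : Function.Injective af := by
  intro f g h
  unfold af at h
  rw [Prod.mk.injEq] at h
  exact Prod.ext (by omega) (by omega)

lemma tE_sub (S : Set (ℤ × ℤ)) : tE S ⊆ (iE Sᶜ)ᶜ := by
  rintro w ⟨f, hf, hw⟩ ⟨f', hf', g', hg', h1, h2⟩
  rcases hw with h | h
  · rw [h1] at h
    exact hf' (af_inj h ▸ hf)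
  · rw [h2] at h
    exact hg' (af_inj h ▸ hf)

/-- Inside even faces. -/
lemma ins_ev {F : Set (ℤ × ℤ)} {q : Pt} (hq : Even (q.1 + q.2)) :
    Ins F q ↔ ∀ f, FK.Adj q (FP.fc (.inr f)) → f ∈ F := by
  have h1 : FP.cf q = .inl ((q.1 + q.2) / 2, (q.2 - q.1) / 2) := by
    unfold FP.cf
    rw [if_pos (Int.even_iff.1 hq)]
  have h2 : FP.fc (.inl ((q.1 + q.2) / 2, (q.2 - q.1) / 2)) = q := by
    obtain ⟨k, hk⟩ := hq
    unfold FP.fc
    ext <;> simp only <;> omega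
  unfold Ins
  rw [h1]
  simp only [Sum.elim_inl]
  refine forall_congr' fun f => ?_
  rw [← FK.adj_fc, h2]

/-- The edges which do not touch a box are inside the complement of a smaller box. -/
lemma in_of {p : ℤ × ℤ} {r : ℤ} {w : Pt} (hw : w ∉ tE (bx p (3 * r))) :
    In6 (rf ⁻¹' (bx p (2 * r))ᶜ) w ∧ Ins (rf ⁻¹' (bx p (2 * r))ᶜ) (e1 w) ∧
      Ins (rf ⁻¹' (bx p (2 * r))ᶜ) (e2 w) := by
  have hb : bx p (2 * r) ⊆ bx p (3 * r) := by
    rintro f ⟨h1, h2, h3, h4⟩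
    exact ⟨by omega, by omega, by omega, by omega⟩
  obtain ⟨x, y⟩ := w
  by_cases hp : Even (x + y)
  · obtain ⟨k, hk⟩ := hp
    have hp : Even (x + y) := ⟨k, hk⟩
    have f1 : (k - 1, k - 1 - y) ∉ bx p (3 * r) := fun h => hw ⟨_, h, Or.inl (by
      simp only [o1, af, if_pos hp, Prod.mk.injEq]; omega)⟩
    have f2 : (k - 1, k - y) ∉ bx p (3 * r) := fun h => hw ⟨_, h, Or.inr (by
      simp only [o2, af, if_pos hp, Prod.mk.injEq]; omega)⟩
    have g1 : e1 (x, y) = (x, y) := if_pos hp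
    have g2 : e2 (x, y) = (x - 1, y - 1) := if_pos hp
    refine ⟨In6_iff'.2 ⟨(k - 1, k - 1 - y), fun h => f1 (hb h), (k - 1, k - y),
      fun h => f2 (hb h), ?_, ?_⟩, ?_, ?_⟩
    · simp only [o1, af, if_pos hp, Prod.mk.injEq]; omega
    · simp only [o2, af, if_pos hp, Prod.mk.injEq]; omega
    · rw [g1, ins_ev hp]
      rintro ⟨a, b⟩ hab h
      simp only [FK.Adj, FP.fc] at hab
      simp only [bx, rf, Set.mem_ofPred_eq] at f1 h
      omega
    · rw [g2, ins_ev ⟨k - 1, by simp only; omega⟩]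
      rintro ⟨a, b⟩ hab h
      simp only [FK.Adj, FP.fc] at hab
      simp only [bx, rf, Set.mem_ofPred_eq] at f1 h
      omega
  · obtain ⟨k, hk⟩ := Int.not_even_iff_odd.1 hp
    have f1 : (k, k - y) ∉ bx p (3 * r) := fun h => hw ⟨_, h, Or.inl (by
      simp only [o1, af, if_neg hp, Prod.mk.injEq]; omega)⟩
    have f2 : (k - 1, k - y) ∉ bx p (3 * r) := fun h => hw ⟨_, h, Or.inr (by
      simp only [o2, af, if_neg hp, Prod.mk.injEq]; omega)⟩
    have g1 : e1 (x, y) = (x - 1, y) := if_neg hp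
    have g2 : e2 (x, y) = (x, y - 1) := if_neg hp
    refine ⟨In6_iff'.2 ⟨(k, k - y), fun h => f1 (hb h), (k - 1, k - y),
      fun h => f2 (hb h), ?_, ?_⟩, ?_, ?_⟩
    · simp only [o1, af, if_neg hp, Prod.mk.injEq]; omega
    · simp only [o2, af, if_neg hp, Prod.mk.injEq]; omega
    · rw [g1, ins_ev ⟨k, by simp only; omega⟩]
      rintro ⟨a, b⟩ hab h
      simp only [FK.Adj, FP.fc] at hab
      simp only [bx, rf, Set.mem_ofPred_eq] at f1 h
      omega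
    · rw [g2, ins_ev ⟨k, by simp only; omega⟩]
      rintro ⟨a, b⟩ hab h
      simp only [FK.Adj, FP.fc] at hab
      simp only [bx, rf, Set.mem_ofPred_eq] at f1 h
      omega

lemma st6_iff {b : Set Pt} {f g : ℤ × ℤ} : st6 b (rf f) (rf g) ↔ stp b f g := by
  unfold st6 stp
  rw [fc_rf, fc_rf]

lemma Cf6_iff {b : Set Pt} {S T : Set (ℤ × ℤ)} :
    Cf6 b (rf ⁻¹' S) (rf ⁻¹' T) ↔ Conf b S T := by
  have key : ∀ f g, Relation.ReflTransGen (stp b) f g →
      Relation.ReflTransGen (st6 b) (rf f) (rf g) := by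
    intro f g h
    exact Relation.ReflTransGen.lift rf (fun a c hac => st6_iff.2 hac) _ _ h
  have key' : ∀ f g, Relation.ReflTransGen (st6 b) f g →
      Relation.ReflTransGen (stp b) (rf f) (rf g) := by
    intro f g h
    refine Relation.ReflTransGen.lift rf (fun a c hac => ?_) _ _ h
    rw [← rf_rf a, ← rf_rf c] at hac
    exact st6_iff.1 hac
  constructor
  · intro h f hf g hfg
    have h1 := h (rf f) (by rw [Set.mem_preimage, rf_rf]; exact hf) (rf g) (key f g hfg)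
    rwa [Set.mem_preimage, rf_rf] at h1
  · intro h f hf g hfg
    exact h (rf f) hf (rf g) (key' f g hfg)

/-! ### Polynomials in the heights -/

/-- The polynomial as a function of the heights of the sites. -/
noncomputable def Ah (A : Om → ℝ) : (Site → ℤ) → ℝ := fun x => A fun v => vh x (rv v)

lemma vm_eq (h : Hgt) : vm h = fun v => vh (fun s => h (FP.fc s)) (rv v) := by
  funext v
  show (h (av v) : ℝ) / 2 = (h (FP.fc (Sum.inl (rv v))) : ℝ) / 2
  rw [fc_rv]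

lemma Ah_fc (A : Om → ℝ) (h : Hgt) : Ah A (fun s => h (FP.fc s)) = A (vm h) := by
  rw [vm_eq]
  rfl

lemma Ah_pos {A : Om → ℝ} (hA : Cone A) : PosH (Ah A) := by
  induction hA with
  | mon l =>
    induction l with
    | nil =>
      refine (congrArg PosH ?_).mp (PosH.const 1 zero_le_one)
      funext x
      simp [Ah]
    | cons v l ih =>
      refine (congrArg PosH ?_).mp
        (PosH.mul (PosH.mul (PosH.const (1 / 2) (by norm_num)) (PosH.ht (rv v))) ih)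
      funext x
      simp only [Ah, List.map_cons, List.prod_cons, vh]
      ring
  | zero => exact PosH.const 0 le_rfl
  | add _ _ h1 h2 => exact PosH.add h1 h2
  | smul c hc _ h1 => exact PosH.mul (PosH.const c hc) h1

/-- The polynomial depends on finitely many heights. -/
lemma Ah_fin {A : Om → ℝ} {P : ℝ → Prop} (hA : Top.Pol P A) :
    ∃ V : Finset (ℤ × ℤ), ∀ ω ω' : Om, (∀ v ∈ V, ω v = ω' v) → A ω = A ω' := by
  classical
  induction hA with
  | mon l =>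
    refine ⟨l.toFinset, fun ω ω' h => ?_⟩
    show (l.map ω).prod = (l.map ω').prod
    rw [List.map_congr_left fun v hv => h v (List.mem_toFinset.2 hv)]
  | zero => exact ⟨∅, fun _ _ _ => rfl⟩
  | @add f g _ _ h1 h2 =>
    obtain ⟨V, hV⟩ := h1
    obtain ⟨W, hW⟩ := h2
    refine ⟨V ∪ W, fun ω ω' h => ?_⟩
    show f ω + g ω = f ω' + g ω'
    rw [hV ω ω' fun v hv => h v (Finset.mem_union_left _ hv),
      hW ω ω' fun v hv => h v (Finset.mem_union_right _ hv)]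
  | @smul f c _ _ h1 =>
    obtain ⟨V, hV⟩ := h1
    refine ⟨V, fun ω ω' h => ?_⟩
    show c * f ω = c * f ω'
    rw [hV ω ω' h]

lemma Ah_loc {A : Om → ℝ} {P : ℝ → Prop} (hA : Top.Pol P A) :
    ∃ m : ℕ, ∀ n, m ≤ n → Loc6 n (fun h _ => A (vm h)) := by
  obtain ⟨V, hV⟩ := Ah_fin hA
  refine ⟨∑ v ∈ V, (v.1.natAbs + v.2.natAbs), fun n hn h h' b b' hh _ => hV _ _ fun v hv => ?_⟩
  have h1 : v.1.natAbs + v.2.natAbs ≤ ∑ v ∈ V, (v.1.natAbs + v.2.natAbs) :=
    Finset.single_le_sum (f := fun w : ℤ × ℤ => w.1.natAbs + w.2.natAbs)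
      (fun _ _ => Nat.zero_le _) hv
  unfold vm
  rw [hh (av v)]
  rw [mem_Sq]
  unfold av
  simp only
  rw [abs_le, abs_le]
  constructor <;> constructor <;> omega

/-- The inside vertices. -/
lemma ins_av {F : Set (ℤ × ℤ)} {v : ℤ × ℤ} (hv : v ∈ inV F) : Ins (rf ⁻¹' F) (av v) := by
  have he : Even ((av v).1 + (av v).2) := ⟨v.1, by unfold av; ring⟩
  rw [ins_ev he]
  rintro ⟨a, b⟩ hab
  obtain ⟨i, j⟩ := v
  obtain ⟨h1, h2, h3, h4⟩ := hv
  simp only [FK.Adj, FP.fc, av] at hab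
  show rf (a, b) ∈ F
  simp only at h1 h2 h3 h4
  have key : rf (a, b) = (i, j) ∨ rf (a, b) = (i - 1, j) ∨ rf (a, b) = (i, j - 1) ∨
      rf (a, b) = (i - 1, j - 1) := by
    simp only [rf, Prod.mk.injEq]
    omega
  rcases key with h | h | h | h <;> rw [h] <;> assumption

/-- Integrals in the two forms. -/
lemma II_fk (t : ℝ) (P : Measure (Ori (ℤ × ℤ))) (g : Set Pt → ℝ) (A : Om → ℝ) :
    II t P g A = ∫ x, g (FK.bl x) * Ah A (fun s => x.1 (FP.fc s)) ∂(MU t P) := by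
  unfold II
  congr 1
  funext x
  rw [Ah_fc, bl_eq]

lemma II_fk1 (t : ℝ) (P : Measure (Ori (ℤ × ℤ))) (g : Set Pt → ℝ) :
    II t P g (fun _ => 1) = ∫ x, g (FK.bl x) ∂(MU t P) := by
  unfold II
  congr 1
  funext x
  rw [bl_eq, mul_one]

lemma locU {A : Set Pt} {g : Set Pt → ℝ} (hg : LocS A g) : LocS Set.univ g := by
  obtain ⟨Λ, _, h2⟩ := hg
  exact ⟨Λ, fun _ _ => Set.mem_univ _, h2⟩

lemma locM {A B : Set Pt} {g h : Set Pt → ℝ} (hg : LocS A g) (hh : LocS B h) :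
    LocS Set.univ (fun b => g b * h b) := by
  classical
  obtain ⟨Λ, _, h2⟩ := hg
  obtain ⟨Λ', _, h2'⟩ := hh
  refine ⟨Λ ∪ Λ', fun _ _ => Set.mem_univ _, fun b b' hb => ?_⟩
  show g b * h b = g b' * h b'
  rw [h2 b b' fun w hw => hb w (Finset.mem_union_left _ hw),
    h2' b b' fun w hw => hb w (Finset.mem_union_right _ hw)]

end LowE

open LowE

/-- LOW. -/
theorem s_low {c t : ℝ} (hct : c * t = 1) (hc : 1 ≤ c) (hc2 : c ≤ 2) (hb : FA.BoxLim c)
    {P : Measure (Ori (ℤ × ℤ))} (hPl : FA.Pl c P) (hP : P152.GFF.B3.IsP c P) (hI : S_int t P) :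
    S_low c t P := by
  have ht : t = c⁻¹ := eq_inv_of_mul_eq_one_right hct
  subst ht
  intro F Θ A hΘ hA
  obtain ⟨m, hm⟩ := loc6_of hΘ.loc
  have i0 : Integrable (fun x : Hgt × Mk => Θ (FK.bl x)) (MU c⁻¹ P) := by
    have h := hI Θ (fun _ => 1) (locU hΘ.loc) hΘ.pin Top.Pol.one
    refine h.congr (Filter.Eventually.of_forall fun x => ?_)
    show Θ (bl x) * 1 = Θ (FK.bl x)
    rw [bl_eq, mul_one]
  have i1 : Integrable (fun x : Hgt × Mk => Θ (FK.bl x) * Ah A (fun s => x.1 (FP.fc s)))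
      (MU c⁻¹ P) := by
    have h := hI Θ A (locU hΘ.loc) hΘ.pin hA.alg
    refine h.congr (Filter.Eventually.of_forall fun x => ?_)
    show Θ (bl x) * A (vm x.1) = Θ (FK.bl x) * Ah A (fun s => x.1 (FP.fc s))
    rw [bl_eq, Ah_fc]
  have hF : ((F.image rf : Finset (ℤ × ℤ)) : Set (ℤ × ℤ)) = rf ⁻¹' (F : Set (ℤ × ℤ)) := by
    ext f
    rw [Finset.mem_coe, mem_image_rf, Set.mem_preimage, Finset.mem_coe]
  have key := FK.low_planeH hc hc2 hb hPl hP (F := F.image rf) (Θ := fun _ b => Θ b)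
    (fun _ b => hΘ.nonneg b) (by rw [hF]; exact out_of hΘ.loc) (hm m le_rfl) (Ah_pos hA) i0 i1
  rw [II_fk1, II_fk]
  have h1 : ze c (F.image rf) (Ah A) = ze c F (fun x => A (vh x)) := ze_rv' c F A
  rw [← h1]
  exact key

/-- EXT. -/
theorem s_ext {c t : ℝ} (hct : c * t = 1) (hc : 1 ≤ c) (hc2 : c ≤ 2) (hb : FA.BoxLim c)
    {P : Measure (Ori (ℤ × ℤ))} (hPl : FA.Pl c P) (hP : P152.GFF.B3.IsP c P) (hI : S_int t P) :
    S_ext t P := by
  have ht : t = c⁻¹ := eq_inv_of_mul_eq_one_right hct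
  subst ht
  intro p r X Θ a A hr hX hXm hXc hΘ ha0 hal haa hA hAon
  obtain ⟨m1, hm1⟩ := loc6_of hX.loc
  obtain ⟨m2, hm2⟩ := loc6_of hΘ.loc
  obtain ⟨m3, hm3⟩ := loc6_of hal
  obtain ⟨m4, hm4⟩ := Ah_loc hA
  set m := m1 + m2 + m3 + m4 with hm
  have hint : ∀ (g : Set Pt → ℝ) (B : Om → ℝ), LocS Set.univ g → g ∅ = 0 → Cone B →
      Integrable (fun x : Hgt × Mk => g (FK.bl x) * B (vm x.1)) (MU c⁻¹ P) := by
    intro g B hg h0 hB
    have h := hI g B hg h0 hB.alg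
    refine h.congr (Filter.Eventually.of_forall fun x => ?_)
    show g (bl x) * B (vm x.1) = g (FK.bl x) * B (vm x.1)
    rw [bl_eq]
  have hint1 : ∀ g : Set Pt → ℝ, LocS Set.univ g → g ∅ = 0 →
      Integrable (fun x : Hgt × Mk => g (FK.bl x)) (MU c⁻¹ P) := by
    intro g hg h0
    have h := hint g (fun _ => 1) hg h0 Top.Pol.one
    simpa only [mul_one] using h
  have hintA : ∀ g : Set Pt → ℝ, LocS Set.univ g → g ∅ = 0 →
      Integrable (fun x : Hgt × Mk => g (FK.bl x) * (a (FK.bl x) * A (vm x.1))) (MU c⁻¹ P) := by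
    intro g hg h0
    have h := hint (fun b => g b * a b) A (locM hg hal) (by simp only [h0, zero_mul]) hA
    simpa only [mul_assoc] using h
  have hOfin : (rf ⁻¹' (bx p r)).Finite := by
    refine Set.Finite.preimage rf_inj.injOn ?_
    refine (Finset.finite_toSet (Finset.Icc (p.1 - r) (p.1 + r) ×ˢ
      Finset.Icc (p.2 - r) (p.2 + r))).subset ?_
    rintro f ⟨h1, h2, h3, h4⟩
    rw [Finset.mem_coe, Finset.mem_product, Finset.mem_Icc, Finset.mem_Icc]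
    exact ⟨⟨h1, h2.le⟩, h3, h4.le⟩
  have hOne : (rf ⁻¹' (bx p r)).Nonempty := by
    refine ⟨rf p, ?_⟩
    rw [Set.mem_preimage, rf_rf]
    exact ⟨by omega, by omega, by omega, by omega⟩
  have hOc : (rf ⁻¹' (bx p r))ᶜ = rf ⁻¹' (bx p r)ᶜ := Set.preimage_compl.symm
  have hIc : (rf ⁻¹' (bx p (2 * r))ᶜ)ᶜ = rf ⁻¹' (bx p (2 * r)) := by
    rw [Set.preimage_compl, compl_compl]
  have hPM : PosM (fun h b => a b * A (vm h)) := by
    refine PosM.mul (PosM.dec ha0 haa) ?_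
    have h1 := (Ah_pos hA).posM
    simpa only [Ah_fc] using h1
  have hΘo : LocS (iE (bx p r)ᶜ)ᶜ Θ := by
    obtain ⟨Λ, h1, h2⟩ := hΘ.loc
    exact ⟨Λ, fun w hw => tE_sub _ (h1 w hw), h2⟩
  have hIn : InM (rf ⁻¹' (bx p (2 * r))ᶜ) (fun h b => a b * A (vm h)) := by
    intro h h' b b' hh hbb
    obtain ⟨Λ, h1, h2⟩ := hal
    have e1 : a b = a b' := h2 _ _ fun w hw => by
      obtain ⟨k1, k2, k3⟩ := in_of (h1 w hw)
      exact hbb w k1 k2 k3
    have e2 : A (vm h) = A (vm h') := hAon _ _ fun v hv => by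
      unfold vm
      rw [hh (av v) (ins_av hv)]
    show a b * A (vm h) = a b' * A (vm h')
    rw [e1, e2]
  have key := FK.ext_plane hc hc2 hb hPl hP (O := rf ⁻¹' (bx p r))
    (I := rf ⁻¹' (bx p (2 * r))ᶜ) hOfin hOne (X := fun _ b => X b) (Θ := fun _ b => Θ b)
    (A := fun h b => a b * A (vm h)) (m := m) (fun _ b => hX.nonneg b)
    (fun _ _ _ _ _ hb' => hXm hb')
    (fun _ b hne => by rw [hIc]; exact Cf6_iff.2 (hXc b hne))
    (fun _ b => hΘ.nonneg b) (by rw [hOc]; exact out_of hΘo) hPM hIn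
    (hm1 m (by omega)) (hm2 m (by omega))
    ((hm3 m (by omega)).mul (hm4 m (by omega)))
    (hint1 X (locU hX.loc) hX.pin) (hintA X (locU hX.loc) hX.pin) (hint1 Θ (locU hΘ.loc) hΘ.pin)
    (hintA Θ (locU hΘ.loc) hΘ.pin)
  have e1 : II c⁻¹ P (fun B => X B * a B) A =
      ∫ x, X (FK.bl x) * (a (FK.bl x) * A (vm x.1)) ∂(MU c⁻¹ P) := by
    unfold II
    congr 1
    funext x
    rw [bl_eq, mul_assoc]
  have e2 : II c⁻¹ P (fun B => Θ B * a B) A =
      ∫ x, Θ (FK.bl x) * (a (FK.bl x) * A (vm x.1)) ∂(MU c⁻¹ P) := by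
    unfold II
    congr 1
    funext x
    rw [bl_eq, mul_assoc]
  rw [e1, e2, II_fk1, II_fk1]
  exact key

end Vale.Agent.P145.X
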