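import Vale.Agent.P145.X.LowC
import Vale.Agent.P145.X.LowExt

/-!
P145, decay at the boundary: comparison of the probability of a connection under the zero boundary
condition with the one in the plane (`S_lowc`).
-/

namespace Vale.Agent.P145.X

open Filter Topology Set MeasureTheory
open Vale.Agent.P152 (Ori)
open Vale.Agent.P145.FA (Hgt)
open Vale.Agent.P145.FB (Pt Mk MU)
open Vale.Agent.P145.FK (KF)

/-- Comparison of the probability of a connection under the zero boundary condition with the one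
in the plane. -/
theorem s_lowc {c t : ℝ} (hct : c * t = 1) (hc : 1 ≤ c) (hc2 : c ≤ 2) (hb : FA.BoxLim c)
    {P : Measure (Ori (ℤ × ℤ))} (hPl : FA.Pl c P) (hP : P152.GFF.B3.IsP c P) (hI : S_int t P) :
    S_lowc c t P := by
  classical
  have ht : t = c⁻¹ := eq_inv_of_mul_eq_one_right hct
  subst ht
  intro F O I Θ hΘ hO hI'
  obtain ⟨a, b, a', b', hB⟩ := FK.exists_rect (F ∪ hO.toFinset ∪ hI'.toFinset)
  have hok : BoxOK (Finset.Icc a b ×ˢ Finset.Icc a' b') F (KF F) O I := by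
    refine ⟨hB.mono fun f hf => ?_, FK.boxN_loc_rect a b a' b', le_rfl,
      fun f hf => hB.mem ?_, fun f hf => hB.mem ?_⟩
    · simp only [Finset.coe_union, Set.mem_union]
      exact Or.inl (Or.inl hf)
    · simp only [Finset.coe_union, Set.mem_union, Set.Finite.coe_toFinset]
      exact Or.inl (Or.inr hf)
    · simp only [Finset.coe_union, Set.mem_union, Set.Finite.coe_toFinset]
      exact Or.inr hf
  refine ⟨_, _, hok, ?_⟩
  obtain ⟨m1, hm1⟩ := LowE.loc6_of hΘ.loc
  obtain ⟨m2, hm2⟩ := LowE.loc6_of (LC.cn_loc F O I)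
  obtain ⟨m3, hm3⟩ := LC.exists_VB (LC.Lf F)
  obtain ⟨n0, hn0⟩ := FK.exists_Nb6 (F.image rf)
  have i0 : Integrable (fun x : Hgt × Mk => Θ (FK.bl x)) (MU c⁻¹ P) := by
    have h := hI Θ (fun _ => 1) (LowE.locU hΘ.loc) hΘ.pin Top.Pol.one
    refine h.congr (Filter.Eventually.of_forall fun x => ?_)
    show Θ (FB.bl x) * 1 = Θ (FK.bl x)
    rw [LowE.bl_eq, mul_one]
  have i1 : Integrable (fun x : Hgt × Mk => Θ (FK.bl x) *
      cn (F : Set (ℤ × ℤ)) O I (FK.bl x)) (MU c⁻¹ P) := by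
    have h := hI (fun E => Θ E * cn (F : Set (ℤ × ℤ)) O I E) (fun _ => 1)
      (LowE.locM hΘ.loc (LC.cn_loc F O I)) (by simp only [hΘ.pin, zero_mul]) Top.Pol.one
    refine h.congr (Filter.Eventually.of_forall fun x => ?_)
    show Θ (FB.bl x) * cn (F : Set (ℤ × ℤ)) O I (FB.bl x) * 1 =
      Θ (FK.bl x) * cn (F : Set (ℤ × ℤ)) O I (FK.bl x)
    rw [LowE.bl_eq, mul_one]
  have key := FK.low_plane hc hc2 hb hPl hP (F := F.image rf) (Θ := fun _ b => Θ b)
    (A := fun _ b => cn (F : Set (ℤ × ℤ)) O I b) (m := max m1 m2)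
    (p := pcn c (Finset.Icc a b ×ˢ Finset.Icc a' b') F (KF F) O I) (K0 := KF (F.image rf))
    (fun _ b => hΘ.nonneg b) (LC.outM_of hΘ.loc) (hm1 _ (le_max_left _ _))
    (FK.PosM.dec (fun b => ind_nonnegD _ b) (LC.cn_anti _ O I)) (hm2 _ (le_max_right _ _)) i0 i1
    (by
      filter_upwards [eventually_ge_atTop (max n0 (max m3 1))] with n hn K hK
      exact LC.Jz_cn hc hok
        (FK.NI_Sq ((le_max_right m3 1).trans ((le_max_right n0 _).trans hn)))
        (hn0 n ((le_max_left _ _).trans hn))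
        (hm3 n ((le_max_left m3 1).trans ((le_max_right n0 _).trans hn))) hK)
  rw [LowE.II_fk1, LowE.II_fk1]
  exact key

end Vale.Agent.P145.X
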