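import Vale.Agent.P145.X.MomU
import Vale.Agent.P145.FB.MomE

/-!
P145, X-level: the moments of the heights given a macroscopic circuit at level `0` (`S_mm`).
-/

namespace Vale.Agent.P145.X

open Filter Topology MeasureTheory
open Vale.Agent.P152 (Ori Ice pth)
open Vale.Agent.P145.FA (Hgt mass)
open Vale.Agent.P145.FB
open Vale.Agent.P145.Top (Om hv)
open Vale.Agent.P145.PT (TestOn)

namespace MmH

/-- Reflection in the first axis. -/
def rfx (f : ℝ × ℝ → ℝ) : ℝ × ℝ → ℝ := fun z => f (z.1, -z.2)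

def rhom : (ℝ × ℝ) ≃ₜ (ℝ × ℝ) := (Homeomorph.refl ℝ).prodCongr (Homeomorph.neg ℝ)

theorem rhom_apply (z : ℝ × ℝ) : rhom z = (z.1, -z.2) := rfl

theorem rfx_sm {D : Set (ℝ × ℝ)} {f : ℝ × ℝ → ℝ} (h : TestOn D f) : Mom.Sm (rfx f) := by
  obtain ⟨h1, h2, -⟩ := h
  refine ⟨?_, ?_⟩
  · unfold rfx
    exact h1.comp (contDiff_fst.prodMk contDiff_snd.neg)
  · have : rfx f = f ∘ rhom := rfl
    rw [this]
    exact h2.comp_homeomorph rhom

theorem rfx_sq (f : ℝ × ℝ → ℝ) : ∫ z, rfx f z ^ 2 = ∫ z, f z ^ 2 := by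
  have h1 : MeasurePreserving (fun z : ℝ × ℝ => (z.1, -z.2)) (volume : Measure (ℝ × ℝ)) volume := by
    have := (MeasurePreserving.id (volume : Measure ℝ)).prod
      (Measure.measurePreserving_neg (volume : Measure ℝ))
    exact this
  exact h1.integral_comp rhom.measurableEmbedding (fun z => f z ^ 2)

theorem rfx_int (f : ℝ × ℝ → ℝ) : ∫ z, rfx f z = ∫ z, f z := by
  have h1 : MeasurePreserving (fun z : ℝ × ℝ => (z.1, -z.2)) (volume : Measure (ℝ × ℝ)) volume := by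
    have := (MeasurePreserving.id (volume : Measure ℝ)).prod
      (Measure.measurePreserving_neg (volume : Measure ℝ))
    exact this
  exact h1.integral_comp rhom.measurableEmbedding f

theorem hv_eq_LU {f : ℝ × ℝ → ℝ} (hf : HasCompactSupport (rfx f)) {δ : ℝ} (hδ : 0 < δ) (ω : Om) :
    hv δ f ω = LU (Wt δ (rfx f) 0) ω := by
  unfold hv LU
  rw [finsum_eq_sum_of_support_subset (s := (Wt δ (rfx f) 0).support), Finsupp.sum, Finset.mul_sum]
  · refine Finset.sum_congr rfl fun v _ => ?_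
    rw [Wt_apply hf hδ]
    simp [rfx]
    ring
  · intro v hv
    rw [Function.mem_support] at hv
    rw [Finset.mem_coe, Finsupp.mem_support_iff, Wt_apply hf hδ]
    have h1 := right_ne_zero_of_mul hv
    refine mul_ne_zero (by positivity) ?_
    simpa [rfx] using h1

/-- The estimate for fixed `δ`. -/
theorem core {c t : ℝ} (hc : 0 < c) (hct : c * t = 1) (ht1 : t ≤ 1)
    {P : Measure (Ori (ℤ × ℤ))} [IsProbabilityMeasure P] (hice : ∀ᵐ a ∂P, ∀ x y, Ice a x y)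
    (hS : Swap c P) {φ i o : ℝ × ℝ → ℝ} (hφ : HasCompactSupport φ) (hi : HasCompactSupport i)
    (ho : HasCompactSupport o) {δ : ℝ} (hδ : 0 < δ) (hi0 : Mom.sm δ i ≠ 0) (ho0 : Mom.sm δ o ≠ 0)
    {p : ℤ × ℤ} {s : ℤ} (hs : 0 < s)
    (si : ∀ x, i x ≠ 0 → |x.1 - δ * p.1| ≤ δ * s ∧ |x.2 + δ * p.2| ≤ δ * s)
    (so : ∀ x, o x ≠ 0 → 2 * (δ * s) < |x.1 - δ * p.1|) (k : ℕ) {b1 b2 r : ℝ} (hb1 : 0 ≤ b1)
    (hb2 : 0 ≤ b2) (hr : (Mom.sm δ φ / Mom.sm δ i) ^ (2 * k) ≤ r)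
    (h1 : ∫⁻ ω, ENNReal.ofReal ((FP.fld (FP.Hc ω) δ φ -
      Mom.sm δ φ / Mom.sm δ i * FP.fld (FP.Hc ω) δ i) ^ (2 * k)) ∂P ≤ ENNReal.ofReal b1)
    (h2 : ∫⁻ ω, ENNReal.ofReal ((FP.fld (FP.Hc ω) δ i -
      Mom.sm δ i / Mom.sm δ o * FP.fld (FP.Hc ω) δ o) ^ (2 * k)) ∂P ≤ ENNReal.ofReal b2) :
    ∫⁻ x in {x | Ann p.1 p.2 s (fine (bl x))},
      ENNReal.ofReal (LU (Wt δ φ 0) (vm x.1) ^ (2 * k)) ∂(Jmu t P) ≤
        ENNReal.ofReal (2 ^ (2 * k) * (b1 + r * b2)) := by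
  set Z : Set (Hgt × Mk) := {x | Ann p.1 p.2 s (fine (bl x))} with hZ
  set q : ℝ := Mom.sm δ φ / Mom.sm δ i with hq
  set q' : ℝ := Mom.sm δ i / Mom.sm δ o with hq'
  have hr0 : 0 ≤ r := le_trans (Even.pow_nonneg (even_two_mul k) _) hr
  have fl : ∀ {φ' i' : ℝ × ℝ → ℝ}, HasCompactSupport φ' → HasCompactSupport i' →
      ∀ ω, FA.ev (toE (pair δ φ' i' 0)) (pth ω) = FP.fld (FP.Hc ω) δ φ' -
        Mom.sm δ φ' / Mom.sm δ i' * FP.fld (FP.Hc ω) δ i' := by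
    intro φ' i' h1 h2 ω
    rw [ev_toE]
    unfold pair
    rw [LU_add, LU_smul, LU_Wt h1 hδ, LU_Wt h2 hδ]
    ring
  have m1 := mass_pair hφ hi hδ hi0 0
  have m2 := mass_pair hi ho hδ ho0 0
  have q1 : ∫⁻ x in Z, ENNReal.ofReal (FA.ev (toE (pair δ φ i 0)) x.1 ^ (2 * k)) ∂(Jmu t P) ≤
      ENNReal.ofReal b1 := by
    refine (lintegral_ann_le (t := t) (P := P) (p := p.1) (q := p.2) hs m1 k).trans ?_
    simp only [fl hφ hi]
    exact h1
  have wne : ∀ {φ' : ℝ × ℝ → ℝ}, HasCompactSupport φ' → ∀ {v : ℤ × ℤ}, Wt δ φ' 0 v ≠ 0 →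
      φ' (δ * v.1, -(δ * v.2)) ≠ 0 := by
    intro φ' hφ' v hv
    rw [Wt_apply hφ' hδ] at hv
    have := right_ne_zero_of_mul hv
    simpa using this
  have q2 : ∫⁻ x in Z, ENNReal.ofReal (FA.ev (toE (Wt δ i 0)) x.1 ^ (2 * k)) ∂(Jmu t P) ≤
      ENNReal.ofReal b2 := by
    refine le_trans (mom hc hct ht1 hice hS hs (a := toE (Wt δ i 0))
      (b := toE ((-q') • Wt δ o 0)) ?_ ?_ ?_ k).1 ?_
    · intro z hz
      obtain ⟨v, hv, rfl⟩ := mem_supp_toE hz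
      obtain ⟨y1, y2⟩ := si _ (wne hi hv)
      simp only at y1 y2
      have k1 : |((v.1 - p.1 : ℤ) : ℝ)| ≤ s := by
        have e : δ * (v.1 : ℝ) - δ * p.1 = δ * ((v.1 - p.1 : ℤ) : ℝ) := by push_cast; ring
        rw [e, abs_mul, abs_of_pos hδ] at y1
        exact le_of_mul_le_mul_left y1 hδ
      have k2 : |((v.2 - p.2 : ℤ) : ℝ)| ≤ s := by
        have e : -(δ * (v.2 : ℝ)) + δ * p.2 = -(δ * ((v.2 - p.2 : ℤ) : ℝ)) := by push_cast; ring
        rw [e, abs_neg, abs_mul, abs_of_pos hδ] at y2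
        exact le_of_mul_le_mul_left y2 hδ
      have k3 : |v.1 - p.1| ≤ s := by exact_mod_cast k1
      have k4 : |v.2 - p.2| ≤ s := by exact_mod_cast k2
      rw [abs_le] at k3 k4
      rw [fi_av]
      exact ⟨by simp only; omega, by simp only; omega, by simp only; omega, by simp only; omega⟩
    · intro z hz hmem
      obtain ⟨v, hv, rfl⟩ := mem_supp_toE hz
      rw [Finsupp.smul_apply, smul_eq_mul] at hv
      have y1 := so _ (wne ho (right_ne_zero_of_mul hv))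
      simp only at y1
      rw [fi_av] at hmem
      obtain ⟨u1, u2, u3, u4⟩ := hmem
      simp only at u1 u2 u3 u4
      have k3 : |v.1 - p.1| ≤ 2 * s := by rw [abs_le]; constructor <;> omega
      have k1 : |((v.1 - p.1 : ℤ) : ℝ)| ≤ 2 * s := by exact_mod_cast k3
      have e : δ * (v.1 : ℝ) - δ * p.1 = δ * ((v.1 - p.1 : ℤ) : ℝ) := by push_cast; ring
      rw [e, abs_mul, abs_of_pos hδ] at y1
      nlinarith
    · rw [← toE_add]
      exact m2
    · rw [← toE_add]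
      refine le_trans (le_of_eq ?_) h2
      refine lintegral_congr fun ω => ?_
      congr 2
      exact fl hi ho ω
  -- the sum
  have e3 : ∀ x : Hgt × Mk, LU (Wt δ φ 0) (vm x.1) =
      FA.ev (toE (pair δ φ i 0)) x.1 + q * FA.ev (toE (Wt δ i 0)) x.1 := by
    intro x
    rw [ev_toE, ev_toE]
    unfold pair
    rw [LU_add, LU_smul]
    ring
  have mA : Measurable fun x : Hgt × Mk =>
      ENNReal.ofReal (FA.ev (toE (pair δ φ i 0)) x.1 ^ (2 * k)) :=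
    (((measurable_evH _).comp measurable_fst).pow_const _).ennreal_ofReal
  calc ∫⁻ x in Z, ENNReal.ofReal (LU (Wt δ φ 0) (vm x.1) ^ (2 * k)) ∂(Jmu t P)
      ≤ ∫⁻ x in Z, ENNReal.ofReal (2 ^ (2 * k)) *
        (ENNReal.ofReal (FA.ev (toE (pair δ φ i 0)) x.1 ^ (2 * k)) +
          ENNReal.ofReal r * ENNReal.ofReal (FA.ev (toE (Wt δ i 0)) x.1 ^ (2 * k)))
        ∂(Jmu t P) := by
        refine lintegral_mono fun x => ?_
        rw [← ENNReal.ofReal_mul hr0, ← ENNReal.ofReal_add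
          (Even.pow_nonneg (even_two_mul k) _)
          (mul_nonneg hr0 (Even.pow_nonneg (even_two_mul k) _)),
          ← ENNReal.ofReal_mul (by positivity)]
        refine ENNReal.ofReal_le_ofReal ?_
        rw [e3]
        refine (Mom.pow_add_two _ _ k).trans (mul_le_mul_of_nonneg_left ?_ (by positivity))
        refine add_le_add le_rfl ?_
        rw [mul_pow]
        exact mul_le_mul_of_nonneg_right hr (Even.pow_nonneg (even_two_mul k) _)
    _ = ENNReal.ofReal (2 ^ (2 * k)) *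
        (∫⁻ x in Z, ENNReal.ofReal (FA.ev (toE (pair δ φ i 0)) x.1 ^ (2 * k)) ∂(Jmu t P) +
          ENNReal.ofReal r *
            ∫⁻ x in Z, ENNReal.ofReal (FA.ev (toE (Wt δ i 0)) x.1 ^ (2 * k)) ∂(Jmu t P)) := by
        rw [lintegral_const_mul' _ _ ENNReal.ofReal_ne_top, lintegral_add_left mA,
          lintegral_const_mul' _ _ ENNReal.ofReal_ne_top]
    _ ≤ ENNReal.ofReal (2 ^ (2 * k)) *
        (ENNReal.ofReal b1 + ENNReal.ofReal r * ENNReal.ofReal b2) := by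
        gcongr
    _ = ENNReal.ofReal (2 ^ (2 * k) * (b1 + r * b2)) := by
        rw [← ENNReal.ofReal_mul hr0, ← ENNReal.ofReal_add hb1 (mul_nonneg hr0 hb2),
          ← ENNReal.ofReal_mul (by positivity)]

/-- Smooth bumps of integral one. -/
theorem exists_bump (z : ℝ × ℝ) {ρ : ℝ} (hρ : 0 < ρ) : ∃ i : ℝ × ℝ → ℝ, Mom.Sm i ∧
    ∫ x, i x = 1 ∧ ∀ x, i x ≠ 0 → |x.1 - z.1| ≤ ρ ∧ |x.2 - z.2| ≤ ρ := by
  let b : ContDiffBump z := ⟨ρ / 2, ρ, by positivity, by linarith⟩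
  have h0 : 0 < ∫ x, b x := b.integral_pos
  refine ⟨fun x => (∫ y, b y)⁻¹ * b x, ⟨contDiff_const.mul b.contDiff, ?_⟩, ?_, fun x hx => ?_⟩
  · exact b.hasCompactSupport.mul_left
  · rw [integral_const_mul, inv_mul_cancel₀ h0.ne']
  · have h1 : b x ≠ 0 := right_ne_zero_of_mul hx
    have h2 : x ∈ Function.support b := h1
    rw [b.support_eq, Metric.mem_ball, dist_eq_norm, Prod.norm_def, max_lt_iff] at h2
    exact ⟨h2.1.le, h2.2.le⟩

theorem vol_box {R : ℝ} (hR : 0 < R) :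
    (volume : Measure (ℝ × ℝ)) (Set.Icc (-R) R ×ˢ Set.Icc (-R) R) ≠ ⊤ ∧
    (volume : Measure (ℝ × ℝ)).real (Set.Icc (-R) R ×ˢ Set.Icc (-R) R) = 4 * R ^ 2 := by
  constructor
  · rw [Measure.volume_eq_prod, Measure.prod_prod, Real.volume_Icc]
    exact ENNReal.mul_ne_top ENNReal.ofReal_ne_top ENNReal.ofReal_ne_top
  · rw [measureReal_def, Measure.volume_eq_prod, Measure.prod_prod, Real.volume_Icc,
      ENNReal.toReal_mul, ENNReal.toReal_ofReal (by linarith)]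
    ring

/-- Cauchy-Schwarz on a set of finite measure. -/
theorem cs_set {α : Type*} [MeasurableSpace α] {μ : Measure α} {φ : α → ℝ} {S : Set α}
    (hfin : μ S ≠ ⊤) {v : ℝ} (hv : 0 < v) (hvol : μ.real S = v) (i1 : IntegrableOn φ S μ)
    (i2 : IntegrableOn (fun x => φ x ^ 2) S μ) :
    (∫ x in S, φ x ∂μ) ^ 2 ≤ v * ∫ x in S, φ x ^ 2 ∂μ := by
  set m : ℝ := ∫ x in S, φ x ∂μ with hm
  have key : 0 ≤ ∫ x in S, (φ x - m / v) ^ 2 ∂μ := integral_nonneg fun x => sq_nonneg _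
  have i3 : IntegrableOn (fun x => 2 * (m / v) * φ x) S μ := i1.const_mul _
  have i5 : IntegrableOn (fun _ : α => (m / v) ^ 2) S μ := integrableOn_const hfin
  have e3 : ∫ x in S, (φ x - m / v) ^ 2 ∂μ =
      (∫ x in S, φ x ^ 2 ∂μ) - 2 * (m / v) * m + (m / v) ^ 2 * v := by
    have h1 : ∀ x, (φ x - m / v) ^ 2 = φ x ^ 2 - 2 * (m / v) * φ x + (m / v) ^ 2 :=
      fun x => by ring
    simp only [h1]
    have i4 : IntegrableOn (fun x => φ x ^ 2 - 2 * (m / v) * φ x) S μ := i2.sub i3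
    rw [integral_add i4 i5, integral_sub i2 i3,
      integral_const_mul, setIntegral_const, smul_eq_mul, hvol, ← hm]
    ring
  rw [e3] at key
  have e4 : 2 * (m / v) * m - (m / v) ^ 2 * v = m ^ 2 / v := by
    field_simp
    ring
  have h5 : m ^ 2 / v ≤ ∫ x in S, φ x ^ 2 ∂μ := by linarith
  rw [div_le_iff₀ hv] at h5
  linarith

/-- Cauchy-Schwarz. -/
theorem cs_int {φ : ℝ × ℝ → ℝ} (hφ : Mom.Sm φ) {R : ℝ} (hR : 0 < R)
    (h : ∀ x, φ x ≠ 0 → |x.1| ≤ R ∧ |x.2| ≤ R) :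
    (∫ x, φ x) ^ 2 ≤ 4 * R ^ 2 * ∫ x, φ x ^ 2 := by
  have hc : Continuous φ := hφ.1.continuous
  have i1 : Integrable φ := hc.integrable_of_hasCompactSupport hφ.2
  have c2 : HasCompactSupport (fun x => φ x ^ 2) :=
    hφ.2.comp_left (g := fun y : ℝ => y ^ 2) (by norm_num)
  have i2 : Integrable fun x => φ x ^ 2 := (hc.pow 2).integrable_of_hasCompactSupport c2
  obtain ⟨hfin, hvol⟩ := vol_box hR
  have hSm : MeasurableSet (Set.Icc (-R) R ×ˢ Set.Icc (-R) R) :=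
    measurableSet_Icc.prod measurableSet_Icc
  have e1 : ∫ x, φ x = ∫ x in Set.Icc (-R) R ×ˢ Set.Icc (-R) R, φ x := by
    rw [← integral_indicator hSm]
    refine integral_congr_ae (Eventually.of_forall fun x => ?_)
    by_cases hx : x ∈ Set.Icc (-R) R ×ˢ Set.Icc (-R) R
    · rw [Set.indicator_of_mem hx]
    · rw [Set.indicator_of_notMem hx]
      by_contra h0
      obtain ⟨h1, h2⟩ := h x h0
      exact hx ⟨abs_le.1 h1, abs_le.1 h2⟩
  have e2 : ∫ x in Set.Icc (-R) R ×ˢ Set.Icc (-R) R, φ x ^ 2 ≤ ∫ x, φ x ^ 2 :=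
    setIntegral_le_integral i2 (Eventually.of_forall fun x => sq_nonneg _)
  have hV : 0 < 4 * R ^ 2 := by positivity
  have e3 := cs_set hfin hV hvol i1.integrableOn i2.integrableOn
  rw [← e1] at e3
  exact e3.trans (mul_le_mul_of_nonneg_left e2 hV.le)

end MmH

open MmH in
/-- **MM**, the statement `S_mm` of `X/Stmt.lean`. -/
theorem s_mm {c t : ℝ} (hc : 0 < c) (hct : c * t = 1) (ht1 : t ≤ 1)
    {P : Measure (Ori (ℤ × ℤ))} [IsProbabilityMeasure P] (hP : FP.Hyp P)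
    (hS : Swap c P) {C γ : ℝ} (hC : 0 ≤ C) (hγ : 0 < γ) (hE : Mom.EGD P C γ) (hSy : SymM P)
    {δ : ℕ → ℝ} (hδ : ∀ n, 0 < δ n) (hlim : Tendsto δ atTop (𝓝 0)) : S_mm t P δ := by
  intro R hR1 k
  have hR : 0 < R := by linarith
  set ρ : ℝ := 1 / (2 * R) with hρ
  have hρ0 : 0 < ρ := by positivity
  -- the outer bump
  obtain ⟨o, ho, ho1, hos⟩ := exists_bump ((4 * R + 3, 0) : ℝ × ℝ) one_pos
  -- the inner bumps
  obtain ⟨T, hTs, hTf, hTc⟩ := (isCompact_closedBall (0 : ℝ × ℝ) R).finite_cover_balls hρ0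
  choose i hi hi1 his using fun z : ℝ × ℝ => exists_bump z hρ0
  have hlimW : Tendsto δ atTop (𝓝[>] 0) := by
    rw [tendsto_nhdsWithin_iff]
    exact ⟨hlim, Eventually.of_forall hδ⟩
  -- constants
  have hK : ∀ z : ℝ × ℝ, ∃ K : ℝ, 0 ≤ K ∧ ∀ φ : ℝ × ℝ → ℝ, Mom.Sm φ →
      (∀ x, φ x ≠ 0 → |x.1| ≤ R ∧ |x.2| ≤ R) → ∀ ε : ℝ, 0 < ε → ∀ᶠ δ in 𝓝[>] (0 : ℝ),
      Integrable (fun ω => (FP.fld (FP.Hc ω) δ φ -
        Mom.sm δ φ / Mom.sm δ (i z) * FP.fld (FP.Hc ω) δ (i z)) ^ (2 * k)) P ∧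
      ∫ ω, (FP.fld (FP.Hc ω) δ φ -
        Mom.sm δ φ / Mom.sm δ (i z) * FP.fld (FP.Hc ω) δ (i z)) ^ (2 * k) ∂P ≤
          K * ((∫ x, φ x ^ 2) + ε) ^ k := fun z =>
    Mom.gen_quant hP hC hγ hE hSy (hi z) (by rw [hi1]; norm_num) hR k
  choose K hK0 hK using hK
  obtain ⟨Ko, hKo0, hKo⟩ := Mom.gen_quant hP hC hγ hE hSy ho (by rw [ho1]; norm_num)
    (show (0 : ℝ) < 2 * R + 1 by linarith) k
  -- bound for the inner bumps against the outer bump
  set Bo : ℝ × ℝ → ℝ := fun z => Ko * ((∫ x, i z x ^ 2) + 1) ^ k with hBo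
  have hBo0 : ∀ z, 0 ≤ Bo z := fun z => by
    have : 0 ≤ ∫ x, i z x ^ 2 := integral_nonneg fun x => sq_nonneg _
    simp only [hBo]
    positivity
  set A : ℝ × ℝ → ℝ := fun z => 2 ^ (2 * k) * (K z + (4 * R ^ 2 + 1) ^ k * Bo z) with hA
  have hA0 : ∀ z, 0 ≤ A z := fun z => by
    have h1 := hK0 z
    have h2 := hBo0 z
    simp only [hA]
    positivity
  refine ⟨∑ z ∈ hTf.toFinset, A z, Finset.sum_nonneg fun z _ => hA0 z, fun f hf ε hε => ?_⟩
  set φ : ℝ × ℝ → ℝ := rfx f with hφd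
  have hφ : Mom.Sm φ := rfx_sm hf
  have hsupp : ∀ x, φ x ≠ 0 → |x.1| ≤ R ∧ |x.2| ≤ R := by
    intro x hx
    have h1 : (x.1, -x.2) ∈ Metric.ball (0 : ℝ × ℝ) R := hf.2.2 (subset_tsupport f hx)
    rw [Metric.mem_ball, dist_zero_right, Prod.norm_def, max_lt_iff, Real.norm_eq_abs,
      Real.norm_eq_abs, abs_neg] at h1
    exact ⟨h1.1.le, h1.2.le⟩
  have hq2 : ∫ x, φ x ^ 2 = ∫ z, f z ^ 2 := rfx_sq f
  have hq0 : 0 ≤ ∫ z, f z ^ 2 := integral_nonneg fun x => sq_nonneg _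
  -- the events
  have E1 : ∀ z ∈ T, ∀ᶠ n in atTop, ∫⁻ ω, ENNReal.ofReal ((FP.fld (FP.Hc ω) (δ n) φ -
      Mom.sm (δ n) φ / Mom.sm (δ n) (i z) * FP.fld (FP.Hc ω) (δ n) (i z)) ^ (2 * k)) ∂P ≤
        ENNReal.ofReal (K z * ((∫ z, f z ^ 2) + ε) ^ k) := by
    intro z _
    filter_upwards [hlimW.eventually (hK z φ hφ hsupp ε hε)] with n hn
    rw [← ofReal_integral_eq_lintegral_ofReal hn.1
      (Eventually.of_forall fun ω => Even.pow_nonneg (even_two_mul k) _)]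
    refine ENNReal.ofReal_le_ofReal ?_
    rw [← hq2]
    exact hn.2
  have E2 : ∀ z ∈ T, ∀ᶠ n in atTop, ∫⁻ ω, ENNReal.ofReal ((FP.fld (FP.Hc ω) (δ n) (i z) -
      Mom.sm (δ n) (i z) / Mom.sm (δ n) o * FP.fld (FP.Hc ω) (δ n) o) ^ (2 * k)) ∂P ≤
        ENNReal.ofReal (Bo z) := by
    intro z hz
    have hzR := hTs hz
    rw [mem_closedBall_zero_iff, Prod.norm_def, max_le_iff, Real.norm_eq_abs,
      Real.norm_eq_abs] at hzR
    have hρ1 : ρ ≤ 1 := by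
      rw [hρ, div_le_one (by positivity)]
      linarith
    have hs' : ∀ x, i z x ≠ 0 → |x.1| ≤ 2 * R + 1 ∧ |x.2| ≤ 2 * R + 1 := by
      intro x hx
      obtain ⟨h1, h2⟩ := his z x hx
      have a1 := abs_sub_abs_le_abs_sub x.1 z.1
      have a2 := abs_sub_abs_le_abs_sub x.2 z.2
      constructor <;> linarith [hzR.1, hzR.2]
    filter_upwards [hlimW.eventually (hKo (i z) (hi z) hs' 1 one_pos)] with n hn
    rw [← ofReal_integral_eq_lintegral_ofReal hn.1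
      (Eventually.of_forall fun ω => Even.pow_nonneg (even_two_mul k) _)]
    exact ENNReal.ofReal_le_ofReal hn.2
  have E3 : ∀ z ∈ T, ∀ᶠ n in atTop, Mom.sm (δ n) (i z) ≠ 0 ∧
      (Mom.sm (δ n) φ / Mom.sm (δ n) (i z)) ^ (2 * k) ≤
        ((4 * R ^ 2 + 1) * ((∫ z, f z ^ 2) + ε)) ^ k := by
    intro z _
    have l1 := (Mom.sm_tendsto (hi z)).comp hlimW
    have l2 := (Mom.sm_tendsto hφ).comp hlimW
    rw [hi1] at l1
    have l3 := (l2.div l1 one_ne_zero).pow 2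
    rw [div_one] at l3
    have hcs := cs_int hφ hR hsupp
    rw [hq2] at hcs
    have hlt : (∫ x, φ x) ^ 2 < (4 * R ^ 2 + 1) * ((∫ z, f z ^ 2) + ε) := by
      nlinarith [sq_nonneg R]
    filter_upwards [l1.eventually_ne one_ne_zero, l3.eventually (gt_mem_nhds hlt)] with n h1 h2
    refine ⟨h1, ?_⟩
    rw [pow_mul]
    exact pow_le_pow_left₀ (sq_nonneg _) h2.le k
  have E4 : ∀ᶠ n in atTop, Mom.sm (δ n) o ≠ 0 := by
    have l1 := (Mom.sm_tendsto ho).comp hlimW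
    rw [ho1] at l1
    exact l1.eventually_ne one_ne_zero
  have E : ∀ᶠ n in atTop, ∀ z ∈ T, _ := (hTf.eventually_all).2 fun z hz =>
    (E1 z hz).and ((E2 z hz).and (E3 z hz))
  filter_upwards [E, E4] with n hn hn4
  intro p s hp1 hp2 hs1 hs2
  have hδn := hδ n
  have hs0 : 0 < s := by
    have h1 : 0 < δ n * s := lt_of_lt_of_le (by positivity) hs1
    have h2 : (0 : ℝ) < s := (mul_pos_iff_of_pos_left hδn).1 h1
    exact_mod_cast h2
  -- the centre of the net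
  have hpc : ((δ n * p.1, -(δ n * p.2)) : ℝ × ℝ) ∈ Metric.closedBall (0 : ℝ × ℝ) R := by
    rw [mem_closedBall_zero_iff, Prod.norm_def, max_le_iff, Real.norm_eq_abs, Real.norm_eq_abs,
      abs_neg]
    exact ⟨hp1, hp2⟩
  obtain ⟨z, hzT, hzd⟩ := Set.mem_iUnion₂.1 (hTc hpc)
  rw [Metric.mem_ball, dist_eq_norm, Prod.norm_def, max_lt_iff, Real.norm_eq_abs,
    Real.norm_eq_abs] at hzd
  simp only [Prod.fst_sub, Prod.snd_sub] at hzd
  obtain ⟨e1, e2, e3, e4⟩ := hn z hzT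
  have hρR : 2 * ρ = R⁻¹ := by rw [hρ]; field_simp
  have hmain := core hc hct ht1 hP.ice hS hφ.2 (hi z).2 ho.2 hδn e3 hn4 (p := p) (s := s) hs0
    (fun x hx => by
      obtain ⟨y1, y2⟩ := his z x hx
      have a1 := abs_sub_le x.1 z.1 (δ n * p.1)
      have a2 := abs_sub_le x.2 z.2 (-(δ n * p.2))
      rw [abs_sub_comm z.1] at a1
      rw [abs_sub_comm z.2] at a2
      rw [sub_neg_eq_add] at a2
      constructor <;> linarith [hzd.1, hzd.2])
    (fun x hx => by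
      obtain ⟨y1, -⟩ := hos x hx
      have a1 := (abs_le.1 y1).1
      have a2 := (abs_le.1 hp1).2
      have a3 := le_abs_self (x.1 - δ n * p.1)
      simp only at a1
      linarith) k
    (mul_nonneg (hK0 z) (pow_nonneg (by linarith) k)) (hBo0 z) e4 e1 e2
  have hfin : II t P (ind (Zr p s)) (fun ω => hv (δ n) f ω ^ (2 * k)) ≤
      2 ^ (2 * k) * (K z * ((∫ z, f z ^ 2) + ε) ^ k +
        ((4 * R ^ 2 + 1) * ((∫ z, f z ^ 2) + ε)) ^ k * Bo z) := by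
    refine II_le hP.ice (fun ω => Even.pow_nonneg (even_two_mul k) _) ?_ ?_
    · have h1 := hK0 z
      have h2 := hBo0 z
      have h3 : 0 ≤ (∫ z, f z ^ 2) + ε := by linarith
      positivity
    · simp only [hv_eq_LU hφ.2 hδn]
      exact hmain
  refine hfin.trans ?_
  have h5 : A z ≤ ∑ z ∈ hTf.toFinset, A z :=
    Finset.single_le_sum (f := A) (fun z _ => hA0 z) (hTf.mem_toFinset.2 hzT)
  have h6 : 0 ≤ ((∫ z, f z ^ 2) + ε) ^ k := pow_nonneg (by linarith) k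
  calc 2 ^ (2 * k) * (K z * ((∫ z, f z ^ 2) + ε) ^ k +
        ((4 * R ^ 2 + 1) * ((∫ z, f z ^ 2) + ε)) ^ k * Bo z)
      = A z * ((∫ z, f z ^ 2) + ε) ^ k := by
        simp only [hA]
        rw [mul_pow]
        ring
    _ ≤ _ := mul_le_mul_of_nonneg_right h5 h6

end Vale.Agent.P145.X
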