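import Vale.Agent.P145.X.MomS

/-!
P145, X-level: the moments near a circuit at level `0`, uniformly in the scale (`S_mom`).
-/

namespace Vale.Agent.P145.X

open Finset Filter Topology MeasureTheory
open Vale.Agent.P152 (Ori Ice pth)
open Vale.Agent.P145.FA (Hgt mass)
open Vale.Agent.P145.FB
open Vale.Agent.P145.Top (Om)

/-- A neutral pair of smooth weights. -/
noncomputable def pair (δ : ℝ) (φ g : ℝ × ℝ → ℝ) (p : ℤ × ℤ) : (ℤ × ℤ) →₀ ℝ :=
  Wt δ φ p + (-(Mom.sm δ φ / Mom.sm δ g)) • Wt δ g p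

lemma pair_move {φ g : ℝ × ℝ → ℝ} (hφ : HasCompactSupport φ) (hg : HasCompactSupport g) {δ : ℝ}
    (hδ : 0 < δ) (p : ℤ × ℤ) :
    pair δ φ g p = (pair δ φ g 0).mapDomain fun v => (v.1 + p.1, v.2 + p.2) := by
  unfold pair
  rw [Finsupp.mapDomain_add, Finsupp.mapDomain_smul, ← Wt_move hφ hδ p, ← Wt_move hg hδ p]

lemma mass_pair {φ g : ℝ × ℝ → ℝ} (hφ : HasCompactSupport φ) (hg : HasCompactSupport g) {δ : ℝ}
    (hδ : 0 < δ) (h0 : Mom.sm δ g ≠ 0) (p : ℤ × ℤ) : mass (toE (pair δ φ g p)) = 0 := by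
  rw [mass_toE]
  unfold pair
  rw [Finsupp.sum_add_index' (fun _ => rfl) (fun _ _ _ => rfl), Finsupp.sum_smul_index' (fun _ => rfl)]
  simp only [smul_eq_mul]
  rw [← Finsupp.mul_sum, sum_Wt hφ hδ, sum_Wt hg hδ]
  field_simp
  ring

/-- The moments of a neutral pair under the plane measure. -/
lemma pair_bound {P : Measure (Ori (ℤ × ℤ))} [IsProbabilityMeasure P] (hP : FP.Hyp P) {C γ : ℝ}
    (hC : 0 ≤ C) (hγ : 0 < γ) (hE : Mom.EGD P C γ) (hS : SymM P) {φ g : ℝ × ℝ → ℝ}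
    (hφ : Mom.Sm φ) (hg : Mom.Sm g) (hI : ∫ x, φ x = ∫ x, g x) (h0 : ∫ x, g x ≠ 0) (k : ℕ) :
    ∃ B : ℝ, 0 ≤ B ∧ ∀ᶠ δ in 𝓝[>] (0 : ℝ), Mom.sm δ g ≠ 0 ∧ |Mom.sm δ φ / Mom.sm δ g| ≤ 2 ∧
      ∀ p : ℤ × ℤ, ∫⁻ ω, ENNReal.ofReal (FA.ev (toE (pair δ φ g p)) (pth ω) ^ (2 * k)) ∂P ≤
        ENNReal.ofReal B := by
  obtain ⟨B, hB⟩ := Mom.gen_moment hP hC hγ hE hS hφ hg hI h0 k
  have hg0 : ∀ᶠ δ in 𝓝[>] (0 : ℝ), Mom.sm δ g ≠ 0 := (Mom.sm_tendsto hg).eventually_ne h0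
  have hr : ∀ᶠ δ in 𝓝[>] (0 : ℝ), |Mom.sm δ φ / Mom.sm δ g| ≤ 2 := by
    have h1 := (Mom.sm_tendsto hφ).div (Mom.sm_tendsto hg) h0
    rw [hI, div_self h0] at h1
    have h2 := h1.abs
    rw [abs_one] at h2
    exact (h2.eventually (gt_mem_nhds (by norm_num : (1 : ℝ) < 2))).mono fun δ h => h.le
  refine ⟨max B 0, le_max_right _ _, ?_⟩
  filter_upwards [hB, hg0, hr, self_mem_nhdsWithin] with δ h1 h2 h3 hδ
  have hδ0 : 0 < δ := hδ
  refine ⟨h2, h3, fun p => ?_⟩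
  have e1 : ∫⁻ ω, ENNReal.ofReal (FA.ev (toE (pair δ φ g p)) (pth ω) ^ (2 * k)) ∂P =
      ∫⁻ ω, ENNReal.ofReal (FA.ev (toE (pair δ φ g 0)) (pth ω) ^ (2 * k)) ∂P := by
    rw [pair_move hφ.2 hg.2 hδ0 p, toE_move]
    exact lintegral_move hP.ice hS (mass_pair hφ.2 hg.2 hδ0 h2 0) _ _ _
  have e2 : ∀ ω, FA.ev (toE (pair δ φ g 0)) (pth ω) = FP.fld (FP.Hc ω) δ φ -
      Mom.sm δ φ / Mom.sm δ g * FP.fld (FP.Hc ω) δ g := by
    intro ω
    rw [ev_toE]
    unfold pair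
    rw [LU_add, LU_smul, LU_Wt hφ.2 hδ0, LU_Wt hg.2 hδ0]
    ring
  rw [e1]
  simp only [e2]
  rw [← ofReal_integral_eq_lintegral_ofReal h1.1
    (Eventually.of_forall fun ω => Even.pow_nonneg (even_two_mul k) _)]
  exact ENNReal.ofReal_le_ofReal (h1.2.trans (le_max_left _ _))

/-- Support of the weights. -/
lemma Wt_ne {φ : ℝ × ℝ → ℝ} (hφ : HasCompactSupport φ) {s : ℤ} (hs : 0 < s) {p v : ℤ × ℤ}
    (h : Wt (1 / (s : ℝ)) φ p v ≠ 0) : ∃ x : ℝ × ℝ, φ x ≠ 0 ∧ ((v.1 - p.1 : ℤ) : ℝ) = s * x.1 ∧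
      ((v.2 - p.2 : ℤ) : ℝ) = -(s * x.2) := by
  have hs0 : (0 : ℝ) < s := by exact_mod_cast hs
  rw [Wt_apply hφ (by positivity)] at h
  refine ⟨_, right_ne_zero_of_mul h, ?_, ?_⟩
  · push_cast
    field_simp
  · push_cast
    field_simp

/-- The moments of a smooth weight on the event of a circuit. -/
lemma Wt_mom {c t : ℝ} (hc : 0 < c) (hct : c * t = 1) (ht1 : t ≤ 1)
    {P : Measure (Ori (ℤ × ℤ))} [IsProbabilityMeasure P] (hP : FP.Hyp P)
    (hS : Swap c P) {C γ : ℝ}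
    (hC : 0 ≤ C) (hγ : 0 < γ) (hE : Mom.EGD P C γ) (hSy : SymM P) {φ i o : ℝ × ℝ → ℝ}
    (hφ : Mom.Sm φ) (hi : Mom.Sm i) (ho : Mom.Sm o) (h1 : ∫ x, φ x = ∫ x, i x)
    (h2 : ∫ x, i x = ∫ x, o x) (h0 : ∫ x, o x ≠ 0)
    (si : ∀ x, i x ≠ 0 → |x.1| ≤ 1 ∧ |x.2| ≤ 1) (so : ∀ x, o x ≠ 0 → 3 ≤ |x.1| ∨ 3 ≤ |x.2|)
    (k : ℕ) :
    ∃ B : ℝ, 0 ≤ B ∧ ∃ s₀ : ℤ, 1 ≤ s₀ ∧ ∀ s, s₀ ≤ s → ∀ p : ℤ × ℤ,
      ∫⁻ x in {x | Ann p.1 p.2 s (fine (bl x))},
        ENNReal.ofReal (LU (Wt (1 / (s : ℝ)) φ p) (vm x.1) ^ (2 * k)) ∂(Jmu t P) ≤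
        ENNReal.ofReal B := by
  obtain ⟨B1, hB1, e1⟩ := pair_bound hP hC hγ hE hSy hφ hi h1 (by rw [h2]; exact h0) k
  obtain ⟨B2, hB2, e2⟩ := pair_bound hP hC hγ hE hSy hi ho h2 h0 k
  have hlim : Tendsto (fun s : ℤ => 1 / (s : ℝ)) atTop (𝓝[>] 0) := by
    rw [tendsto_nhdsWithin_iff]
    constructor
    · exact tendsto_const_nhds.div_atTop tendsto_intCast_atTop_atTop
    · filter_upwards [eventually_gt_atTop 0] with s hs
      have : (0 : ℝ) < s := by exact_mod_cast hs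
      exact Set.mem_Ioi.2 (by positivity)
  obtain ⟨s₀, hs₀⟩ := eventually_atTop.1 ((hlim.eventually e1).and (hlim.eventually e2))
  refine ⟨2 ^ (2 * k) * (B1 + 2 ^ (2 * k) * B2), by positivity, max s₀ 1, le_max_right _ _,
    fun s hs p => ?_⟩
  obtain ⟨⟨a1, a2, a3⟩, ⟨b1, b2, b3⟩⟩ := hs₀ s ((le_max_left _ _).trans hs)
  have hs1 : 0 < s := lt_of_lt_of_le one_pos ((le_max_right _ _).trans hs)
  have hsR : (0 : ℝ) < s := by exact_mod_cast hs1
  set δ : ℝ := 1 / (s : ℝ) with hδ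
  have hδ0 : 0 < δ := by positivity
  set r : ℝ := Mom.sm δ φ / Mom.sm δ i with hr
  set r' : ℝ := Mom.sm δ i / Mom.sm δ o with hr'
  set Z : Set (Hgt × Mk) := {x | Ann p.1 p.2 s (fine (bl x))} with hZ
  -- the two parts
  have m1 := mass_pair hφ.2 hi.2 hδ0 a1 p
  have m2 := mass_pair hi.2 ho.2 hδ0 b1 p
  have q1 := (lintegral_ann_le (t := t) (P := P) (p := p.1) (q := p.2) hs1 m1 k).trans (a3 p)
  have q2 : ∫⁻ x in Z, ENNReal.ofReal (FA.ev (toE (Wt δ i p)) x.1 ^ (2 * k)) ∂(Jmu t P) ≤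
      ENNReal.ofReal B2 := by
    refine le_trans (mom hc hct ht1 hP.ice hS hs1 (a := toE (Wt δ i p))
      (b := toE ((-r') • Wt δ o p)) ?_ ?_ ?_ k).1 ?_
    · intro q hq
      obtain ⟨v, hv, rfl⟩ := mem_supp_toE hq
      obtain ⟨x, hx, hx1, hx2⟩ := Wt_ne hi.2 hs1 hv
      obtain ⟨y1, y2⟩ := si x hx
      have k1 : |((v.1 - p.1 : ℤ) : ℝ)| ≤ s := by
        rw [hx1, abs_mul, abs_of_pos hsR]; nlinarith
      have k2 : |((v.2 - p.2 : ℤ) : ℝ)| ≤ s := by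
        rw [hx2, abs_neg, abs_mul, abs_of_pos hsR]; nlinarith
      have k3 : |v.1 - p.1| ≤ s := by exact_mod_cast k1
      have k4 : |v.2 - p.2| ≤ s := by exact_mod_cast k2
      rw [abs_le] at k3 k4
      rw [fi_av]
      exact ⟨by simp only; omega, by simp only; omega, by simp only; omega, by simp only; omega⟩
    · intro q hq hmem
      obtain ⟨v, hv, rfl⟩ := mem_supp_toE hq
      rw [Finsupp.smul_apply, smul_eq_mul] at hv
      obtain ⟨x, hx, hx1, hx2⟩ := Wt_ne ho.2 hs1 (right_ne_zero_of_mul hv)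
      rw [fi_av] at hmem
      obtain ⟨u1, u2, u3, u4⟩ := hmem
      simp only at u1 u2 u3 u4
      have k3 : |v.1 - p.1| ≤ 2 * s := by rw [abs_le]; constructor <;> omega
      have k4 : |v.2 - p.2| ≤ 2 * s := by rw [abs_le]; constructor <;> omega
      have k1 : |((v.1 - p.1 : ℤ) : ℝ)| ≤ 2 * s := by exact_mod_cast k3
      have k2 : |((v.2 - p.2 : ℤ) : ℝ)| ≤ 2 * s := by exact_mod_cast k4
      rw [hx1, abs_mul, abs_of_pos hsR] at k1
      rw [hx2, abs_neg, abs_mul, abs_of_pos hsR] at k2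
      rcases so x hx with h | h <;> nlinarith
    · rw [← toE_add]
      exact m2
    · rw [← toE_add]
      exact b3 p
  -- the sum
  have e3 : ∀ x : Hgt × Mk, LU (Wt δ φ p) (vm x.1) =
      FA.ev (toE (pair δ φ i p)) x.1 + r * FA.ev (toE (Wt δ i p)) x.1 := by
    intro x
    rw [ev_toE, ev_toE]
    unfold pair
    rw [LU_add, LU_smul]
    ring
  have mA : Measurable fun x : Hgt × Mk =>
      ENNReal.ofReal (FA.ev (toE (pair δ φ i p)) x.1 ^ (2 * k)) :=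
    (((measurable_evH _).comp measurable_fst).pow_const _).ennreal_ofReal
  calc ∫⁻ x in Z, ENNReal.ofReal (LU (Wt δ φ p) (vm x.1) ^ (2 * k)) ∂(Jmu t P)
      ≤ ∫⁻ x in Z, ENNReal.ofReal (2 ^ (2 * k)) *
        (ENNReal.ofReal (FA.ev (toE (pair δ φ i p)) x.1 ^ (2 * k)) +
          ENNReal.ofReal (2 ^ (2 * k)) * ENNReal.ofReal (FA.ev (toE (Wt δ i p)) x.1 ^ (2 * k)))
        ∂(Jmu t P) := by
        refine lintegral_mono fun x => ?_
        rw [← ENNReal.ofReal_mul (by positivity), ← ENNReal.ofReal_add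
          (Even.pow_nonneg (even_two_mul k) _)
          (mul_nonneg (by positivity) (Even.pow_nonneg (even_two_mul k) _)),
          ← ENNReal.ofReal_mul (by positivity)]
        refine ENNReal.ofReal_le_ofReal ?_
        rw [e3]
        refine (Mom.pow_add_two _ _ k).trans (mul_le_mul_of_nonneg_left ?_ (by positivity))
        refine add_le_add le_rfl ?_
        rw [mul_pow]
        refine mul_le_mul_of_nonneg_right ?_ (Even.pow_nonneg (even_two_mul k) _)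
        rw [← (even_two_mul k).pow_abs r]
        exact pow_le_pow_left₀ (abs_nonneg _) a2 _
    _ = ENNReal.ofReal (2 ^ (2 * k)) *
        (∫⁻ x in Z, ENNReal.ofReal (FA.ev (toE (pair δ φ i p)) x.1 ^ (2 * k)) ∂(Jmu t P) +
          ENNReal.ofReal (2 ^ (2 * k)) *
            ∫⁻ x in Z, ENNReal.ofReal (FA.ev (toE (Wt δ i p)) x.1 ^ (2 * k)) ∂(Jmu t P)) := by
        rw [lintegral_const_mul' _ _ ENNReal.ofReal_ne_top, lintegral_add_left mA,
          lintegral_const_mul' _ _ ENNReal.ofReal_ne_top]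
    _ ≤ ENNReal.ofReal (2 ^ (2 * k)) *
        (ENNReal.ofReal B1 + ENNReal.ofReal (2 ^ (2 * k)) * ENNReal.ofReal B2) := by
        gcongr
    _ = ENNReal.ofReal (2 ^ (2 * k) * (B1 + 2 ^ (2 * k) * B2)) := by
        rw [← ENNReal.ofReal_mul (by positivity), ← ENNReal.ofReal_add hB1 (by positivity),
          ← ENNReal.ofReal_mul (by positivity)]

/-- From `∫⁻` to the functional `II`. -/
lemma II_le {t : ℝ} {P : Measure (Ori (ℤ × ℤ))} [IsProbabilityMeasure P]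
    (hice : ∀ᵐ a ∂P, ∀ x y, Ice a x y) {p : ℤ × ℤ} {s : ℤ} {A : Om → ℝ} (hA : ∀ ω, 0 ≤ A ω)
    {B : ℝ} (hB : 0 ≤ B)
    (h : ∫⁻ x in {x | Ann p.1 p.2 s (fine (bl x))}, ENNReal.ofReal (A (vm x.1)) ∂(Jmu t P) ≤
      ENNReal.ofReal B) : II t P (ind (Zr p s)) A ≤ B := by
  classical
  have hZ : MeasurableSet {x : Hgt × Mk | Ann p.1 p.2 s (fine (bl x))} :=
    (levFam_Ann p.1 p.2 s).meas 0
  unfold II
  rw [MU_eq_Jmu hice]
  by_cases hm : AEStronglyMeasurable (fun x => ind (Zr p s) (bl x) * A (vm x.1)) (Jmu t P)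
  · rw [integral_eq_lintegral_of_nonneg_ae (Eventually.of_forall fun x => ?_) hm]
    · refine ENNReal.toReal_le_of_le_ofReal hB (le_trans (le_of_eq ?_) h)
      rw [← lintegral_indicator hZ]
      refine lintegral_congr fun x => ?_
      by_cases hx : x ∈ {x : Hgt × Mk | Ann p.1 p.2 s (fine (bl x))}
      · rw [Set.indicator_of_mem hx]
        have : ind (Zr p s) (bl x) = 1 := by unfold ind; exact if_pos hx
        rw [this, one_mul]
      · rw [Set.indicator_of_notMem hx]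
        have : ind (Zr p s) (bl x) = 0 := by unfold ind; exact if_neg hx
        rw [this, zero_mul, ENNReal.ofReal_zero]
    · refine mul_nonneg ?_ (hA _)
      unfold ind
      split_ifs <;> norm_num
  · rw [integral_non_aestronglyMeasurable hm]
    exact hB

/-- **MOM**, the statement of `X/Stmt.lean`. -/
theorem s_mom {c t : ℝ} (hc : 1 ≤ c) (hct : c * t = 1)
    {P : Measure (Ori (ℤ × ℤ))} [IsProbabilityMeasure P] (hP : FP.Hyp P)
    (hS : Swap c P) {C γ : ℝ} (hC : 0 ≤ C) (hγ : 0 < γ) (hE : Mom.EGD P C γ) (hSy : SymM P)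
    (hlow : S_low c t P) (hint : S_int t P) (hloc : S_loc) : S_mom t P := by
  intro K k hK
  have hc0 : 0 < c := by linarith
  have ht1 : t ≤ 1 := by
    by_contra h
    push Not at h
    nlinarith
  -- the bumps
  obtain ⟨β, hβ⟩ : ∃ β : ContDiffBump (0 : ℝ × ℝ), β.rIn = K + 1 ∧ β.rOut = K + 2 :=
    ⟨⟨K + 1, K + 2, by linarith, by linarith⟩, rfl, rfl⟩
  obtain ⟨ι, hι⟩ : ∃ ι : ContDiffBump (0 : ℝ × ℝ), ι.rOut = 1 :=
    ⟨⟨1 / 2, 1, by norm_num, by norm_num⟩, rfl⟩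
  obtain ⟨θ, hθ⟩ : ∃ θ : ContDiffBump ((4, 0) : ℝ × ℝ), θ.rOut = 1 :=
    ⟨⟨1 / 2, 1, by norm_num, by norm_num⟩, rfl⟩
  set φ : ℝ × ℝ → ℝ := fun x => K * β x with hφ
  have hφS : Mom.Sm φ := ⟨contDiff_const.mul β.contDiff, β.hasCompactSupport.mul_left⟩
  set I : ℝ := ∫ x, φ x with hI
  have hIpos : 0 < I := by
    rw [hI, hφ]
    simp only
    rw [integral_const_mul]
    exact mul_pos hK β.integral_pos
  set i : ℝ × ℝ → ℝ := fun x => I * ι.normed volume x with hi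
  set o : ℝ × ℝ → ℝ := fun x => I * θ.normed volume x with ho
  have hiS : Mom.Sm i := ⟨contDiff_const.mul ι.contDiff_normed, ι.hasCompactSupport_normed.mul_left⟩
  have hoS : Mom.Sm o := ⟨contDiff_const.mul θ.contDiff_normed, θ.hasCompactSupport_normed.mul_left⟩
  have hiI : ∫ x, i x = I := by
    rw [hi]; simp only; rw [integral_const_mul, ι.integral_normed, mul_one]
  have hoI : ∫ x, o x = I := by
    rw [ho]; simp only; rw [integral_const_mul, θ.integral_normed, mul_one]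
  have si : ∀ x, i x ≠ 0 → |x.1| ≤ 1 ∧ |x.2| ≤ 1 := by
    intro x hx
    have h1 : ι.normed volume x ≠ 0 := right_ne_zero_of_mul hx
    have h2 : x ∈ Function.support (ι.normed volume) := h1
    rw [ι.support_normed_eq, hι, mem_ball_zero_iff, Prod.norm_def, max_lt_iff] at h2
    exact ⟨h2.1.le, h2.2.le⟩
  have so : ∀ x, o x ≠ 0 → 3 ≤ |x.1| ∨ 3 ≤ |x.2| := by
    intro x hx
    have h1 : θ.normed volume x ≠ 0 := right_ne_zero_of_mul hx
    have h2 : x ∈ Function.support (θ.normed volume) := h1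
    rw [θ.support_normed_eq, hθ, mem_ball_iff_norm, Prod.norm_def, max_lt_iff] at h2
    left
    have h3 := h2.1
    rw [Prod.fst_sub, Real.norm_eq_abs, abs_lt] at h3
    simp only at h3
    exact le_trans (by linarith [h3.1]) (le_abs_self _)
  obtain ⟨B, hB, s₀, hs₀, h⟩ := Wt_mom hc0 hct ht1 hP hS hC hγ hE hSy hφS hiS hoS
    (by rw [hiI]) (by rw [hiI, hoI]) (by rw [hoI]; exact hIpos.ne') si so k
  refine ⟨B, s₀, hs₀, fun s hs p u hu1 hu2 => ?_⟩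
  have hs1 : 1 ≤ s := hs₀.trans hs
  have hsR : (0 : ℝ) < s := by exact_mod_cast hs1
  have hΘ : Fn Set.univ (ind (Zr p s)) := by
    have h1 := (hloc p s hs1).2
    exact ⟨h1.nonneg, by
      obtain ⟨Λ, h2, h3⟩ := h1.loc
      exact ⟨Λ, fun w _ => Set.mem_univ _, h3⟩, h1.pin⟩
  have hdom : ∀ v, u v ≤ Wt (1 / (s : ℝ)) φ p v := by
    intro v
    rw [Wt_apply hφS.2 (by positivity)]
    by_cases hv : u v = 0
    · rw [hv, hφ]
      have := β.nonneg (x := (1 / (s : ℝ) * (v.1 - p.1), -(1 / (s : ℝ) * (v.2 - p.2))))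
      positivity
    · obtain ⟨k1, k2⟩ := hu2 v hv
      push_cast at k1 k2
      have h1 : β (1 / (s : ℝ) * (v.1 - p.1), -(1 / (s : ℝ) * (v.2 - p.2))) = 1 := by
        apply β.one_of_mem_closedBall
        rw [mem_closedBall_zero_iff, Prod.norm_def, max_le_iff, hβ.1]
        simp only [Real.norm_eq_abs, abs_neg, abs_mul]
        rw [abs_of_pos (by positivity : (0 : ℝ) < 1 / s)]
        constructor
        · rw [one_div, inv_mul_le_iff₀ hsR]; nlinarith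
        · rw [one_div, inv_mul_le_iff₀ hsR]; nlinarith
      rw [hφ]
      simp only
      rw [h1, mul_one]
      refine (hu1 v).2.trans (le_of_eq ?_)
      field_simp
  refine (II_mono hc hlow hint hΘ (fun v => (hu1 v).1) hdom (2 * k)).trans ?_
  exact II_le hP.ice (fun ω => Even.pow_nonneg (even_two_mul k) _) hB (h s hs p)

end Vale.Agent.P145.X
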