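import Vale.Agent.P145.X.Stmt
import Vale.Agent.P145.FB.Out
import Vale.Agent.P145.FB.R1

/-!
P145, X-level: circuits at level `0` exist with positive mass at all scales (`S_rsw`), from the
circuits of item (R1).
-/

namespace Vale.Agent.P145.X

open MeasureTheory
open Vale.Agent.P152 (Ori)
open Vale.Agent.P145.FA (Hgt)
open Vale.Agent.P145.FB

/-- The mass of a circuit at level `0`. -/
theorem rsw_II {t : ℝ} {P : Measure (Ori (ℤ × ℤ))} [IsProbabilityMeasure P]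
    (hice : ∀ᵐ a ∂P, ∀ x y, P152.Ice a x y) (p : ℤ × ℤ) (r : ℤ) :
    II t P (ind (Zr p r)) (fun _ => 1) =
      (Jmu t P {x | Ann p.1 p.2 r (fine (bl x))}).toReal := by
  classical
  have hm : MeasurableSet {x : Hgt × Mk | Ann p.1 p.2 r (fine (bl x))} :=
    (levFam_Ann p.1 p.2 r).meas 0
  unfold II
  rw [MU_eq_Jmu hice]
  have h1 : (fun x : Hgt × Mk => ind (Zr p r) (bl x) * 1) =
      Set.indicator {x : Hgt × Mk | Ann p.1 p.2 r (fine (bl x))} (fun _ => (1 : ℝ)) := by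
    funext x
    rw [mul_one]
    by_cases h : Ann p.1 p.2 r (fine (bl x))
    · rw [Set.indicator_of_mem (show x ∈ {x : Hgt × Mk | Ann p.1 p.2 r (fine (bl x))} from h)]
      exact if_pos h
    · rw [Set.indicator_of_notMem (show x ∉ {x : Hgt × Mk | Ann p.1 p.2 r (fine (bl x))} from h)]
      exact if_neg h
  rw [h1, integral_indicator hm, integral_const, smul_eq_mul, mul_one, measureReal_restrict_apply
    MeasurableSet.univ, Set.univ_inter]
  rfl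

/-- RSW, from circuits of open bonds at all scales. -/
theorem s_rsw_of {t : ℝ} {P : Measure (Ori (ℤ × ℤ))} [IsProbabilityMeasure P]
    (hice : ∀ᵐ a ∂P, ∀ x y, P152.Ice a x y)
    (h : ∃ c : ℝ, 0 < c ∧ ∃ r0 : ℤ, ∀ r : ℤ, r0 ≤ r → ∀ p q : ℤ,
      c ≤ (J t P).real {x | Ann p q r (SQ x)}) : S_rsw t P := by
  obtain ⟨c, hc, r0, hr⟩ := h
  refine ⟨2 * c, by positivity, max r0 1, le_max_right _ _, fun r hr0 p => ?_⟩
  have h1 : 0 < r := lt_of_lt_of_le one_pos ((le_max_right _ _).trans hr0)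
  have h2 := hr r ((le_max_left _ _).trans hr0) p.1 p.2
  have h3 : Jmu t P {x | Ann p.1 p.2 r (fine (bl x))} ≤ 2 := Jmu_Ann_le h1
  have h4 := Jmu_Ann_ge hice h1 h2
  rw [rsw_II hice]
  have h5 : Jmu t P {x | Ann p.1 p.2 r (fine (bl x))} ≠ ⊤ := ne_top_of_le_ne_top (by norm_num) h3
  refine ⟨(ENNReal.ofReal_le_iff_le_toReal h5).1 h4, ?_⟩
  have := ENNReal.toReal_mono (by norm_num) h3
  simpa using this

/-- RSW. -/
theorem s_rsw {t : ℝ} {P : Measure (Ori (ℤ × ℤ))} [IsProbabilityMeasure P] (hP : SymM P)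
    (hice : ∀ᵐ a ∂P, ∀ x y, P152.Ice a x y) (h0 : 1 / 2 ≤ t) (h1 : t ≤ 1) (hA : Assoc t P)
    (harm : ∀ c : ℝ, 0 < c → ∀ M0 : ℤ, ∃ M : ℤ, M0 ≤ M ∧ ∃ s0 : ℤ, ∀ s : ℤ, s0 ≤ s →
      (J t P).real {x | Arm s (2 * M * s) (SP x)} < c) : S_rsw t P :=
  s_rsw_of hice (r1_circ hP hice h0 h1 hA harm)

end Vale.Agent.P145.X
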