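import Vale.Agent.P145.FB.Out

/-!
P145, X-level, positivity: all annuli of all scales between `s` and `K s` with centres in the box
`B_{K s}` have circuits of blocked edges at level `0`, with measure bounded below uniformly in `s`.
-/

namespace Vale.Agent.P145.X.PosAll

open Finset Filter Topology MeasureTheory
open Vale.Agent.P152 (Edge Ori Ice)
open Vale.Agent.P145.FA (Hgt)
open Vale.Agent.P145.FB Vale.Agent.P145.X

/-! ### Nets of annuli -/

/-- The annuli of size `t` around the points `(a + i t, b + j t)`, `i, j ≤ N`. -/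
def Net (t : ℤ) (N : ℕ) (a b : ℤ) (S : Set (ℤ × ℤ)) : Prop :=
  ∀ i < N + 1, ∀ j < N + 1, Ann (a + i * t) (b + j * t) t S

theorem Net.mono {t : ℤ} {N : ℕ} {a b : ℤ} {S T : Set (ℤ × ℤ)} (h : Net t N a b S) (hST : S ⊆ T) :
    Net t N a b T := fun i hi j hj => (IL_Ann _ _ _).1 _ _ hST (h i hi j hj)

theorem BTc_swap (S : Set (ℤ × ℤ)) (a b c d : ℤ) :
    BTc a b c d {z | (z.2, z.1) ∈ S} ↔ LRc c d a b S := by
  have h := LRc_swap {z | (z.2, z.1) ∈ S} c d a b
  have e : {z : ℤ × ℤ | (z.2, z.1) ∈ {z : ℤ × ℤ | (z.2, z.1) ∈ S}} = S := by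
    ext z; rfl
  rw [e] at h
  exact h.symm

theorem Ann_swap {p q t : ℤ} {S : Set (ℤ × ℤ)} (h : Ann p q t S) :
    Ann q p t {z | (z.2, z.1) ∈ S} := by
  obtain ⟨h1, h2, h3, h4⟩ := h
  exact ⟨(LRc_swap S _ _ _ _).2 h4, (LRc_swap S _ _ _ _).2 h3, (BTc_swap S _ _ _ _).2 h2,
    (BTc_swap S _ _ _ _).2 h1⟩

theorem Net.swap {t : ℤ} {N : ℕ} {a b : ℤ} {S : Set (ℤ × ℤ)} (h : Net t N a b S) :
    Net t N b a {z | (z.2, z.1) ∈ S} := fun i hi j hj => Ann_swap (h j hj i hi)

/-- Long horizontal crossings in the strips of the net. -/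
theorem Net.strip {t : ℤ} (ht : 0 < t) {N : ℕ} {a b : ℤ} {S : Set (ℤ × ℤ)} (h : Net t N a b S)
    {j : ℕ} (hj : j < N + 1) : ∀ m : ℕ, m < N + 1 →
    LRc (a - 2 * t) (a + (m + 2) * t) (b + j * t + t) (b + j * t + 2 * t) S := by
  intro m
  induction m with
  | zero =>
    intro h0
    have h1 := (h 0 h0 j hj).1
    have e1 : a + ((0 : ℕ) : ℤ) * t - 2 * t = a - 2 * t := by push_cast; ring
    have e2 : a + ((0 : ℕ) : ℤ) * t + 2 * t = a + (((0 : ℕ) : ℤ) + 2) * t := by push_cast; ring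
    rwa [e1, e2] at h1
  | succ m ih =>
    intro hm
    have h1 := ih (by omega)
    have h2 := (h (m + 1) hm j hj).1
    have h3 := (h m (by omega) j hj).2.2.2
    have h4 : BTc (a + (m + 1 : ℕ) * t - 2 * t) (a + (m + 2) * t) (b + j * t + t)
        (b + j * t + 2 * t) S := by
      refine BTc.mono _ _ _ _ _ _ _ _ S ?_ ?_ ?_ ?_ ?_ h3
      · push_cast; nlinarith
      · push_cast; nlinarith
      · nlinarith
      · nlinarith
      · exact le_rfl
    have h5 := LRc.chain _ _ _ _ _ _ S (by push_cast; nlinarith) (by push_cast; nlinarith)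
      (by push_cast; nlinarith) (by nlinarith) h1 h4 h2
    have e2 : a + ((m + 1 : ℕ) : ℤ) * t + 2 * t = a + (((m + 1 : ℕ) : ℤ) + 2) * t := by ring
    rwa [e2] at h5

/-- Every rectangle of width at least `2 t` in the box of the net is crossed. -/
theorem Net.lr {t : ℤ} (ht : 0 < t) {N : ℕ} {a b : ℤ} {S : Set (ℤ × ℤ)} (h : Net t N a b S)
    {A B C D : ℤ} (hA : a - 2 * t ≤ A) (hAB : A ≤ B) (hB : B ≤ a + (N + 2) * t)
    (hC : b + t ≤ C) (hCD : C + 2 * t ≤ D) (hD : D ≤ b + (N + 2) * t) : LRc A B C D S := by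
  obtain ⟨k, hk1, hk2⟩ : ∃ k : ℤ, C ≤ b + (k + 1) * t ∧ b + (k + 1) * t < C + t := by
    refine ⟨-((b - C) / t) - 1, ?_, ?_⟩
    · have h1 := Int.ediv_mul_le (b - C) ht.ne'
      have e : (-((b - C) / t) - 1 + 1) * t = -((b - C) / t * t) := by ring
      rw [e]; linarith
    · have h1 := Int.lt_ediv_add_one_mul_self (b - C) ht
      have e : (-((b - C) / t) - 1 + 1) * t = -(((b - C) / t + 1) * t) + t := by ring
      rw [e]; linarith
  have hk0 : 0 ≤ k := by
    by_contra hc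
    have : (k + 1) * t ≤ 0 := mul_nonpos_of_nonpos_of_nonneg (by omega) ht.le
    linarith
  have hkN : k < N + 1 := by
    by_contra hc
    have : ((N : ℤ) + 2) * t ≤ (k + 1) * t := mul_le_mul_of_nonneg_right (by omega) ht.le
    have h3 : (k + 1) * t + t ≤ (N + 2) * t := by linarith
    linarith
  obtain ⟨j, rfl⟩ := Int.eq_ofNat_of_zero_le hk0
  have h1 := h.strip ht (j := j) (by omega) N (by omega)
  refine LRc.mono _ _ _ _ _ _ _ _ S hA hAB hB ?_ ?_ h1
  · linarith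
  · linarith

theorem Net.bt {t : ℤ} (ht : 0 < t) {N : ℕ} {a b : ℤ} {S : Set (ℤ × ℤ)} (h : Net t N a b S)
    {A B C D : ℤ} (hA : a + t ≤ A) (hAB : A + 2 * t ≤ B) (hB : B ≤ a + (N + 2) * t)
    (hC : b - 2 * t ≤ C) (hCD : C ≤ D) (hD : D ≤ b + (N + 2) * t) : BTc A B C D S :=
  (LRc_swap S C D A B).1 (h.swap.lr ht hC hCD hD hA hAB hB)

/-- A net contains all coarser annuli. -/
theorem Net.ann {t : ℤ} (ht : 0 < t) {N : ℕ} {a b : ℤ} {S : Set (ℤ × ℤ)} (h : Net t N a b S)
    {p q r : ℤ} (hr : 2 * t ≤ r) (h1 : a + t ≤ p - 2 * r) (h2 : p + 2 * r ≤ a + (N + 2) * t)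
    (h3 : b + t ≤ q - 2 * r) (h4 : q + 2 * r ≤ b + (N + 2) * t) : Ann p q r S := by
  refine ⟨h.lr ht ?_ ?_ ?_ ?_ ?_ ?_, h.lr ht ?_ ?_ ?_ ?_ ?_ ?_, h.bt ht ?_ ?_ ?_ ?_ ?_ ?_,
    h.bt ht ?_ ?_ ?_ ?_ ?_ ?_⟩ <;> linarith

/-! ### The level -/

theorem Net.level {x : Hgt × Mk} (hx : Op x) {t : ℤ} (ht : 0 < t) {N : ℕ} {a b : ℤ}
    (h : Net t N a b (SQ x)) : ∃ l, 4 ∣ l ∧ Net t N a b (fine (opl l x)) := by
  choose! L hL using fun (i : ℕ) (hi : i < N + 1) (j : ℕ) (hj : j < N + 1) =>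
    Ann_SQ_level hx ht (h i hi j hj)
  have key : ∀ i < N + 1, ∀ j < N + 1, ∀ i' < N + 1, ∀ j' < N + 1,
      |(a + i' * t) - (a + i * t)| ≤ 3 * t → |(b + j' * t) - (b + j * t)| ≤ 3 * t →
      L i j = L i' j' := by
    intro i hi j hj i' hi' j' hj' h1 h2
    have hc : IsCh t 1 (fun k : ℕ => if k = 0 then (a + i * t, b + j * t) else
        (a + i' * t, b + j' * t)) := by
      intro k hk
      have : k = 0 := by omega
      subst this
      exact ⟨by simpa using h1, by simpa using h2⟩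
    obtain ⟨l, -, h3⟩ := chain_SQ_level hx ht hc (by
      intro k hk
      by_cases h0 : k = 0
      · simpa [h0] using h i hi j hj
      · simpa [h0] using h i' hi' j' hj')
    have h4 : Ann (a + i * t) (b + j * t) t (fine (opl l x)) := by simpa using h3 0 (by omega)
    have h5 : Ann (a + i' * t) (b + j' * t) t (fine (opl l x)) := by simpa using h3 1 (by omega)
    have e1 := opl_unique ht h4 (hL i hi j hj).2 (by simp [ht.le]) (by simp [ht.le])
    have e2 := opl_unique ht h5 (hL i' hi' j' hj').2 (by simp [ht.le]) (by simp [ht.le])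
    rw [← e1, ← e2]
  have h0 : ∀ k : ℕ, |((k + 1 : ℕ) : ℤ) * t - (k : ℕ) * t| ≤ 3 * t := by
    intro k
    have : ((k + 1 : ℕ) : ℤ) * t - (k : ℕ) * t = t := by push_cast; ring
    rw [this, abs_of_pos ht]; linarith
  have hrow : ∀ i < N + 1, L i 0 = L 0 0 := by
    intro i
    induction i with
    | zero => intro _; rfl
    | succ i ih =>
      intro hi
      rw [← ih (by omega)]
      refine (key i (by omega) 0 (by omega) (i + 1) hi 0 (by omega) ?_ ?_).symm
      · have := h0 i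
        rwa [add_sub_add_left_eq_sub]
      · simp [ht.le]
  have hall : ∀ i < N + 1, ∀ j < N + 1, L i j = L 0 0 := by
    intro i hi j
    induction j with
    | zero => intro _; exact hrow i hi
    | succ j ih =>
      intro hj
      rw [← ih (by omega)]
      refine (key i hi j (by omega) i hi (j + 1) hj ?_ ?_).symm
      · simp [ht.le]
      · have := h0 j
        rwa [add_sub_add_left_eq_sub]
  refine ⟨L 0 0, (hL 0 (by omega) 0 (by omega)).1, fun i hi j hj => ?_⟩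
  rw [← hall i hi j hj]
  exact (hL i hi j hj).2

/-! ### Association -/

theorem IL_forall {Q : ℕ → Set (ℤ × ℤ) → Prop} : ∀ n : ℕ, (∀ i < n, IL (Q i)) →
    IL (fun S => ∀ i < n, Q i S) := by
  intro n
  induction n with
  | zero =>
    intro _
    exact ⟨fun S T _ _ i hi => absurd hi (by omega), 0, fun S T _ _ i hi => absurd hi (by omega)⟩
  | succ n ih =>
    intro h
    have h1 := (ih fun i hi => h i (by omega)).and (h n (by omega))
    have e : (fun S => ∀ i < n + 1, Q i S) = fun S => (∀ i < n, Q i S) ∧ Q n S := by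
      funext S
      refine propext ⟨fun h2 => ⟨fun i hi => h2 i (by omega), h2 n (by omega)⟩, fun h2 i hi => ?_⟩
      rcases Nat.lt_succ_iff_lt_or_eq.1 hi with h3 | rfl
      · exact h2.1 i h3
      · exact h2.2
    rw [e]
    exact h1

theorem IL_Net (t : ℤ) (N : ℕ) (a b : ℤ) : IL (Net t N a b) :=
  IL_forall (Q := fun i S => ∀ j < N + 1, Ann (a + i * t) (b + j * t) t S) (N + 1) fun i _ =>
    IL_forall (Q := fun j S => Ann (a + i * t) (b + j * t) t S) (N + 1) fun j _ => IL_Ann _ _ _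

variable {t : ℝ} {P : Measure (Ori (ℤ × ℤ))} [IsProbabilityMeasure P]

theorem assoc_forall (hA : Assoc t P) {Q : ℕ → Set (ℤ × ℤ) → Prop} {c : ℝ} (hc : 0 ≤ c) :
    ∀ n : ℕ, (∀ i < n, IL (Q i)) → (∀ i < n, c ≤ (J t P).real {x | Q i (SQ x)}) →
    c ^ n ≤ (J t P).real {x | ∀ i < n, Q i (SQ x)} := by
  intro n
  induction n with
  | zero =>
    intro _ _
    have e : {x : Hgt × Mk | ∀ i < 0, Q i (SQ x)} = Set.univ := by
      ext x; simp
    rw [e]
    simp
  | succ n ih =>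
    intro h h'
    have h1 := ih (fun i hi => h i (by omega)) (fun i hi => h' i (by omega))
    have h2 := h' n (by omega)
    have hI := IL_forall (Q := Q) n fun i hi => h i (by omega)
    have hn := h n (by omega)
    have h3 := hA (fun A => ∀ i < n, Q i (fine A)) (fun A => Q n (fine A))
      (fun A B hAB => hI.1 _ _ (fine_mono hAB)) (fun A B hAB => hn.1 _ _ (fine_mono hAB))
      (loc_fine hI.2) (loc_fine hn.2)
    have e : {x : Hgt × Mk | ∀ i < n + 1, Q i (SQ x)} =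
        {x | (∀ i < n, Q i (fine (opp x))) ∧ Q n (fine (opp x))} := by
      ext x
      constructor
      · intro h4
        exact ⟨fun i hi => h4 i (by omega), h4 n (by omega)⟩
      · intro h4 i hi
        rcases Nat.lt_succ_iff_lt_or_eq.1 hi with h5 | rfl
        · exact h4.1 i h5
        · exact h4.2
    rw [e, pow_succ]
    exact (mul_le_mul h1 h2 hc measureReal_nonneg).trans h3

/-- The net has probability at least `c ^ ((N + 1) ^ 2)`. -/
theorem net_ge (hA : Assoc t P) {c : ℝ} (hc : 0 ≤ c) {r : ℤ}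
    (h : ∀ p q : ℤ, c ≤ (J t P).real {x | Ann p q r (SQ x)}) (N : ℕ) (a b : ℤ) :
    (c ^ (N + 1)) ^ (N + 1) ≤ (J t P).real {x | Net r N a b (SQ x)} := by
  refine assoc_forall hA (Q := fun i S => ∀ j < N + 1, Ann (a + i * r) (b + j * r) r S)
    (pow_nonneg hc _) (N + 1) (fun i _ => IL_forall (N + 1) fun j _ => IL_Ann _ _ _) fun i _ => ?_
  exact assoc_forall hA (Q := fun j S => Ann (a + i * r) (b + j * r) r S) hc (N + 1)
    (fun j _ => IL_Ann _ _ _) fun j _ => h _ _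

/-- The net at level `0`. -/
theorem MU_net_ge (hice : ∀ᵐ a ∂P, ∀ x y, Ice a x y) (hA : Assoc t P) {c : ℝ} (hc : 0 ≤ c) {r : ℤ}
    (hr : 0 < r) (h : ∀ p q : ℤ, c ≤ (J t P).real {x | Ann p q r (SQ x)}) (N : ℕ) (a b : ℤ) :
    ENNReal.ofReal (2 * (c ^ (N + 1)) ^ (N + 1)) ≤ MU t P {x | Net r N a b (fine (bl x))} := by
  rw [MU_eq_Jmu hice]
  have hL : LevFam fun l => {x : Hgt × Mk | Net r N a b (fine (opl l x))} :=
    levFam_opl (Q := fun A => Net r N a b (fine A)) (loc_fine (IL_Net r N a b).2)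
  refine le_trans ?_ (two_mul_J_le hL)
  have h1 : J t P {x | Net r N a b (SQ x)} ≤
      J t P (some4 fun l => {x : Hgt × Mk | Net r N a b (fine (opl l x))}) := by
    refine measure_mono_ae ?_
    filter_upwards [open_even t P hice] with x hx hN
    obtain ⟨l, h2, h3⟩ := Net.level (x := x) hx hr hN
    exact ⟨l, h2, h3⟩
  rw [ENNReal.ofReal_mul (by norm_num), ENNReal.ofReal_ofNat]
  gcongr
  refine le_trans ?_ h1
  rw [← ENNReal.ofReal_toReal (measure_ne_top (J t P) {x | Net r N a b (SQ x)})]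
  exact ENNReal.ofReal_le_ofReal (net_ge hA hc h N a b)

/-- **Positivity.** All rectangles of width at least `s` in the box `B_{K s}` are crossed at level
`0`, and all annuli of size between `s` and `K s` with centre in `B_{K s}` have circuits at level
`0`, with measure bounded below uniformly in `s`. -/
theorem pos_all (hice : ∀ᵐ a ∂P, ∀ x y, Ice a x y) (hA : Assoc t P)
    (hR : ∃ c : ℝ, 0 < c ∧ ∃ r0 : ℤ, ∀ r : ℤ, r0 ≤ r → ∀ p q : ℤ,
      c ≤ (J t P).real {x | Ann p q r (SQ x)}) (K : ℕ) :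
    ∃ c : ℝ, 0 < c ∧ ∃ s0 : ℤ, ∀ s : ℤ, s0 ≤ s → ENNReal.ofReal c ≤ MU t P {x |
      (∀ p q r : ℤ, s ≤ r → r ≤ K * s → |p| ≤ K * s → |q| ≤ K * s →
        Ann p q r (fine (bl x))) ∧
      (∀ A B C D : ℤ, -(K * s) ≤ A → A ≤ B → B ≤ K * s → -(K * s) ≤ C → C + s ≤ D → D ≤ K * s →
        LRc A B C D (fine (bl x)) ∧ BTc C D A B (fine (bl x)))} := by
  obtain ⟨c, hc, r0, h⟩ := hR
  set N : ℕ := 18 * K + 2 with hN
  refine ⟨2 * (c ^ (N + 1)) ^ (N + 1), by positivity, max (4 * r0) 4, fun s hs => ?_⟩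
  have hs4 : 4 ≤ s := (le_max_right _ _).trans hs
  have hs0 : 4 * r0 ≤ s := (le_max_left _ _).trans hs
  set r : ℤ := s / 2 with hr
  have hr1 : 2 * r ≤ s := by omega
  have hr2 : s ≤ 3 * r := by omega
  have hr3 : 0 < r := by omega
  have hr4 : r0 ≤ r := by omega
  refine (MU_net_ge hice hA hc.le hr3 (h r hr4) N (-((9 * K + 1) * r)) (-((9 * K + 1) * r))).trans
    (measure_mono ?_)
  intro x hx
  have hx' : Net r N (-((9 * K + 1) * r)) (-((9 * K + 1) * r)) (fine (bl x)) := hx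
  have hKs : (K : ℤ) * s ≤ K * (3 * r) := mul_le_mul_of_nonneg_left hr2 (by positivity)
  have hK0 : (0 : ℤ) ≤ K * r := by positivity
  have hNr : -((9 * (K : ℤ) + 1) * r) + ((N : ℤ) + 2) * r = 9 * (K * r) + 3 * r := by
    rw [hN]; push_cast; ring
  have h9 : -((9 * (K : ℤ) + 1) * r) + r = -(9 * (K * r)) := by ring
  refine ⟨fun p q u h1 h2 h3 h4 => ?_, fun A B C D h1 h2 h3 h4 h5 h6 => ⟨?_, ?_⟩⟩
  · obtain ⟨h5, h6⟩ := abs_le.1 h3
    obtain ⟨h7, h8⟩ := abs_le.1 h4
    refine hx'.ann hr3 (by omega) ?_ ?_ ?_ ?_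
    · rw [h9]; linarith
    · rw [hNr]; linarith
    · rw [h9]; linarith
    · rw [hNr]; linarith
  · refine hx'.lr hr3 ?_ h2 ?_ ?_ ?_ ?_
    · linarith
    · rw [hNr]; linarith
    · rw [h9]; linarith
    · linarith
    · rw [hNr]; linarith
  · refine hx'.bt hr3 ?_ ?_ ?_ ?_ h2 ?_
    · rw [h9]; linarith
    · linarith
    · rw [hNr]; linarith
    · linarith
    · rw [hNr]; linarith

end Vale.Agent.P145.X.PosAll
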