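import Vale.Agent.P145.X.Stmt
import Vale.Agent.P145.X.PosAll

/-!
P145, X-level: the statement `S_pos` of `X/Stmt.lean`.
-/

namespace Vale.Agent.P145.X

open Filter Topology Set MeasureTheory
open Vale.Agent.P152 (Ori Ice)
open Vale.Agent.P145.FA (Hgt)
open Vale.Agent.P145.FB

/-- The integral of an indicator is the measure of the event. -/
theorem spos_II_ind {t : ℝ} {P : Measure (Ori (ℤ × ℤ))} {Q : Set Pt → Prop}
    (hQ : MeasurableSet {x : Hgt × Mk | Q (bl x)}) :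
    II t P (ind Q) (fun _ => 1) = (MU t P).real {x | Q (bl x)} := by
  have e : (fun x : Hgt × Mk => ind Q (bl x) * (fun _ : Top.Om => (1 : ℝ)) (vm x.1)) =
      {x : Hgt × Mk | Q (bl x)}.indicator (fun _ => (1 : ℝ)) := by
    funext x
    by_cases h : Q (bl x)
    · have h' : x ∈ {x : Hgt × Mk | Q (bl x)} := h
      rw [Set.indicator_of_mem h']
      simp [ind, h]
    · have h' : x ∉ {x : Hgt × Mk | Q (bl x)} := h
      rw [Set.indicator_of_notMem h']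
      simp [ind, h]
  rw [II, e, integral_indicator hQ, setIntegral_const, smul_eq_mul, mul_one]

theorem spos_meas_Ann (p q r : ℤ) : MeasurableSet {x : Hgt × Mk | Ann p q r (fine (bl x))} :=
  (levFam_Ann p q r).meas 0

/-- **POS** (`S_pos`). -/
theorem s_pos {t : ℝ} {P : Measure (Ori (ℤ × ℤ))} [IsProbabilityMeasure P]
    (hice : ∀ᵐ a ∂P, ∀ x y, Ice a x y) (hA : Assoc t P)
    (hR : ∃ c : ℝ, 0 < c ∧ ∃ r0 : ℤ, ∀ r : ℤ, r0 ≤ r → ∀ p q : ℤ,
      c ≤ (J t P).real {x | Ann p q r (SQ x)}) : S_pos t P := by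
  intro N
  obtain ⟨c, hc, s0, h⟩ := PosAll.pos_all hice hA hR (N + 1)
  refine ⟨c, hc, max s0 1, le_max_right _ _, fun s hs y₀ m hm h1 h2 => ?_⟩
  have hs1 : 1 ≤ s := (le_max_right _ _).trans hs
  have hs0 : s0 ≤ s := (le_max_left _ _).trans hs
  have hab1 := abs_nonneg y₀.1
  have hab2 := abs_nonneg y₀.2
  have hmeas : MeasurableSet {x : Hgt × Mk | (fun B =>
      (∀ y : ℤ × ℤ, |y.1| ≤ N → |y.2| ≤ N → Zr (s * y.1, s * y.2) s B) ∧
      Zr (s * y₀.1, s * y₀.2) (m * s) B) (bl x)} := by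
    refine MeasurableSet.inter (s₁ := {x : Hgt × Mk | ∀ y : ℤ × ℤ, |y.1| ≤ N → |y.2| ≤ N →
      Zr (s * y.1, s * y.2) s (bl x)}) ?_ (spos_meas_Ann _ _ _)
    have e : {x : Hgt × Mk | ∀ y : ℤ × ℤ, |y.1| ≤ N → |y.2| ≤ N → Zr (s * y.1, s * y.2) s (bl x)} =
        ⋂ y : ℤ × ℤ, {x : Hgt × Mk | |y.1| ≤ N → |y.2| ≤ N → Zr (s * y.1, s * y.2) s (bl x)} := by
      ext x
      simp only [Set.mem_ofPred_eq, Set.mem_iInter]
    rw [e]
    refine MeasurableSet.iInter fun y => ?_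
    by_cases hy : |y.1| ≤ N ∧ |y.2| ≤ N
    · have e2 : {x : Hgt × Mk | |y.1| ≤ N → |y.2| ≤ N → Zr (s * y.1, s * y.2) s (bl x)} =
          {x : Hgt × Mk | Ann (s * y.1) (s * y.2) s (fine (bl x))} := by
        ext x
        exact ⟨fun h3 => h3 hy.1 hy.2, fun h3 _ _ => h3⟩
      rw [e2]
      exact spos_meas_Ann _ _ _
    · have e2 : {x : Hgt × Mk | |y.1| ≤ N → |y.2| ≤ N → Zr (s * y.1, s * y.2) s (bl x)} =
          Set.univ := by
        ext x
        exact ⟨fun _ => trivial, fun _ h3 h4 => absurd ⟨h3, h4⟩ hy⟩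
      rw [e2]
      exact MeasurableSet.univ
  rw [spos_II_ind hmeas]
  have hfin : MU t P {x : Hgt × Mk | (fun B =>
      (∀ y : ℤ × ℤ, |y.1| ≤ N → |y.2| ≤ N → Zr (s * y.1, s * y.2) s B) ∧
      Zr (s * y₀.1, s * y₀.2) (m * s) B) (bl x)} ≠ ⊤ := by
    refine ne_top_of_le_ne_top (b := 2) (by norm_num) ?_
    rw [MU_eq_Jmu hice]
    refine (measure_mono ?_).trans (Jmu_Ann_le (t := t) (P := P) (p := s * y₀.1) (q := s * y₀.2)
      (r := m * s) (by positivity))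
    rintro x ⟨-, h3⟩
    exact h3
  rw [Measure.real, ← ENNReal.ofReal_le_iff_le_toReal hfin]
  refine (h s hs0).trans (measure_mono ?_)
  rintro x ⟨h3, -⟩
  have hN0 : (0 : ℤ) ≤ N := by positivity
  have hb : ∀ z : ℤ, |z| ≤ N → |s * z| ≤ ((N + 1 : ℕ) : ℤ) * s := by
    intro z hz
    rw [abs_mul, abs_of_pos (by omega : 0 < s)]
    push_cast
    nlinarith
  refine ⟨fun y hy1 hy2 => h3 _ _ _ le_rfl ?_ (hb _ hy1) (hb _ hy2), h3 _ _ _ ?_ ?_
    (hb _ (by omega)) (hb _ (by omega))⟩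
  · push_cast; nlinarith
  · nlinarith
  · push_cast
    have : m ≤ N := by omega
    nlinarith

end Vale.Agent.P145.X
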