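import Vale.Agent.P145.X.Xev

/-!
P145, X-level: the sandwich with monomials of the heights at the vertices of a set `S`; the moments
given the event, from the extension inequality.
-/

namespace Vale.Agent.P145.X

open Filter Topology Set MeasureTheory
open Vale.Agent.P145.Top Vale.Agent.P145.PT Vale.Agent.P145.FP Vale.Agent.P145.Dom

/-- Polynomials with nonnegative coefficients in the heights at the vertices of `S`. -/
inductive ConeOn (S : Set (ℤ × ℤ)) : (Om → ℝ) → Prop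
  | mon (v : List (ℤ × ℤ)) : (∀ u ∈ v, u ∈ S) → ConeOn S (fun ω => (v.map ω).prod)
  | zero : ConeOn S (fun _ => 0)
  | add {f g : Om → ℝ} : ConeOn S f → ConeOn S g → ConeOn S (fun ω => f ω + g ω)
  | smul {f : Om → ℝ} (c : ℝ) : 0 ≤ c → ConeOn S f → ConeOn S (fun ω => c * f ω)

variable {S : Set (ℤ × ℤ)}

theorem ConeOn.cone {A : Om → ℝ} (h : ConeOn S A) : Cone A := by
  induction h with
  | mon v _ => exact Pol.mon v
  | zero => exact Pol.zero
  | add _ _ h1 h2 => exact h1.add h2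
  | smul c hc _ h1 => exact h1.smul c hc

theorem ConeOn.of_eq {f g : Om → ℝ} (hf : ConeOn S f) (h : ∀ ω, f ω = g ω) : ConeOn S g := by
  have : f = g := funext h
  rwa [← this]

theorem ConeOn.one : ConeOn S (fun _ => 1) :=
  (ConeOn.mon [] (by simp)).of_eq fun ω => by simp

theorem ConeOn.cons {g : Om → ℝ} (hg : ConeOn S g) {v : ℤ × ℤ} (hv : v ∈ S) :
    ConeOn S (fun ω => ω v * g ω) := by
  induction hg with
  | mon l hl =>
    refine (ConeOn.mon (S := S) (v :: l) fun u hu => ?_).of_eq fun ω => by simp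
    rcases List.mem_cons.1 hu with h | h
    · rw [h]; exact hv
    · exact hl u h
  | zero => exact ConeOn.zero.of_eq fun ω => by simp
  | add _ _ h1 h2 => exact (h1.add h2).of_eq fun ω => by ring
  | smul c hc _ h1 => exact (h1.smul c hc).of_eq fun ω => by ring

theorem ConeOn.sum {ι : Type*} (s : Finset ι) (g : ι → Om → ℝ)
    (h : ∀ i ∈ s, ConeOn S (g i)) : ConeOn S (fun ω => ∑ i ∈ s, g i ω) := by
  classical
  induction s using Finset.induction_on with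
  | empty => exact ConeOn.zero.of_eq fun ω => by simp
  | insert a s ha ih =>
    refine ((h a (Finset.mem_insert_self _ _)).add
      (ih fun i hi => h i (Finset.mem_insert_of_mem hi))).of_eq fun ω => ?_
    rw [Finset.sum_insert ha]

theorem ConeOn.hB {g : Om → ℝ} (hg : ConeOn S g) {B : Finset (ℤ × ℤ)} {δ : ℝ}
    {f : ℝ × ℝ → ℝ} (h : ∀ z, 0 ≤ f z) (hS : ∀ v : ℤ × ℤ, f (δ * v.1, δ * v.2) ≠ 0 → v ∈ S) :
    ConeOn S (fun ω => Top.hB B δ f ω * g ω) := by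
  refine (ConeOn.sum B (fun v ω => (δ ^ 2 * f (δ * v.1, δ * v.2)) * (ω v * g ω))
    fun v hv => ?_).of_eq fun ω => ?_
  · by_cases h0 : f (δ * v.1, δ * v.2) = 0
    · refine ConeOn.zero.of_eq fun ω => ?_
      rw [h0, mul_zero, zero_mul]
    · exact (hg.cons (hS v h0)).smul _ (mul_nonneg (sq_nonneg _) (h _))
  · unfold Top.hB
    rw [Finset.mul_sum, Finset.sum_mul]
    exact Finset.sum_congr rfl fun v _ => by ring

theorem coneOn_hl {B : Finset (ℤ × ℤ)} {δ : ℝ} (l : List (ℝ × ℝ → ℝ))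
    (h : ∀ f ∈ l, (∀ z, 0 ≤ f z) ∧ ∀ v : ℤ × ℤ, f (δ * v.1, δ * v.2) ≠ 0 → v ∈ S) :
    ConeOn S (hl B δ l) := by
  induction l with
  | nil => exact ConeOn.one.of_eq fun ω => by simp [hl]
  | cons f l ih =>
    have h0 := h f List.mem_cons_self
    exact (ConeOn.hB (B := B) (δ := δ) (ih fun g hg => h g (List.mem_cons_of_mem _ hg))
      h0.1 h0.2).of_eq fun ω => by simp [hl]

/-- Products of nonnegative linear functionals. -/
theorem coneOn_hvl {δ : ℝ} (hδ : 0 < δ) {D : Set (ℝ × ℝ)} (hb : Bornology.IsBounded D)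
    {l : List (ℝ × ℝ → ℝ)} (hl : ∀ f ∈ l, TestOn D f ∧ ∀ z, 0 ≤ f z)
    (hS : ∀ f ∈ l, ∀ v : ℤ × ℤ, f (δ * v.1, δ * v.2) ≠ 0 → v ∈ S) : ConeOn S (hvl δ l) := by
  obtain ⟨R, hR⟩ := hb.subset_ball (0 : ℝ × ℝ)
  obtain ⟨B, hB⟩ := hv_eq_hB (R := R) hδ
  refine (coneOn_hl (B := B) (δ := δ) l fun f hf => ⟨(hl f hf).2, hS f hf⟩).of_eq fun ω => ?_
  unfold hvl Top.hl
  congr 1
  refine List.map_congr_left fun f hf => (hB f (fun z hz => ?_) ω).symm
  exact hR ((hl f hf).1.2.2 (subset_tsupport _ hz))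

section abs
variable {Ω : Type*} [MeasurableSpace Ω] {μ : Measure Ω} {X Θ : Set Ω} {T : Ω → Om}

theorem XEv.lowOn (h : XEv μ X T) {ρ : Measure Om} (hρ : Mom ρ)
    (hl : ∀ v : List (ℤ × ℤ), (∀ u ∈ v, u ∈ S) → (∫ ω, (v.map ω).prod ∂ρ) * μ.real X ≤
      ∫ x in X, (v.map (T x)).prod ∂μ) {A : Om → ℝ} (hA : ConeOn S A) :
    (∫ ω, A ω ∂ρ) * μ.real X ≤ ∫ x in X, A (T x) ∂μ := by
  induction hA with
  | mon v hv => exact hl v hv
  | zero => simp
  | add h1 h2 i1 i2 =>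
    rw [integral_add (hρ.integrable h1.cone) (hρ.integrable h2.cone),
      integral_add (h.int_pol h1.cone) (h.int_pol h2.cone), add_mul]
    exact add_le_add i1 i2
  | smul c hc _ i1 =>
    rw [integral_const_mul, integral_const_mul, mul_assoc]
    exact mul_le_mul_of_nonneg_left i1 hc

theorem XEv.upOn (h : XEv μ X T) {ρ : Measure Om} (hρ : Mom ρ) {Z : Set Ω}
    (hl : ∀ v : List (ℤ × ℤ), (∀ u ∈ v, u ∈ S) → ∫ x in X ∩ Z, (v.map (T x)).prod ∂μ ≤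
      (∫ ω, (v.map ω).prod ∂ρ) * μ.real (X ∩ Z)) {A : Om → ℝ} (hA : ConeOn S A) :
    ∫ x in X ∩ Z, A (T x) ∂μ ≤ (∫ ω, A ω ∂ρ) * μ.real (X ∩ Z) := by
  have hi : ∀ {B : Om → ℝ}, Cone B → Integrable (fun x => B (T x)) (μ.restrict (X ∩ Z)) :=
    fun hB => (h.int_pol hB).mono_measure (Measure.restrict_mono inter_subset_left le_rfl)
  induction hA with
  | mon v hv => exact hl v hv
  | zero => simp
  | add h1 h2 i1 i2 =>
    rw [integral_add (hρ.integrable h1.cone) (hρ.integrable h2.cone),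
      integral_add (hi h1.cone) (hi h2.cone), add_mul]
    exact add_le_add i1 i2
  | smul c hc _ i1 =>
    rw [integral_const_mul, integral_const_mul, mul_assoc]
    exact mul_le_mul_of_nonneg_left i1 hc

/-- The extension inequality for the cone, from the extension inequality for the monomials. -/
theorem XEv.extOn (h : XEv μ X T) (h' : XEv μ Θ T)
    (hl : ∀ v : List (ℤ × ℤ), (∀ u ∈ v, u ∈ S) →
      (∫ x in X, (v.map (T x)).prod ∂μ) * μ.real Θ ≤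
        μ.real X * ∫ x in Θ, (v.map (T x)).prod ∂μ) {A : Om → ℝ} (hA : ConeOn S A) :
    (∫ x in X, A (T x) ∂μ) * μ.real Θ ≤ μ.real X * ∫ x in Θ, A (T x) ∂μ := by
  induction hA with
  | mon v hv => exact hl v hv
  | zero => simp
  | add h1 h2 i1 i2 =>
    rw [integral_add (h.int_pol h1.cone) (h.int_pol h2.cone),
      integral_add (h'.int_pol h1.cone) (h'.int_pol h2.cone), add_mul, mul_add]
    exact add_le_add i1 i2
  | smul c hc _ i1 =>
    rw [integral_const_mul, integral_const_mul, mul_assoc, mul_left_comm (μ.real X)]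
    exact mul_le_mul_of_nonneg_left i1 hc

/-- The moments given `X`, from the moments given `Θ`. -/
theorem XEv.mom_ext (h : XEv μ X T) (h' : XEv μ Θ T)
    (hl : ∀ v : List (ℤ × ℤ), (∀ u ∈ v, u ∈ S) →
      (∫ x in X, (v.map (T x)).prod ∂μ) * μ.real Θ ≤
        μ.real X * ∫ x in Θ, (v.map (T x)).prod ∂μ) {A : Om → ℝ} (hA : ConeOn S A) {C : ℝ}
    (hC : ∫ x in Θ, A (T x) ∂μ ≤ C * μ.real Θ) : ∫ x in X, A (T x) ∂μ ≤ C * μ.real X := by
  have h1 := h.extOn h' hl hA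
  have hΘ := h'.real_pos
  have hX := h.real_pos
  have h2 : (∫ x in X, A (T x) ∂μ) * μ.real Θ ≤ (C * μ.real X) * μ.real Θ := by
    refine h1.trans ((mul_le_mul_of_nonneg_left hC hX.le).trans (le_of_eq ?_))
    ring
  exact le_of_mul_le_mul_right h2 hΘ

/-- **The sandwich** along a sequence, with the monomials of the vertices in `S n` and with the
moments of the events `Θ n`. -/
theorem sand_seqS {c : ℝ} {δ : ℕ → ℝ} (hc : 0 < c) (hδ : ∀ n, 0 < δ n) (hm : S_mono c)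
    {X Z Θ : ℕ → Set Ω} {T : ℕ → Ω → Om} {S : ℕ → Set (ℤ × ℤ)} {D₁ D₂ : Set (ℝ × ℝ)}
    (hb : Bornology.IsBounded D₁) (L : List (List (ℝ × ℝ → ℝ)))
    (hL : ∀ l ∈ L, ∀ g ∈ l, TestOn D₁ g ∧ ∀ z, 0 ≤ g z)
    (hS : ∀ l ∈ L, ∀ g ∈ l, ∀ (n : ℕ) (v : ℤ × ℤ), g (δ n * v.1, δ n * v.2) ≠ 0 → v ∈ S n)
    {η η' C : ℝ} (hη : 0 ≤ η') (hC : 0 ≤ C) (hηC : η' * C ≤ η)
    (h : ∀ᶠ n in atTop, XEv μ (X n) (T n) ∧ XEv μ (Θ n) (T n) ∧ MeasurableSet (Z n) ∧
      (∀ v : List (ℤ × ℤ), (∀ u ∈ v, u ∈ S n) →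
        ze c (Fs (δ n) D₁) (fun x => (v.map (vh x)).prod) * μ.real (X n) ≤
        ∫ x in X n, (v.map (T n x)).prod ∂μ) ∧
      (∀ v : List (ℤ × ℤ), (∀ u ∈ v, u ∈ S n) → ∫ x in X n ∩ Z n, (v.map (T n x)).prod ∂μ ≤
        ze c (Fs (δ n) D₂) (fun x => (v.map (vh x)).prod) * μ.real (X n ∩ Z n)) ∧
      μ.real (X n \ Z n) ≤ η' ^ 2 * μ.real (X n) ∧
      (∀ v : List (ℤ × ℤ), (∀ u ∈ v, u ∈ S n) →
        (∫ x in X n, (v.map (T n x)).prod ∂μ) * μ.real (Θ n) ≤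
        μ.real (X n) * ∫ x in Θ n, (v.map (T n x)).prod ∂μ) ∧
      ∀ l ∈ L, ∫ x in Θ n, hvl (δ n) (l ++ l) (T n x) ∂μ ≤ C ^ 2 * μ.real (Θ n)) :
    (∀ᶠ n in atTop, Mom (nuA μ (X n) (T n))) ∧
    ∀ l ∈ L, ∀ᶠ n in atTop,
      EE c (δ n) D₁ (hvl (δ n) l) ≤ (∫ ω, hvl (δ n) l ω ∂(nuA μ (X n) (T n))) + η ∧
      ∫ ω, hvl (δ n) l ω ∂(nuA μ (X n) (T n)) ≤ EE c (δ n) D₂ (hvl (δ n) l) + η := by
  have hη0 : 0 ≤ η := (mul_nonneg hη hC).trans hηC
  refine ⟨h.mono fun n hn => hn.1.mom, fun l hl => h.mono fun n hn => ?_⟩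
  obtain ⟨h1, h1', h2, h3, h4, h5, h6, h7⟩ := hn
  have hA := coneOn_hvl (S := S n) (hδ n) hb (hL l hl) fun f hf => hS l hl f hf n
  have hA2 : ConeOn (S n) (hvl (δ n) (l ++ l)) := by
    refine coneOn_hvl (hδ n) hb (fun f hf => ?_) fun f hf => ?_
    · rcases List.mem_append.1 hf with hf | hf <;> exact hL l hl f hf
    · rcases List.mem_append.1 hf with hf | hf <;> exact hS l hl f hf n
  obtain ⟨ρ₁, hρ₁, e₁⟩ := exists_meas hc (Fs (δ n) D₁)
  obtain ⟨ρ₂, hρ₂, e₂⟩ := exists_meas hc (Fs (δ n) D₂)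
  have f1 := h1.lowOn hρ₁ (fun v hv => by rw [e₁]; exact h3 v hv) hA
  have f2 := h1.upOn hρ₂ (Z := Z n) (fun v hv => by rw [e₂]; exact h4 v hv) hA
  have f3 : 0 ≤ ∫ ω, hvl (δ n) l ω ∂ρ₂ :=
    hρ₂.nonneg (fun v => by rw [e₂]; exact (hm _ _ subset_rfl v).1) hA.cone
  have f4 := h1.mom_ext h1' h6 hA2 (h7 l hl)
  have key := h1.sand h2 hA.cone f3 hη hC f1 f2 h5 (by
    refine le_trans (le_of_eq ?_) f4
    refine integral_congr_ae (ae_of_all _ fun x => ?_)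
    simp only []
    rw [hvl_append, _root_.sq])
  rw [e₁, e₂] at key
  have k1 : EE c (δ n) D₁ (hvl (δ n) l) ≤ ∫ ω, hvl (δ n) l ω ∂(nuA μ (X n) (T n)) := key.1
  have k2 : ∫ ω, hvl (δ n) l ω ∂(nuA μ (X n) (T n)) ≤ EE c (δ n) D₂ (hvl (δ n) l) + η' * C :=
    key.2
  exact ⟨by linarith, by linarith⟩

end abs

end Vale.Agent.P145.X
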