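import Vale.Agent.P145.X.SPos
import Vale.Agent.P145.X.SandS

/-!
P145, X-level: families of circuits at level `0` and the closing events (locality, monotonicity,
union bound).
-/

namespace Vale.Agent.P145.X

open Filter Topology Set MeasureTheory
open Vale.Agent.P152 (Ori)
open Vale.Agent.P145.FA (Hgt)
open Vale.Agent.P145.FB (Pt Mk e1 e2 o1 o2 Ann MU bl opl fine mkm om meas_of_opl)
open Vale.Agent.P145.Top (Om Cone)
open Vale.Agent.P145.Dom (ze)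

/-- The property `Q` depends on finitely many edges of `A`. -/
def LocP (A : Set Pt) (Q : Set Pt → Prop) : Prop :=
  ∃ Λ : Finset Pt, (∀ w ∈ Λ, w ∈ A) ∧ ∀ B B' : Set Pt, (∀ w ∈ Λ, w ∈ B ↔ w ∈ B') → (Q B ↔ Q B')

/-- The property `Q` is increasing. -/
def IncP (Q : Set Pt → Prop) : Prop := ∀ B B' : Set Pt, B ⊆ B' → Q B → Q B'

theorem ind_of {Q : Set Pt → Prop} {B : Set Pt} (h : Q B) : ind Q B = 1 := if_pos h

theorem ind_not {Q : Set Pt → Prop} {B : Set Pt} (h : ¬ Q B) : ind Q B = 0 := if_neg h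

theorem ind_nonneg (Q : Set Pt → Prop) (B : Set Pt) : 0 ≤ ind Q B := by
  unfold ind; split_ifs <;> norm_num

theorem ind_le_one (Q : Set Pt → Prop) (B : Set Pt) : ind Q B ≤ 1 := by
  unfold ind; split_ifs <;> norm_num

theorem ind_ne {Q : Set Pt → Prop} {B : Set Pt} (h : ind Q B ≠ 0) : Q B := by
  by_contra h0
  exact h (ind_not h0)

theorem ind_eq_iff {Q : Set Pt → Prop} {B B' : Set Pt} : ind Q B = ind Q B' ↔ (Q B ↔ Q B') := by
  unfold ind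
  by_cases h : Q B <;> by_cases h' : Q B' <;> simp [h, h']

theorem locP_iff {A : Set Pt} {Q : Set Pt → Prop} : LocP A Q ↔ LocS A (ind Q) := by
  unfold LocP LocS
  constructor
  · rintro ⟨Λ, h1, h2⟩
    exact ⟨Λ, h1, fun B B' h => ind_eq_iff.2 (h2 B B' h)⟩
  · rintro ⟨Λ, h1, h2⟩
    exact ⟨Λ, h1, fun B B' h => ind_eq_iff.1 (h2 B B' h)⟩

theorem incP_iff {Q : Set Pt → Prop} : IncP Q ↔ Monotone (ind Q) := by
  constructor
  · intro h B B' hB
    by_cases hQ : Q B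
    · rw [ind_of hQ, ind_of (h B B' hB hQ)]
    · rw [ind_not hQ]; exact ind_nonneg _ _
  · intro h B B' hB hQ
    have h1 := h hB
    rw [ind_of hQ] at h1
    by_contra h2
    rw [ind_not h2] at h1
    linarith

theorem LocP.mono {A A' : Set Pt} {Q : Set Pt → Prop} (h : LocP A Q) (hA : A ⊆ A') : LocP A' Q := by
  obtain ⟨Λ, h1, h2⟩ := h
  exact ⟨Λ, fun w hw => hA (h1 w hw), h2⟩

theorem LocP.not {A : Set Pt} {Q : Set Pt → Prop} (h : LocP A Q) : LocP A fun B => ¬ Q B := by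
  obtain ⟨Λ, h1, h2⟩ := h
  exact ⟨Λ, h1, fun B B' h => not_congr (h2 B B' h)⟩

theorem LocP.and {A : Set Pt} {Q Q' : Set Pt → Prop} (h : LocP A Q) (h' : LocP A Q') :
    LocP A fun B => Q B ∧ Q' B := by
  classical
  obtain ⟨Λ, h1, h2⟩ := h
  obtain ⟨Λ', h1', h2'⟩ := h'
  refine ⟨Λ ∪ Λ', fun w hw => ?_, fun B B' h => and_congr (h2 B B' fun w hw => h w ?_)
    (h2' B B' fun w hw => h w ?_)⟩
  · rcases Finset.mem_union.1 hw with h | h
    · exact h1 w h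
    · exact h1' w h
  · exact Finset.mem_union_left _ hw
  · exact Finset.mem_union_right _ hw

theorem LocP.all {ι : Type*} (s : Finset ι) {A : Set Pt} {Q : ι → Set Pt → Prop}
    (h : ∀ i ∈ s, LocP A (Q i)) : LocP A fun B => ∀ i ∈ s, Q i B := by
  classical
  induction s using Finset.induction_on with
  | empty => exact ⟨∅, by simp, by simp⟩
  | insert a s ha ih =>
    have h1 := (h a (Finset.mem_insert_self _ _)).and
      (ih fun i hi => h i (Finset.mem_insert_of_mem hi))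
    obtain ⟨Λ, h2, h3⟩ := h1
    refine ⟨Λ, h2, fun B B' hB => ?_⟩
    have h4 := h3 B B' hB
    simpa only [Finset.forall_mem_insert] using h4

theorem LocP.ex {ι : Type*} (s : Finset ι) {A : Set Pt} {Q : ι → Set Pt → Prop}
    (h : ∀ i ∈ s, LocP A (Q i)) : LocP A fun B => ∃ i ∈ s, Q i B := by
  have h1 := (LocP.all s fun i hi => (h i hi).not).not
  obtain ⟨Λ, h2, h3⟩ := h1
  refine ⟨Λ, h2, fun B B' hB => ?_⟩
  have h4 := h3 B B' hB
  simpa only [not_forall, not_not, exists_prop] using h4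

theorem fn_ind {A : Set Pt} {Q : Set Pt → Prop} (h : LocP A Q) (h0 : ¬ Q ∅) : Fn A (ind Q) :=
  ⟨ind_nonneg Q, locP_iff.1 h, ind_not h0⟩

/-- The event is measurable. -/
theorem LocP.meas {A : Set Pt} {Q : Set Pt → Prop} (h : LocP A Q) :
    MeasurableSet {x : Hgt × Mk | Q (bl x)} := by
  obtain ⟨Λ, h1, h2⟩ := h
  exact meas_of_opl 0 ⟨Λ, fun B B' hB => (h2 B B' hB).1⟩

theorem II_ind {t : ℝ} {P : Measure (Ori (ℤ × ℤ))} {A : Set Pt} {Q : Set Pt → Prop}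
    (h : LocP A Q) (F : Om → ℝ) :
    II t P (ind Q) F = ∫ x in {x | Q (bl x)}, F (vm x.1) ∂(MU t P) := by
  unfold II
  rw [← integral_indicator h.meas]
  refine integral_congr_ae (ae_of_all _ fun x => ?_)
  by_cases hx : Q (bl x)
  · have hx' : x ∈ {x : Hgt × Mk | Q (bl x)} := hx
    simp only [Set.indicator_of_mem hx', ind_of hx, one_mul]
  · have hx' : x ∉ {x : Hgt × Mk | Q (bl x)} := hx
    simp only [Set.indicator_of_notMem hx', ind_not hx, zero_mul]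

theorem II_one {t : ℝ} {P : Measure (Ori (ℤ × ℤ))} {A : Set Pt} {Q : Set Pt → Prop}
    (h : LocP A Q) : II t P (ind Q) (fun _ => 1) = (MU t P).real {x | Q (bl x)} :=
  spos_II_ind h.meas

/-! ### Circuits -/

theorem zr_inc (hL : S_loc) {p : ℤ × ℤ} {r : ℤ} (hr : 1 ≤ r) : IncP (Zr p r) :=
  incP_iff.2 (hL p r hr).1

theorem zr_loc (hL : S_loc) {p : ℤ × ℤ} {r : ℤ} (hr : 1 ≤ r) {A : Set Pt}
    (hA : tE (bx p (2 * r)) ⊆ A) : LocP A (Zr p r) :=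
  (locP_iff.2 (hL p r hr).2.loc).mono fun _ hw => hA hw.1

theorem zr_empty (hL : S_loc) {p : ℤ × ℤ} {r : ℤ} (hr : 1 ≤ r) : ¬ Zr p r ∅ := by
  intro h
  have := (hL p r hr).2.pin
  rw [ind_of h] at this
  norm_num at this

/-- The family of circuits. -/
def Fy (w : ℤ) (Y : Finset (ℤ × ℤ)) (p : ℤ × ℤ) (r : ℤ) (B : Set Pt) : Prop :=
  (∀ y ∈ Y, Zr (ce w y) w B) ∧ Zr p r B

/-- The closing event. -/
def Zy (w s : ℤ) (lo hi : ℕ) (Q : Finset (ℤ × ℤ)) (B : Set Pt) : Prop :=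
  ∀ y ∈ Q, ∃ i, lo ≤ i ∧ i ≤ hi ∧ Zr (ce w y) (4 ^ i * s) B

/-- No circuit at the larger scales. -/
def Gy (p : ℤ × ℤ) (s : ℤ) (lo hi : ℕ) (B : Set Pt) : Prop :=
  ∀ i, lo ≤ i → i ≤ hi → ¬ Zr p (4 ^ i * s) B

section fam
variable {w r s : ℤ} {p : ℤ × ℤ} {Y Q : Finset (ℤ × ℤ)} {lo hi : ℕ} {A : Set Pt}

theorem fy_inc (hL : S_loc) (hw : 1 ≤ w) (hr : 1 ≤ r) : IncP (Fy w Y p r) :=
  fun B B' hB h => ⟨fun y hy => zr_inc hL hw B B' hB (h.1 y hy), zr_inc hL hr B B' hB h.2⟩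

theorem fy_loc (hL : S_loc) (hw : 1 ≤ w) (hr : 1 ≤ r)
    (hY : ∀ y ∈ Y, tE (bx (ce w y) (2 * w)) ⊆ A) (hp : tE (bx p (2 * r)) ⊆ A) :
    LocP A (Fy w Y p r) :=
  (LocP.all Y fun y hy => zr_loc hL hw (hY y hy)).and (zr_loc hL hr hp)

theorem fy_empty (hL : S_loc) (hr : 1 ≤ r) : ¬ Fy w Y p r ∅ := fun h => zr_empty hL hr h.2

theorem pow_ge {s : ℤ} (hs : 1 ≤ s) (i : ℕ) : 1 ≤ 4 ^ i * s := by
  have : (1 : ℤ) ≤ 4 ^ i := one_le_pow₀ (by norm_num)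
  nlinarith

theorem zy_inc (hL : S_loc) (hs : 1 ≤ s) : IncP (Zy w s lo hi Q) := by
  intro B B' hB h y hy
  obtain ⟨i, h1, h2, h3⟩ := h y hy
  exact ⟨i, h1, h2, zr_inc hL (pow_ge hs i) B B' hB h3⟩

theorem bx_mono {p : ℤ × ℤ} {r r' : ℤ} (h : r ≤ r') : bx p r ⊆ bx p r' := by
  rintro f ⟨h1, h2, h3, h4⟩
  exact ⟨by omega, by omega, by omega, by omega⟩

theorem tE_mono {F F' : Set (ℤ × ℤ)} (h : F ⊆ F') : tE F ⊆ tE F' := by
  rintro w ⟨f, hf, h1⟩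
  exact ⟨f, h hf, h1⟩

theorem pow_le_of {s : ℤ} (hs : 1 ≤ s) {i k : ℕ} (h : i ≤ k) : 4 ^ i * s ≤ 4 ^ k * s := by
  have : (4 : ℤ) ^ i ≤ 4 ^ k := pow_le_pow_right₀ (by norm_num) h
  nlinarith

theorem zy_loc (hL : S_loc) (hs : 1 ≤ s)
    (hQ : ∀ y ∈ Q, tE (bx (ce w y) (2 * (4 ^ hi * s))) ⊆ A) : LocP A (Zy w s lo hi Q) := by
  refine LocP.all Q fun y hy => ?_
  have h1 : LocP A fun B => ∃ i ∈ Finset.Icc lo hi, Zr (ce w y) (4 ^ i * s) B := by
    refine LocP.ex _ fun i hi => zr_loc hL (pow_ge hs i) ?_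
    refine Subset.trans (tE_mono (bx_mono ?_)) (hQ y hy)
    have := pow_le_of hs (Finset.mem_Icc.1 hi).2
    linarith
  obtain ⟨Λ, h2, h3⟩ := h1
  refine ⟨Λ, h2, fun B B' hB => ?_⟩
  have h4 := h3 B B' hB
  simpa only [Finset.mem_Icc, and_assoc] using h4

theorem gy_loc (hL : S_loc) (hs : 1 ≤ s) : LocP univ (Gy p s lo hi) := by
  have h1 : LocP univ fun B => ∃ i ∈ Finset.Icc lo hi, Zr p (4 ^ i * s) B :=
    LocP.ex _ fun i _ => zr_loc hL (pow_ge hs i) (subset_univ _)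
  obtain ⟨Λ, h2, h3⟩ := h1
  refine ⟨Λ, h2, fun B B' hB => ?_⟩
  have h4 := not_congr (h3 B B' hB)
  simp only [Finset.mem_Icc, not_exists, not_and, and_imp] at h4
  exact h4

/-- **The union bound**: the closing event fails with small probability. -/
theorem gap_fam {t : ℝ} {P : Measure (Ori (ℤ × ℤ))} (hL : S_loc) (hw : 1 ≤ w) (hr : 1 ≤ r)
    (hs : 1 ≤ s) (hfin : MU t P {x | Fy w Y p r (bl x)} ≠ ⊤) {η : ℝ}
    (hg : ∀ y ∈ Q, II t P (fun B => ind (Fy w Y p r) B * ind (Gy (ce w y) s lo hi) B)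
      (fun _ => 1) ≤ η * II t P (ind (Fy w Y p r)) (fun _ => 1)) :
    (MU t P).real ({x | Fy w Y p r (bl x)} \ {x | Zy w s lo hi Q (bl x)}) ≤
      Q.card * η * (MU t P).real {x | Fy w Y p r (bl x)} := by
  have hF : LocP univ (Fy w Y p r) := fy_loc hL hw hr (fun _ _ => subset_univ _) (subset_univ _)
  have hsub : {x : Hgt × Mk | Fy w Y p r (bl x)} \ {x | Zy w s lo hi Q (bl x)} ⊆
      ⋃ y ∈ Q, {x | Fy w Y p r (bl x) ∧ Gy (ce w y) s lo hi (bl x)} := by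
    rintro x ⟨h1, h2⟩
    have h2' : ¬ ∀ y ∈ Q, ∃ i, lo ≤ i ∧ i ≤ hi ∧ Zr (ce w y) (4 ^ i * s) (bl x) := h2
    push Not at h2'
    obtain ⟨y, hy, h3⟩ := h2'
    rw [mem_iUnion₂]
    exact ⟨y, hy, h1, h3⟩
  have hfy : ∀ y, MU t P {x | Fy w Y p r (bl x) ∧ Gy (ce w y) s lo hi (bl x)} ≠ ⊤ := fun y =>
    ne_top_of_le_ne_top hfin (measure_mono fun x hx => hx.1)
  have h1 : (MU t P).real ({x | Fy w Y p r (bl x)} \ {x | Zy w s lo hi Q (bl x)}) ≤
      ∑ y ∈ Q, (MU t P).real {x | Fy w Y p r (bl x) ∧ Gy (ce w y) s lo hi (bl x)} := by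
    refine (measureReal_mono hsub ?_).trans (measureReal_biUnion_finset_le _ _)
    refine ne_top_of_le_ne_top ?_ (measure_biUnion_finset_le Q _)
    exact (ENNReal.sum_lt_top.2 fun y _ => lt_top_iff_ne_top.2 (hfy y)).ne
  refine h1.trans ?_
  rw [mul_assoc, ← nsmul_eq_mul]
  refine Finset.sum_le_card_nsmul _ _ _ fun y hy => ?_
  have h2 := hg y hy
  have e : (fun B => ind (Fy w Y p r) B * ind (Gy (ce w y) s lo hi) B) =
      ind fun B => Fy w Y p r B ∧ Gy (ce w y) s lo hi B := by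
    funext B
    by_cases h3 : Fy w Y p r B <;> by_cases h4 : Gy (ce w y) s lo hi B <;> simp [ind, h3, h4]
  rw [e, II_one (hF.and (gy_loc hL hs)), II_one hF] at h2
  exact h2

end fam

end Vale.Agent.P145.X
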