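import Vale.Agent.P145.X.SdX
import Vale.Agent.P145.X.Frame

/-!
P145, block X: the Schwinger-Dyson half of the frame.
-/

namespace Vale.Agent.P145.X

open Filter Topology Set MeasureTheory
open Vale.Agent.P152 (Ori)
open Vale.Agent.P145.FA (Pl GRP CLT dX dY dD dA RX RY RD RA)

/-- **The Schwinger-Dyson half of the frame.** -/
theorem sdH_of {c t κ : ℝ} {P : Measure (Ori (ℤ × ℤ))} (hPl : Pl c P)
    (hG : GRP P dX RX ∧ GRP P dY RY ∧ GRP P dD RD ∧ GRP P dA RA) (hP : FP.Hyp P)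
    (hclt : CLT P (4 * κ)) (hA : S_avg t P) (hi : S_int t P) (hL : S_loc) {δ : ℕ → ℝ}
    (hδ : ∀ n, 0 < δ n) (hδ0 : Tendsto δ atTop (𝓝 0)) : SdH t κ P δ := by
  intro D₁ hD hDb a b a' b' hab hab' hcell e he ψ f0 g k hψ hf0 hg hgP ε hε j N e₁ he₁ Y y0 l hY
    c₀ hc₀ hpos hmom
  exact sdx_fam hPl hG hP hclt hA hi hL hδ hδ0 hD hDb hab hab' hcell he hψ hf0 hg hgP hε he₁ hY
    hc₀ hpos hmom

end Vale.Agent.P145.X
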