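import Vale.Agent.P145.FC.UpMU
import Vale.Agent.P145.X.Refl

/-!
P145, X-level: the statement `S_up`.
-/

namespace Vale.Agent.P145.X

open Filter Topology Set MeasureTheory
open Vale.Agent.P152 (Ori)
open Vale.Agent.P145.FA (Hgt mu0 Pl)
open Vale.Agent.P145.FB (Pt Mk e1 e2 o1 o2 MU bl mkm om Swap)
open Vale.Agent.P145.Top (Om Cone vh Pol)
open Vale.Agent.P145.Dom (ze)
open Vale.Agent.P145.FP (Site fc)
open Vale.Agent.P145.FK (PosH Dep Cor oF mem_oF MU_sandwich)

/-- Reflection of the vertices. -/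
def uv (v : ℤ × ℤ) : ℤ × ℤ := (v.1, -v.2)

/-- Reflection of the faces. -/
def uf (f : ℤ × ℤ) : ℤ × ℤ := (f.1, -f.2 - 1)

lemma uv_uv (v : ℤ × ℤ) : uv (uv v) = v := by simp [uv]

lemma uf_uf (f : ℤ × ℤ) : uf (uf f) = f := by simp [uf]

lemma fc_uv (v : ℤ × ℤ) : fc (Sum.inl (uv v)) = av v := by
  simp only [fc, uv, av]
  refine Prod.ext ?_ ?_ <;> simp only <;> ring

lemma fc_uf (f : ℤ × ℤ) : fc (Sum.inr (uf f)) = af f := by
  simp only [fc, uf, af]; ext <;> simp <;> ring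

lemma bl_eq (x : Hgt × Mk) : FK.bl x = bl x := by
  ext w
  show (x.1 (e1 w) = 0 ∧ x.1 (e2 w) = 0 ∧ x.2 w = true) ↔
    (x.2 w = true ∧ x.1 (e1 w) = 0 ∧ x.1 (e2 w) = 0)
  tauto

lemma mem_oF_uf {F : Finset (ℤ × ℤ)} {f : ℤ × ℤ} : af f ∈ oF (F.image uf) ↔ f ∈ F := by
  rw [← fc_uf, mem_oF, Finset.mem_image]
  constructor
  · rintro ⟨f', h1, h2⟩
    rw [← uf_uf f, ← h2, uf_uf]
    exact h1
  · intro h
    exact ⟨f, h, rfl⟩

lemma o1_af (w : Pt) : ∃ f, o1 w = af f := by
  obtain ⟨x, y⟩ := w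
  unfold o1
  by_cases h : Even (x + y)
  · rw [if_pos h]
    obtain ⟨k, hk⟩ := h
    refine ⟨(k - 1, x - 1 - k + 1 - 1), ?_⟩
    simp only [af]
    refine Prod.ext ?_ ?_ <;> simp only <;> omega
  · rw [if_neg h]
    rw [Int.not_even_iff_odd] at h
    obtain ⟨k, hk⟩ := h
    refine ⟨(k, x - 1 - k), ?_⟩
    simp only [af]
    refine Prod.ext ?_ ?_ <;> simp only <;> omega

lemma o2_af (w : Pt) : ∃ f, o2 w = af f := by
  obtain ⟨x, y⟩ := w
  unfold o2
  by_cases h : Even (x + y)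
  · rw [if_pos h]
    obtain ⟨k, hk⟩ := h
    refine ⟨(k - 1, x - k), ?_⟩
    simp only [af]
    refine Prod.ext ?_ ?_ <;> simp only <;> omega
  · rw [if_neg h]
    rw [Int.not_even_iff_odd] at h
    obtain ⟨k, hk⟩ := h
    refine ⟨(k - 1, x - 1 - k), ?_⟩
    simp only [af]
    refine Prod.ext ?_ ?_ <;> simp only <;> omega

/-- Paths of odd faces as paths of faces, reversed. -/
lemma path_af {B : Set Pt} {f : ℤ × ℤ} {p : Pt}
    (h : Relation.ReflTransGen (FK.stp B) (af f) p) :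
    ∃ g, p = af g ∧ Relation.ReflTransGen (stp B) g f := by
  induction h with
  | refl => exact ⟨f, rfl, Relation.ReflTransGen.refl⟩
  | @tail a b _ hab ih =>
    obtain ⟨g, rfl, hg⟩ := ih
    obtain ⟨w, hw, h1⟩ := hab
    have hb : ∃ g', b = af g' := by
      rcases h1 with ⟨_, h2⟩ | ⟨_, h2⟩
      · rw [← h2]; exact o2_af w
      · rw [← h2]; exact o1_af w
    obtain ⟨g', rfl⟩ := hb
    refine ⟨g', rfl, Relation.ReflTransGen.head ?_ hg⟩
    refine ⟨w, hw, ?_⟩
    rcases h1 with ⟨h2, h3⟩ | ⟨h2, h3⟩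
    · exact Or.inr ⟨h2, h3⟩
    · exact Or.inl ⟨h3, h2⟩

/-- Elements of the cone are polynomials with nonnegative coefficients. -/
lemma posH_cone {A : Om → ℝ} (hA : Cone A) (r : ℤ × ℤ → ℤ × ℤ) :
    PosH (fun x => A (fun v => vh x (r v))) := by
  induction hA with
  | mon v =>
    induction v with
    | nil => simpa using PosH.const 1 zero_le_one
    | cons u v ih =>
      have h1 := PosH.mul (PosH.smul (c := 1 / 2) (by norm_num) (PosH.ht (r u))) ih
      refine (congrArg PosH ?_).mp h1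
      funext x
      simp only [List.map_cons, List.prod_cons, vh]
      ring
  | zero => exact PosH.const 0 le_rfl
  | add _ _ h1 h2 => exact PosH.add h1 h2
  | smul c hc _ h => exact PosH.smul hc h

/-- **UP**, from the reflection lemma. -/
theorem s_up' {c : ℝ} (hc : 1 ≤ c) {P : Measure (Ori (ℤ × ℤ))} (hP : Pl c P) (hS : Swap c P)
    (hint : S_int c⁻¹ P)
    (hrefl : ∀ (F : Finset (ℤ × ℤ)) (A : Om → ℝ), ze c (F.image uf) (fun x => A (vh x)) =
      ze c F (fun x => A (fun v => vh x (uv v)))) : S_up c c⁻¹ P := by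
  intro F F' g A hFF hg hgm hgZ hA hAF
  obtain ⟨Λ, hΛ, hloc⟩ := hg.loc
  have hA' := posH_cone hA uv
  have hdep : Dep (F.image uf) (fun x => A (fun v => vh x (uv v))) := by
    intro x x' h
    refine hAF _ _ fun v hv => ?_
    unfold vh
    rw [h]
    rintro f ⟨a, b, ha, hb, hvf⟩
    rw [Finset.mem_image]
    refine ⟨uf f, ?_, uf_uf f⟩
    have h1 : f.1 = v.1 - a := by have := congrArg Prod.fst hvf; simp only [uv] at this; omega
    have h2 : f.2 = -v.2 - b := by have := congrArg Prod.snd hvf; simp only [uv] at this; omega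
    have h3 : uf f = (v.1 - a, v.2 + b - 1) := by
      unfold uf
      refine Prod.ext ?_ ?_ <;> simp only <;> omega
    rw [h3]
    obtain ⟨q1, q2, q3, q4⟩ := hv
    rcases ha with rfl | rfl <;> rcases hb with rfl | rfl
    · have : ((v.1 - 0, v.2 + 0 - 1) : ℤ × ℤ) = (v.1, v.2 - 1) := by ext <;> simp
      rw [this]; exact_mod_cast q3
    · have : ((v.1 - 0, v.2 + 1 - 1) : ℤ × ℤ) = v := by ext <;> simp
      rw [this]; exact_mod_cast q1
    · have : ((v.1 - 1, v.2 + 0 - 1) : ℤ × ℤ) = (v.1 - 1, v.2 - 1) := by ext <;> simp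
      rw [this]; exact_mod_cast q4
    · have : ((v.1 - 1, v.2 + 1 - 1) : ℤ × ℤ) = (v.1 - 1, v.2) := by ext <;> simp
      rw [this]; exact_mod_cast q2
  have hAdm : FK.Adm (F.image uf) (F'.image uf) g := by
    refine ⟨hg.nonneg, hgm, ⟨Λ, hloc⟩, ?_, ?_⟩
    · intro S S' h
      refine hloc S S' fun w hw => h w ?_
      rintro ⟨h1, h2⟩
      apply hΛ w hw
      obtain ⟨f1, e1⟩ := o1_af w
      obtain ⟨f2, e2⟩ := o2_af w
      rw [e1, mem_oF_uf] at h1
      rw [e2, mem_oF_uf] at h2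
      exact ⟨f1, h1, f2, h2, e1, e2⟩
    · intro S hSg f hf p hp
      rw [Finset.mem_image] at hf
      obtain ⟨f', hf', rfl⟩ := hf
      rw [fc_uf] at hp
      obtain ⟨g', rfl, hpath⟩ := path_af hp
      rw [mem_oF_uf]
      by_contra hg'
      exact hgZ S hSg g' (fun h => hg' (by exact_mod_cast h)) f' hpath (by exact_mod_cast hf')
  have hval : ∀ x : Hgt × Mk, A (fun v => vh (fun s => x.1 (fc s)) (uv v)) = A (vm x.1) := by
    intro x
    congr 1
    funext v
    unfold vh vm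
    simp only
    rw [fc_uv]
  have i0 : Integrable (fun x => g (FK.bl x)) (MU c⁻¹ P) := by
    have := hint g (fun _ => 1) ⟨Λ, fun w _ => mem_univ w, hloc⟩ hg.pin
      (by simpa using (Pol.mon (P := fun _ => True) []))
    simp only [mul_one] at this
    simp only [bl_eq]
    exact this
  have i1 : Integrable (fun x => g (FK.bl x) * A (fun v => vh (fun s => x.1 (fc s)) (uv v)))
      (MU c⁻¹ P) := by
    simp only [bl_eq, hval]
    refine hint g A ⟨Λ, fun w _ => mem_univ w, hloc⟩ hg.pin ?_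
    exact hA.alg
  have key := (MU_sandwich hc hP hS (F₁ := F.image uf) (F₂ := F'.image uf)
    (Finset.image_subset_image hFF) hAdm hA' hdep i0 i1).1
  simp only [bl_eq, hval] at key
  have e1 := hrefl F' (fun ω => A (fun v => ω (uv v)))
  have e2 : (fun x : Site → ℤ => (fun ω : Om => A (fun v => ω (uv v))) (fun v => vh x (uv v))) =
      fun x => A (vh x) := by
    funext x
    simp only [uv_uv]
  rw [e2] at e1
  unfold II
  rw [← e1]
  simp only [mul_one]
  exact key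

/-- **UP.** -/
theorem s_up {c : ℝ} (hc : 1 ≤ c) {P : Measure (Ori (ℤ × ℤ))} (hP : Pl c P) (hS : Swap c P)
    (hint : S_int c⁻¹ P) : S_up c c⁻¹ P :=
  s_up' hc hP hS hint fun F A => ze_rv c F A

end Vale.Agent.P145.X
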