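import Vale.Agent.P145.X.FrB
import Vale.Agent.P145.X.SdH
import Vale.Agent.P145.X.XstA
import Vale.Agent.P145.X.Dec
import Vale.Agent.P145.X.DecM
import Vale.Agent.P145.X.Mb
import Vale.Agent.P145.X.MmH
import Vale.Agent.P145.X.LowCM
import Vale.Agent.P145.X.LowExt
import Vale.Agent.P145.X.UpS
import Vale.Agent.P145.X.Cnt2
import Vale.Agent.P145.X.MomU
import Vale.Agent.P145.X.Geom
import Vale.Agent.P145.X.Conf
import Vale.Agent.P145.X.Far
import Vale.Agent.P145.X.Loc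
import Vale.Agent.P145.X.Int
import Vale.Agent.P145.X.AvgX
import Vale.Agent.P145.X.Gap
import Vale.Agent.P145.X.SPos
import Vale.Agent.P145.X.Rsw
import Vale.Agent.P145.FA.PlC
import Vale.Agent.P145.FB.AsPl
import Vale.Agent.P145.FB.Arm
import Vale.Agent.P145.FB.R1
import Vale.Agent.P145.FK.Mono
import Vale.Agent.P145.Top.Out

/-!
P145, block X: the assembly, from the properties `PlIn` of the plane measure.
-/

namespace Vale.Agent.P145.X

open Filter Topology Set MeasureTheory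
open Vale.Agent.P152 (Ori Ice Edge)
open Vale.Agent.P145.FA (PlIn)
open Vale.Agent.P145.FB (Assoc J Ann SQ)

namespace PL

variable {c κ : ℝ} {P : Measure (Ori (ℤ × ℤ))}

theorem ct (hc : 1 ≤ c) : c * (1 / c) = 1 := by
  have : c ≠ 0 := by linarith
  field_simp

theorem t1 (hc : 1 ≤ c) : 1 / c ≤ 1 := by
  rw [div_le_one (by linarith)]; exact hc

theorem th (hc : 1 ≤ c) (hc2 : c ≤ 2) : 1 / 2 ≤ 1 / c :=
  one_div_le_one_div_of_le (by linarith) hc2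

theorem harm (hc : 1 ≤ c) (h : PlIn c P κ) : ∀ ε > 0, ∀ M0 : ℤ, ∃ M : ℤ, M0 ≤ M ∧
    ∃ s0 : ℤ, ∀ s : ℤ, s0 ≤ s → (J (1 / c) P).real {x | FB.Arm s (2 * M * s) (FB.SP x)} < ε := by
  have := h.prob
  exact FB.harm_of (by linarith) (ct hc) (t1 hc) h.ice h.swap h.ac

theorem assoc (hc : 1 ≤ c) (hc2 : c ≤ 2) (h : PlIn c P κ) : Assoc (1 / c) P := by
  have := h.prob
  exact FB.assoc_pl hc hc2 h.box h.isP h.ice

/-- **(R1)**: circuits. -/
theorem circ (hc : 1 ≤ c) (hc2 : c ≤ 2) (h : PlIn c P κ) :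
    ∃ c' : ℝ, 0 < c' ∧ ∃ r0 : ℤ, ∀ r : ℤ, r0 ≤ r → ∀ p q : ℤ,
      c' ≤ (J (1 / c) P).real {x | Ann p q r (SQ x)} := by
  have := h.prob
  exact FB.r1_circ h.symM h.ice (th hc hc2) (t1 hc) (assoc hc hc2 h) (harm hc h)

theorem int (h : PlIn c P κ) : S_int (1 / c) P := by
  have := h.prob
  exact s_int _ P

theorem avg (h : PlIn c P κ) : S_avg (1 / c) P := by
  have := h.prob
  exact s_avg _ P

theorem low (hc : 1 ≤ c) (hc2 : c ≤ 2) (h : PlIn c P κ) : S_low c (1 / c) P :=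
  s_low (ct hc) hc hc2 h.box h.pl h.isP (int h)

theorem ext (hc : 1 ≤ c) (hc2 : c ≤ 2) (h : PlIn c P κ) : S_ext (1 / c) P :=
  s_ext (ct hc) hc hc2 h.box h.pl h.isP (int h)

theorem up (hc : 1 ≤ c) (h : PlIn c P κ) : S_up c (1 / c) P := by
  have hi := int h
  rw [one_div] at hi ⊢
  exact s_up hc h.pl h.swap hi

theorem pos (hc : 1 ≤ c) (hc2 : c ≤ 2) (h : PlIn c P κ) : S_pos (1 / c) P := by
  have := h.prob
  exact s_pos h.ice (assoc hc hc2 h) (circ hc hc2 h)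

theorem rsw (hc : 1 ≤ c) (hc2 : c ≤ 2) (h : PlIn c P κ) : S_rsw (1 / c) P := by
  have := h.prob
  exact s_rsw h.symM h.ice (th hc hc2) (t1 hc) (assoc hc hc2 h) (harm hc h)

theorem cnt (hc : 1 ≤ c) (hc2 : c ≤ 2) (h : PlIn c P κ) : S_cnt (1 / c) P := by
  have := h.prob
  obtain ⟨C, hC, γ, hγ, hE⟩ := h.egd
  exact s_cnt_egd (by linarith) (ct hc) (t1 hc) h.ice h.swap hC.le hγ hE h.inv (rsw hc hc2 h)

theorem gap (hc : 1 ≤ c) (hc2 : c ≤ 2) (h : PlIn c P κ) : S_gap (1 / c) P :=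
  s_gap (ext hc hc2 h) (cnt hc hc2 h) s_conf s_loc (int h) (rsw hc hc2 h)

theorem emom (hc : 1 ≤ c) (hc2 : c ≤ 2) (h : PlIn c P κ) : S_emom (1 / c) P :=
  s_emom (ext hc hc2 h) s_conf s_loc

theorem mom (hc : 1 ≤ c) (hc2 : c ≤ 2) (h : PlIn c P κ) : S_mom (1 / c) P := by
  have := h.prob
  obtain ⟨C, hC, γ, hγ, hE⟩ := h.egd
  exact s_mom hc (ct hc) h.hyp h.swap hC.le hγ hE h.symM (low hc hc2 h) (int h) s_loc

theorem lowc (hc : 1 ≤ c) (hc2 : c ≤ 2) (h : PlIn c P κ) : S_lowc c (1 / c) P :=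
  s_lowc (ct hc) hc hc2 h.box h.pl h.isP (int h)

theorem mm (hc : 1 ≤ c) (h : PlIn c P κ) {δ : ℕ → ℝ} (hδ : ∀ n, 0 < δ n)
    (hlim : Tendsto δ atTop (𝓝 0)) : S_mm (1 / c) P δ := by
  have := h.prob
  obtain ⟨C, hC, γ, hγ, hE⟩ := h.egd
  exact s_mm (by linarith) (ct hc) (t1 hc) h.hyp h.swap hC.le hγ hE h.symM hδ hlim

/-- All the inputs of the identification of the limit. -/
theorem inputs (hc : 1 ≤ c) (hc2 : c ≤ 2) (h : PlIn c P (4 * κ)) {δ : ℕ → ℝ}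
    (hδ : ∀ n, 0 < δ n) (hlim : Tendsto δ atTop (𝓝 0)) :
    Top.S_mb c δ ∧ Top.S_l2 c δ ∧ Top.S_dec c δ ∧ Top.S_xst c κ δ := by
  have c0 : 0 < c := by linarith
  have hm : Top.S_mono c := FK.s_mono hc
  have hr := rsw hc hc2 h
  have hg := gap hc hc2 h
  have hl := low hc hc2 h
  have hmm := mm hc h hδ hlim
  have hmb : Top.S_mb c δ := s_mb c0 hδ hlim hl hmm hr s_loc
  have hl2 : Top.S_l2 c δ := s_l2 c0 hδ hlim hl hmm hr s_loc
  refine ⟨hmb, hl2, s_dec hc (int h) hl (lowc hc hc2 h) hg (mom hc hc2 h) hr s_loc s_conf hδ hlim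
    hmb, xst_of_xst0 c0 hδ hm hmb hl2 ?_⟩
  exact xst0_of' c0 hδ hlim hm (int h) hl (up hc h) s_loc hr hg (pos hc hc2 h) (emom hc hc2 h) hmm
    (s_geom s_conf) far (sdH_of h.pl h.grp h.hyp h.clt (avg h) (int h) s_loc hδ hlim)

/-- The scaling limit in all Jordan domains, from the properties of the plane measure. -/
theorem conv (hc : 1 ≤ c) (hc2 : c ≤ 2) (h : PlIn c P κ) {s : ℝ}
    (hs : κ = s ^ 2 * (8 * Real.pi)) :
    ∀ D : Set (ℝ × ℝ), Dom.JordanDomain D → Dom.Conv (1 / c) s D := by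
  have e : 1 / (1 / c) = c := one_div_one_div c
  have c0 : 0 < c := by linarith
  have hκ := h.κpos
  have e2 : 4 * (κ / 4) = κ := by ring
  refine Top.conv_of_inputs (κ := κ / 4) (by positivity) (by rw [hs]; ring) (by positivity) ?_
    ?_ Top.s_out
  · rw [e]; exact FK.s_mono hc
  · intro δ hδ hlim
    rw [e]
    exact inputs hc hc2 (by rw [e2]; exact h) hδ hlim

end PL

/-- **Scaling limit in all Jordan domains**, `1 ≤ c ≤ 2`, up to the value of the constant. -/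
theorem conv_exists {c : ℝ} (hc : 1 ≤ c) (hc2 : c ≤ 2) : ∃ κ : ℝ, 0 < κ ∧
    ∀ s : ℝ, κ = s ^ 2 * (2 * Real.pi) →
      ∀ D : Set (ℝ × ℝ), Dom.JordanDomain D → Dom.Conv (1 / c) s D := by
  obtain ⟨P, κ, h⟩ := FA.exists_plIn hc hc2
  have hκ := h.κpos
  exact ⟨κ / 4, by positivity, fun s hs => PL.conv hc hc2 h (by linarith)⟩

end Vale.Agent.P145.X
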