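import Vale.Agent.P145.FA.Grn
import Vale.Agent.P145.FA.Sd2
import Vale.Agent.P145.PT.Poincare
import Vale.Agent.P145.PT.Moll
import Vale.Agent.P152.GFF.GenV

/-!
P145: the stiffness in the Gaussian limit is determined by the law of the limit.
-/

set_option autoImplicit false

namespace Vale.Agent.P145.X

open Filter Topology Set MeasureTheory ProbabilityTheory Matrix
open Vale.Agent.P152 (Ori Ice pth IsLimit IsHeight)
open Vale.Agent.P152.GFF.S (Test gffCov hint)
open Vale.Agent.P145.PT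
open Vale.Agent.P145.FA (CLT)

/-- A test function of positive energy. -/
theorem exists_test_pos : ∃ F : ℝ × ℝ → ℝ, Test F ∧ 0 < gffCov F F := by
  have hb : TestOn (Metric.closedBall (0 : ℝ × ℝ) 1) (bump 1 0) := bump_test one_pos Subset.rfl
  refine ⟨fun x => - lap (bump 1 0) x, ⟨(hb.lap.neg).1, (hb.lap.neg).2.1, ?_⟩, ?_⟩
  · rw [integral_neg, FA.int_lap hb.1 hb.2.1, neg_zero]
  · rw [FA.green_lap hb.1 hb.2.1 (hb.lap.neg).cont (hb.lap.neg).cs]
    have e : ∫ x, bump 1 0 x * (- lap (bump 1 0) x) = energy (bump 1 0) := by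
      rw [energy_eq hb, ← integral_neg]
      refine integral_congr_ae (Eventually.of_forall fun x => ?_)
      simp only
      ring
    rw [e]
    by_contra h
    push Not at h
    have h0 : energy (bump 1 0) = 0 := le_antisymm h (energy_nonneg _)
    have hdx : ∫ z, dx (bump 1 0) z ^ 2 ≤ energy (bump 1 0) := by
      unfold energy
      refine integral_mono hb.dx.intSq hb.intE fun z => ?_
      have := sq_nonneg (dy (bump 1 0) z)
      simp only
      linarith
    have hp := poincare (R := 1) (D := Metric.closedBall (0 : ℝ × ℝ) 1) (fun z hz => by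
      rw [mem_closedBall_zero_iff, Prod.norm_def, max_le_iff, Real.norm_eq_abs] at hz
      exact hz.1) hb
    have h2 : ∫ z, bump 1 0 z ^ 2 ≤ 0 := by nlinarith
    have h3 : ∫ z, bump 1 0 z ^ 2 = 0 := le_antisymm h2 (integral_nonneg fun z => sq_nonneg _)
    have h4 : (fun z : ℝ × ℝ => bump 1 0 z ^ 2) =ᵐ[volume] 0 :=
      (integral_eq_zero_iff_of_nonneg (fun z => sq_nonneg _) hb.intSq).1 h3
    have h5 : ∫ z, bump 1 0 z = 0 := by
      rw [integral_eq_zero_of_ae]
      filter_upwards [h4] with z hz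
      have : bump 1 0 z ^ 2 = 0 := hz
      exact pow_eq_zero_iff (two_ne_zero) |>.1 this
    rw [bump_int one_pos] at h5
    exact one_ne_zero h5

/-- The stiffness is determined by the limit in law. -/
theorem kappa_eq {P : Measure (Ori (ℤ × ℤ))} [IsProbabilityMeasure P] {κ κ' : ℝ}
    (hice : ∀ᵐ ω ∂P, ∀ x y, Ice ω x y) (hclt : CLT P κ)
    (H : ∀ h : Ori (ℤ × ℤ) → ℤ × ℤ → ℤ, (∀ᵐ ω ∂P, IsHeight ω (h ω)) →
      ∀ (m : ℕ) (f : Fin m → ℝ × ℝ → ℝ), (∀ j, Test (f j)) →
        (Matrix.of (fun i j => κ' * gffCov (f i) (f j))).PosSemidef ∧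
        TendstoInDistribution (fun (δ : ℝ) (ω : Ori (ℤ × ℤ)) =>
          (WithLp.toLp 2 (fun j => hint (h ω) δ (f j)) : EuclideanSpace ℝ (Fin m))) (𝓝[>] 0)
          (id : EuclideanSpace ℝ (Fin m) → EuclideanSpace ℝ (Fin m)) (fun _ => P)
          (multivariateGaussian 0 (Matrix.of (fun i j => κ' * gffCov (f i) (f j))))) :
    κ = κ' := by
  obtain ⟨F, hF, hpos⟩ := exists_test_pos
  have hht : ∀ᵐ ω ∂P, IsHeight ω (pth ω) := by
    filter_upwards [hice] with ω hω
    exact P152.pth_isHeight hω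
  obtain ⟨hpsd, hX⟩ := H (fun ω => pth ω) hht 1 (fun _ => F) (fun _ => hF)
  set u : ℕ → ℝ := fun n => 1 / ((n : ℝ) + 1) with hu
  have hut : Tendsto u atTop (𝓝[>] 0) :=
    tendsto_nhdsWithin_iff.2 ⟨tendsto_one_div_add_atTop_nhds_zero_nat,
      Eventually.of_forall fun n => by
        show (0 : ℝ) < 1 / ((n : ℝ) + 1)
        positivity⟩
  set t : EuclideanSpace ℝ (Fin 1) := WithLp.toLp 2 (fun _ => 1) with ht
  have h1 := ProbabilityMeasure.tendsto_iff_tendsto_charFun.1 (hX.tendsto.comp hut) t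
  have hid : (multivariateGaussian 0 (Matrix.of (fun _ _ : Fin 1 => κ' * gffCov F F))).map
      (id : EuclideanSpace ℝ (Fin 1) → EuclideanSpace ℝ (Fin 1)) =
      multivariateGaussian 0 (Matrix.of (fun _ _ : Fin 1 => κ' * gffCov F F)) := Measure.map_id
  simp only [ProbabilityMeasure.coe_mk, hid] at h1
  rw [charFun_multivariateGaussian hpsd] at h1
  have h2 := (hclt F hF).comp hut
  have h3 : Tendsto (fun n => ∫ ω, Complex.exp (Complex.I * (hint (pth ω) (u n) F : ℂ)) ∂P) atTop
      (𝓝 (Complex.exp (((inner ℝ t (0 : EuclideanSpace ℝ (Fin 1)) : ℝ) : ℂ) * Complex.I -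
        ((t : Fin 1 → ℝ) ⬝ᵥ (Matrix.of (fun _ _ : Fin 1 => κ' * gffCov F F)).mulVec t : ℝ) / 2))) := by
    refine h1.congr fun n => ?_
    change charFun (P.map (fun ω : Ori (ℤ × ℤ) =>
      (WithLp.toLp 2 (fun _ => hint (pth ω) (u n) F) : EuclideanSpace ℝ (Fin 1)))) t =
      ∫ ω, Complex.exp (Complex.I * (hint (pth ω) (u n) F : ℂ)) ∂P
    rw [charFun_apply, integral_map (hX.forall_aemeasurable (u n)) (by fun_prop)]
    refine integral_congr_ae (ae_of_all _ fun ω => ?_)
    simp only [ht]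
    rw [mul_comm]
    congr 3
    simp [PiLp.inner_apply]
  have h4 := tendsto_nhds_unique h2 h3
  have e1 : ((t : Fin 1 → ℝ) ⬝ᵥ (Matrix.of (fun _ _ : Fin 1 => κ' * gffCov F F)).mulVec t : ℝ) =
      κ' * gffCov F F := by
    simp [ht, Matrix.mulVec, dotProduct]
  rw [e1, inner_zero_right] at h4
  have h5 : Complex.exp (((-(κ / 2 * gffCov F F) : ℝ) : ℂ)) =
      Complex.exp (((-(κ' * gffCov F F / 2) : ℝ) : ℂ)) := by
    refine Eq.trans ?_ (h4.trans ?_)
    · congr 1
      push_cast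
      ring
    · congr 1
      push_cast
      ring
  rw [← Complex.ofReal_exp, ← Complex.ofReal_exp] at h5
  have h6 := Real.exp_injective (Complex.ofReal_injective h5)
  have h7 : κ * gffCov F F = κ' * gffCov F F := by linarith
  exact mul_right_cancel₀ hpos.ne' h7

end Vale.Agent.P145.X
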