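import Vale.Agent.P145.FA.PlC
import Vale.Agent.P145.FK.Mono
import Vale.Agent.P145.Top.Final
import Vale.Agent.P145.Top.Out
import Vale.Agent.P145.FP.Main
import Vale.Agent.P152.GFF.GenV
import Vale.Agent.P145.X.ValB

/-!
P145: the constants of the final theorem in Jordan domains: from the inputs of the block Top for
the plane measure with weights `1, 1, c` and the value `1 / arcsin (c / 2)` of the stiffness to the
convergence at the points `(J, U)` of the self-dual line.
-/

set_option autoImplicit false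

namespace Vale.Agent.P145.X

open Filter Topology Set MeasureTheory
open Vale.Agent.P152 (Ori)
open Vale.Agent.P145.FA (PlIn)
open Vale.Agent.P145.Dom (JordanDomain Conv)

/-- The inputs of the block Top hold for the plane measure with stiffness `4 κ`. -/
def InOK (c : ℝ) : Prop := ∀ (P : Measure (Ori (ℤ × ℤ))) (κ : ℝ), PlIn c P (4 * κ) →
  ∀ δ : ℕ → ℝ, (∀ n, 0 < δ n) → Tendsto δ atTop (𝓝 0) →
    Top.S_mb c δ ∧ Top.S_l2 c δ ∧ Top.S_dec c δ ∧ Top.S_xst c κ δ

/-- The value of the stiffness. -/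
def Val (c : ℝ) : Prop := ∀ (P : Measure (Ori (ℤ × ℤ))) (κ : ℝ), PlIn c P κ →
  κ = 1 / Real.arcsin (c / 2)

theorem val_of {c : ℝ} (h : P152.GFF.Val c) : Val c :=
  fun P κ hP => h P hP.pln hP.chP κ hP.κpos.le hP.varLim

/-- The value of the stiffness, from the value for one plane limit. -/
theorem val_of_plane {c : ℝ} {P' : Measure (Ori (ℤ × ℤ))} [IsProbabilityMeasure P']
    (hlim : P152.IsLimit c P')
    (hv : ∀ κ : ℝ, 0 < κ → P152.GFF.VarLim P' κ → κ = 1 / Real.arcsin (c / 2)) : Val c := by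
  intro P κ h
  have := h.prob
  have e : P = P' := FP.limit_unique h.lim hlim
  subst e
  exact hv κ h.κpos h.varLim

/-- The value of the stiffness, from the final theorem on the six-vertex model. -/
theorem val_of_mainV {c : ℝ} (h : P152.GFF.MainV c) : Val c := by
  obtain ⟨P', hP', hlim', -, H⟩ := h
  intro P κ hp
  have := hp.prob
  have e : P = P' := FP.limit_unique hp.lim hlim'
  subst e
  exact kappa_eq hp.ice hp.clt H

/-- Convergence, in terms of `c`. -/
theorem conv_c {c : ℝ} (hc : 1 ≤ c) (hc2 : c ≤ 2) (hL : InOK c) (hV : Val c) {s : ℝ}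
    (hs : 1 / (4 * Real.arcsin (c / 2)) = s ^ 2 * (2 * Real.pi)) :
    ∀ D : Set (ℝ × ℝ), JordanDomain D → Conv c⁻¹ s D := by
  have hc0 : 0 < c := by linarith
  obtain ⟨P, κ, h⟩ := FA.exists_plIn hc hc2
  have hval := hV P κ h
  have hκ := h.κpos
  have h' : PlIn c P (4 * (κ / 4)) := by
    have e : 4 * (κ / 4) = κ := by ring
    rw [e]; exact h
  have e1 : (1 : ℝ) / c⁻¹ = c := by rw [one_div, inv_inv]
  have hs' : κ / 4 = s ^ 2 * (2 * Real.pi) := by
    rw [← hs, hval, div_div, mul_comm]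
  refine Top.conv_of_inputs (inv_pos.2 hc0) hs' (by linarith) ?_ ?_ Top.s_out
  · rw [e1]; exact FK.s_mono hc
  · rw [e1]
    exact fun δ hδ hl => hL P (κ / 4) h' δ hδ hl

/-- Convergence at the points of the self-dual line, in terms of `U`. -/
theorem conv_U {U : ℝ} (hU : Real.exp (4 * U) ≤ 3) (hL : InOK √(1 + Real.exp (4 * U)))
    (hV : Val √(1 + Real.exp (4 * U))) {t g : ℝ} (ht : t = (1 + Real.exp (4 * U)) ^ (-(1 / 2) : ℝ))
    (hg : g = 8 / Real.pi * Real.arcsin (√(1 + Real.exp (4 * U)) / 2)) :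
    ∀ D : Set (ℝ × ℝ), JordanDomain D → Conv t (1 / (Real.pi * √g)) D := by
  have h0 : 0 < Real.exp (4 * U) := Real.exp_pos _
  have hc : 1 ≤ √(1 + Real.exp (4 * U)) := by
    rw [Real.one_le_sqrt]; linarith
  have hc2 : √(1 + Real.exp (4 * U)) ≤ 2 := by
    rw [Real.sqrt_le_left (by norm_num)]; linarith
  have htc : t = (√(1 + Real.exp (4 * U)))⁻¹ := by
    rw [ht, Real.rpow_neg (by linarith), Real.sqrt_eq_rpow]
  have ha : 0 < Real.arcsin (√(1 + Real.exp (4 * U)) / 2) := Real.arcsin_pos.2 (by linarith)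
  have hpi := Real.pi_pos
  have hg0 : 0 < g := by rw [hg]; positivity
  rw [htc]
  refine conv_c hc hc2 hL hV ?_
  rw [div_pow, mul_pow, Real.sq_sqrt hg0.le, one_pow, hg]
  field_simp
  ring

/-- **The theorem on the self-dual line**, from `InOK` and `Val`. -/
theorem main_of (hL : ∀ c : ℝ, 1 < c → c ≤ 2 → InOK c) (hV : ∀ c : ℝ, 1 < c → c ≤ 2 → Val c)
    (J U : ℝ) (hUJ : U ≤ J) (hself : Real.sinh (2 * J) = Real.exp (-2 * U)) (t g : ℝ)
    (ht : t = (1 + Real.exp (4 * U)) ^ (-(1 / 2) : ℝ))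
    (hg : g = 8 / Real.pi * Real.arcsin (√(1 + Real.exp (4 * U)) / 2)) :
    ∀ D : Set (ℝ × ℝ), JordanDomain D → Conv t (1 / (Real.pi * √g)) D := by
  have h0 : 0 < Real.exp (4 * U) := Real.exp_pos _
  have hU := FP.exp_le_three hUJ hself
  have hc : 1 < √(1 + Real.exp (4 * U)) := by
    rw [Real.lt_sqrt (by norm_num)]; linarith
  have hc2 : √(1 + Real.exp (4 * U)) ≤ 2 := by
    rw [Real.sqrt_le_left (by norm_num)]; linarith
  exact conv_U hU (hL _ hc hc2) (hV _ hc hc2) ht hg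

/-- The statement for `U < 0`. -/
theorem mainNeg_of (hL : ∀ c : ℝ, 1 < c → c ^ 2 < 2 → InOK c)
    (hV : ∀ c : ℝ, 1 < c → c ^ 2 < 2 → Val c) : Dom.Main := by
  intro J U hJ hU hself t g ht hg
  have h0 : 0 < Real.exp (4 * U) := Real.exp_pos _
  have h1 : Real.exp (4 * U) < 1 := by
    rw [← Real.exp_zero]
    exact Real.exp_lt_exp.2 (by linarith)
  have hc : 1 < √(1 + Real.exp (4 * U)) := by
    rw [Real.lt_sqrt (by norm_num)]; linarith
  have hc2 : √(1 + Real.exp (4 * U)) ^ 2 < 2 := by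
    rw [Real.sq_sqrt (by linarith)]; linarith
  exact conv_U (by linarith) (hL _ hc hc2) (hV _ hc hc2) ht hg

end Vale.Agent.P145.X
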