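import Vale.Agent.P145.X.Stmt

/-!
P145, block F-X: locality of the circuit event (`S_loc`).
-/

namespace Vale.Agent.P145.X

open Relation
open Vale.Agent.P145.FB (Pt fine Ann NN NC LRc BTc rc vx o1 o2)

/-- The edges at the odd points of `R`. -/
def oE (R : Set Pt) : Set Pt := vx '' {z | z ∈ R ∧ Odd (z.1 + z.2)}

theorem nn_parity {u v : Pt} (h : NN u v) : Odd (u.1 + u.2) ↔ ¬ Odd (v.1 + v.2) := by
  unfold NN at h
  rw [Int.odd_iff, Int.odd_iff]
  omega

theorem nn_symm {u v : Pt} (h : NN u v) : NN v u := by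
  unfold NN at h ⊢
  omega

theorem fine_odd {B : Set Pt} {u : Pt} (h : u ∈ fine B) (ho : Odd (u.1 + u.2)) : vx u ∈ B := by
  rcases h with h | ⟨h1, h2, -⟩
  · exact h.2
  · rw [Int.odd_iff] at ho
    rw [Int.even_iff] at h1 h2
    omega

theorem fine_even {B : Set Pt} {u : Pt} (h : u ∈ fine B) (ho : ¬ Odd (u.1 + u.2)) :
    Even u.1 ∧ Even u.2 := by
  rcases h with h | ⟨h1, h2, -⟩
  · exact absurd h.1 ho
  · exact ⟨h1, h2⟩

/-- Both ends of a step inside `R` are seen by the edges of `R`. -/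
theorem loc_step {B : Set Pt} {R : Set Pt} {u v : Pt} (hu : u ∈ fine B ∩ R)
    (hv : v ∈ fine B ∩ R) (huv : NN u v) :
    u ∈ fine (B ∩ oE R) ∩ R ∧ v ∈ fine (B ∩ oE R) ∩ R := by
  have key : ∀ u v : Pt, u ∈ fine B ∩ R → v ∈ fine B ∩ R → NN u v → Odd (u.1 + u.2) →
      u ∈ fine (B ∩ oE R) ∩ R ∧ v ∈ fine (B ∩ oE R) ∩ R := by
    intro u v hu hv huv ho
    have h1 : vx u ∈ B ∩ oE R := ⟨fine_odd hu.1 ho, u, ⟨hu.2, ho⟩, rfl⟩
    have h2 := fine_even hv.1 ((nn_parity huv).1 ho)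
    exact ⟨⟨Or.inl ⟨ho, h1⟩, hu.2⟩, Or.inr ⟨h2.1, h2.2, u, nn_symm huv, h1⟩, hv.2⟩
  by_cases ho : Odd (u.1 + u.2)
  · exact key u v hu hv huv ho
  · have ho' : Odd (v.1 + v.2) := by
      by_contra hc
      exact ho ((nn_parity huv).2 hc)
    exact (key v u hv hu (nn_symm huv) ho').symm

theorem loc_path {B : Set Pt} {R : Set Pt} {x y : Pt} (h : NC (fine B ∩ R) x y) (hxy : x ≠ y) :
    NC (fine (B ∩ oE R) ∩ R) x y := by
  obtain ⟨hx, h⟩ := h
  have key : y ∈ fine B ∩ R ∧ (x = y ∨ NC (fine (B ∩ oE R) ∩ R) x y) := by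
    clear hxy
    induction h with
    | refl => exact ⟨hx, Or.inl rfl⟩
    | @tail u v _ huv ih =>
      obtain ⟨hu, ih⟩ := ih
      obtain ⟨h1, h2⟩ := loc_step hu huv.2 huv.1
      refine ⟨huv.2, Or.inr ?_⟩
      rcases ih with rfl | ih
      · exact ⟨h1, ReflTransGen.single ⟨huv.1, h2⟩⟩
      · exact ⟨ih.1, ih.2.tail ⟨huv.1, h2⟩⟩
  rcases key.2 with h1 | h1
  · exact absurd h1 hxy
  · exact h1

theorem nc_mono {S T : Set Pt} (h : S ⊆ T) {x y : Pt} (hxy : NC S x y) : NC T x y :=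
  ⟨h hxy.1, hxy.2.lift id fun _ _ huv => ⟨huv.1, h huv.2⟩⟩

theorem LRc_loc {B B' : Set Pt} {a b c d : ℤ} (hab : a < b) (h : LRc a b c d (fine B))
    (hB : B ∩ oE (rc a b c d) ⊆ B') : LRc a b c d (fine B') := by
  obtain ⟨x, y, h1, h2, h3⟩ := h
  refine ⟨x, y, nc_mono (Set.inter_subset_inter_left _ (FB.fine_mono hB)) (loc_path h1 ?_), h2, h3⟩
  rintro rfl
  omega

theorem BTc_loc {B B' : Set Pt} {a b c d : ℤ} (hcd : c < d) (h : BTc a b c d (fine B))
    (hB : B ∩ oE (rc a b c d) ⊆ B') : BTc a b c d (fine B') := by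
  obtain ⟨x, y, h1, h2, h3⟩ := h
  refine ⟨x, y, nc_mono (Set.inter_subset_inter_left _ (FB.fine_mono hB)) (loc_path h1 ?_), h2, h3⟩
  rintro rfl
  omega

theorem rc_finite (a b c d : ℤ) : (rc a b c d).Finite := by
  refine ((Set.finite_Icc (2 * a) (2 * b)).prod (Set.finite_Icc (2 * c) (2 * d))).subset ?_
  intro z hz
  obtain ⟨h1, h2, h3, h4⟩ := hz
  exact ⟨⟨h1, h2⟩, h3, h4⟩

theorem oE_finite (a b c d : ℤ) : (oE (rc a b c d)).Finite :=
  ((rc_finite a b c d).subset fun _ hz => hz.1).image _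

/-- The faces next to a horizontal edge. -/
theorem vx_hor {z : Pt} (h1 : Odd z.1) (h2 : Even z.2) :
    o1 (vx z) = af ((z.1 - 1) / 2, z.2 / 2 - 1) ∧ o2 (vx z) = af ((z.1 - 1) / 2, z.2 / 2) := by
  obtain ⟨x, hx⟩ := h1
  obtain ⟨y, hy⟩ := h2
  have e : vx z = (x + y + 1, x - y + 1) := by
    unfold vx
    exact Prod.ext (by simp only; omega) (by simp only; omega)
  have he : Even ((x + y + 1) + (x - y + 1)) := ⟨x + 1, by ring⟩
  rw [e]
  unfold o1 o2 af
  simp only [he, if_true, Prod.mk.injEq]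
  omega

/-- The faces next to a vertical edge. -/
theorem vx_ver {z : Pt} (h1 : Even z.1) (h2 : Odd z.2) :
    o1 (vx z) = af (z.1 / 2, (z.2 - 1) / 2) ∧ o2 (vx z) = af (z.1 / 2 - 1, (z.2 - 1) / 2) := by
  obtain ⟨x, hx⟩ := h1
  obtain ⟨y, hy⟩ := h2
  have e : vx z = (x + y + 1, x - y) := by
    unfold vx
    exact Prod.ext (by simp only; omega) (by simp only; omega)
  have he : ¬ Even ((x + y + 1) + (x - y)) := by
    rw [Int.even_iff]
    omega
  rw [e]
  unfold o1 o2 af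
  simp only [he, if_false, Prod.mk.injEq]
  omega

theorem loc_af_inj {f g : ℤ × ℤ} (h : af f = af g) : f = g := by
  simp only [af, Prod.mk.injEq] at h
  exact Prod.ext (by omega) (by omega)

/-- Edges in a rectangle of the annulus. -/
theorem oE_sub {p : ℤ × ℤ} {r a b c d : ℤ} (ha : p.1 - 2 * r ≤ a)
    (hb : b ≤ p.1 + 2 * r) (hc : p.2 - 2 * r ≤ c) (hd : d ≤ p.2 + 2 * r) (hab : a < b)
    (hcd : c < d) (h : p.1 + r ≤ a ∨ b ≤ p.1 - r ∨ p.2 + r ≤ c ∨ d ≤ p.2 - r) :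
    oE (rc a b c d) ⊆ {w | w ∈ tE (bx p (2 * r)) ∧ w ∉ iE (bx p r)} := by
  rintro w ⟨z, ⟨⟨h1, h2, h3, h4⟩, ho⟩, rfl⟩
  by_cases hz : Odd z.1
  · have hz2 : Even z.2 := by
      rw [Int.odd_iff] at hz ho
      rw [Int.even_iff]
      omega
    obtain ⟨k1, k2⟩ := vx_hor hz hz2
    rw [Int.odd_iff] at hz
    rw [Int.even_iff] at hz2
    constructor
    · by_cases hh : z.2 = 2 * d
      · refine ⟨_, ?_, Or.inl k1⟩
        simp only [bx, Set.mem_ofPred_eq]
        omega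
      · refine ⟨_, ?_, Or.inr k2⟩
        simp only [bx, Set.mem_ofPred_eq]
        omega
    · rintro ⟨f, hf, g, hg, h5, h6⟩
      have e1 := loc_af_inj (k1.symm.trans h5)
      have e2 := loc_af_inj (k2.symm.trans h6)
      rw [← e1] at hf
      rw [← e2] at hg
      simp only [bx, Set.mem_ofPred_eq] at hf hg
      omega
  · have hz1 : Even z.1 := Int.not_odd_iff_even.1 hz
    have hz2 : Odd z.2 := by
      rw [Int.odd_iff] at ho ⊢
      rw [Int.even_iff] at hz1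
      omega
    obtain ⟨k1, k2⟩ := vx_ver hz1 hz2
    rw [Int.even_iff] at hz1
    rw [Int.odd_iff] at hz2
    constructor
    · by_cases hh : z.1 = 2 * b
      · refine ⟨_, ?_, Or.inr k2⟩
        simp only [bx, Set.mem_ofPred_eq]
        omega
      · refine ⟨_, ?_, Or.inl k1⟩
        simp only [bx, Set.mem_ofPred_eq]
        omega
    · rintro ⟨f, hf, g, hg, h5, h6⟩
      have e1 := loc_af_inj (k1.symm.trans h5)
      have e2 := loc_af_inj (k2.symm.trans h6)
      rw [← e1] at hf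
      rw [← e2] at hg
      simp only [bx, Set.mem_ofPred_eq] at hf hg
      omega

theorem Zr_mono {p : ℤ × ℤ} {r : ℤ} {B B' : Set Pt} (h : B ⊆ B') (hZ : Zr p r B) : Zr p r B' := by
  have key : ∀ {S T : Set Pt}, S ⊆ T → Ann p.1 p.2 r S → Ann p.1 p.2 r T := by
    rintro S T hST ⟨⟨x, y, h1, h2⟩, ⟨x', y', h1', h2'⟩, ⟨x₂, y₂, k1, k2⟩, x₃, y₃, k1', k2'⟩
    exact ⟨⟨x, y, nc_mono (Set.inter_subset_inter_left _ hST) h1, h2⟩,
      ⟨x', y', nc_mono (Set.inter_subset_inter_left _ hST) h1', h2'⟩,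
      ⟨x₂, y₂, nc_mono (Set.inter_subset_inter_left _ hST) k1, k2⟩,
      x₃, y₃, nc_mono (Set.inter_subset_inter_left _ hST) k1', k2'⟩
  exact key (FB.fine_mono h) hZ

theorem not_Zr_empty (p : ℤ × ℤ) (r : ℤ) : ¬ Zr p r ∅ := by
  rintro ⟨⟨x, y, ⟨⟨h, -⟩, -⟩, -⟩, -⟩
  rcases h with ⟨-, h⟩ | ⟨-, -, q, -, h⟩ <;> exact h

theorem Zr_loc {p : ℤ × ℤ} {r : ℤ} (hr : 1 ≤ r) {B B' : Set Pt} (hZ : Zr p r B)
    (h : B ∩ (oE (rc (p.1 - 2 * r) (p.1 + 2 * r) (p.2 + r) (p.2 + 2 * r)) ∪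
      oE (rc (p.1 - 2 * r) (p.1 + 2 * r) (p.2 - 2 * r) (p.2 - r)) ∪
      oE (rc (p.1 - 2 * r) (p.1 - r) (p.2 - 2 * r) (p.2 + 2 * r)) ∪
      oE (rc (p.1 + r) (p.1 + 2 * r) (p.2 - 2 * r) (p.2 + 2 * r))) ⊆ B') : Zr p r B' := by
  obtain ⟨h1, h2, h3, h4⟩ := hZ
  refine ⟨LRc_loc (by omega) h1 fun z hz => h ⟨hz.1, Or.inl (Or.inl (Or.inl hz.2))⟩,
    LRc_loc (by omega) h2 fun z hz => h ⟨hz.1, Or.inl (Or.inl (Or.inr hz.2))⟩,
    BTc_loc (by omega) h3 fun z hz => h ⟨hz.1, Or.inl (Or.inr hz.2)⟩,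
    BTc_loc (by omega) h4 fun z hz => h ⟨hz.1, Or.inr hz.2⟩⟩

theorem s_loc : S_loc := by
  intro p r hr
  constructor
  · intro B B' hB
    unfold ind
    split_ifs with h1 h2
    · exact le_rfl
    · exact absurd (Zr_mono hB h1) h2
    · exact zero_le_one
    · exact le_rfl
  · refine ⟨fun B => ?_, ?_, ?_⟩
    · unfold ind
      split_ifs
      · exact zero_le_one
      · exact le_rfl
    · have hfin := (((oE_finite (p.1 - 2 * r) (p.1 + 2 * r) (p.2 + r) (p.2 + 2 * r)).union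
        (oE_finite (p.1 - 2 * r) (p.1 + 2 * r) (p.2 - 2 * r) (p.2 - r))).union
        (oE_finite (p.1 - 2 * r) (p.1 - r) (p.2 - 2 * r) (p.2 + 2 * r))).union
        (oE_finite (p.1 + r) (p.1 + 2 * r) (p.2 - 2 * r) (p.2 + 2 * r))
      refine ⟨hfin.toFinset, ?_, ?_⟩
      · intro w hw
        rw [Set.Finite.mem_toFinset] at hw
        rcases hw with ((hw | hw) | hw) | hw
        · exact oE_sub (by omega) (by omega) (by omega) (by omega) (by omega) (by omega)
            (by omega) hw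
        · exact oE_sub (by omega) (by omega) (by omega) (by omega) (by omega) (by omega)
            (by omega) hw
        · exact oE_sub (by omega) (by omega) (by omega) (by omega) (by omega) (by omega)
            (by omega) hw
        · exact oE_sub (by omega) (by omega) (by omega) (by omega) (by omega) (by omega)
            (by omega) hw
      · intro B B' h
        have key : Zr p r B ↔ Zr p r B' := by
          constructor
          · intro hZ
            exact Zr_loc hr hZ fun z hz => (h z (by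
              rw [Set.Finite.mem_toFinset]; exact hz.2)).1 hz.1
          · intro hZ
            exact Zr_loc hr hZ fun z hz => (h z (by
              rw [Set.Finite.mem_toFinset]; exact hz.2)).2 hz.1
        by_cases hB : Zr p r B
        · unfold ind
          rw [if_pos hB, if_pos (key.1 hB)]
        · unfold ind
          rw [if_neg hB, if_neg fun h => hB (key.2 h)]
    · unfold ind
      rw [if_neg (not_Zr_empty p r)]

end Vale.Agent.P145.X
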