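import Vale.Agent.P145.X.FrB
import Vale.Agent.P145.X.SdH
import Vale.Agent.P145.X.Mb
import Vale.Agent.P145.X.DecM
import Vale.Agent.P145.X.LowCM
import Vale.Agent.P145.X.LowExt
import Vale.Agent.P145.X.MmH
import Vale.Agent.P145.X.Cnt2
import Vale.Agent.P145.X.Gap
import Vale.Agent.P145.X.Far
import Vale.Agent.P145.X.Geom
import Vale.Agent.P145.X.Loc
import Vale.Agent.P145.X.Conf
import Vale.Agent.P145.X.Rsw
import Vale.Agent.P145.X.UpS
import Vale.Agent.P145.X.SPos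
import Vale.Agent.P145.X.AvgX
import Vale.Agent.P145.X.XstA
import Vale.Agent.P145.FB.Main

/-!
P145, block F: all inputs of the interface `Top/Stmt.lean`, from the properties of the plane measure.
-/

namespace Vale.Agent.P145.X

open Filter Topology MeasureTheory
open Vale.Agent.P152 (Ori Ice)
open Vale.Agent.P152.GFF.B3 (IsP)
open Vale.Agent.P145.FA (Pl BoxLim GRP mu0 pb dX dY dD dA RX RY RD RA CLT)
open Vale.Agent.P145.FB
open Vale.Agent.P145.Top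

theorem inputs_of {c κ : ℝ} (hc : 1 ≤ c) (hc2 : c ≤ 2) {P : Measure (Ori (ℤ × ℤ))}
    [IsProbabilityMeasure P] (hisP : IsP c P) (hpl : Pl c P) (hice : ∀ᵐ ω ∂P, ∀ x y, Ice ω x y)
    (hsym : SymM P) (hswap : Swap c P) (hbox : BoxLim c)
    (hgrp : GRP P dX RX ∧ GRP P dY RY ∧ GRP P dD RD ∧ GRP P dA RA)
    (hinv : ∀ a : ℤ × ℤ, (2 : ℤ) ∣ a.1 + a.2 → (mu0 P).map (pb (fun q => q + a)) = mu0 P)
    (hhyp : FP.Hyp P) (hclt : CLT P (4 * κ)) (hegd : ∃ C > 0, ∃ γ > 0, Mom.EGD P C γ)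
    (hac : AC.Stmt P) {δ : ℕ → ℝ} (hδ : ∀ n, 0 < δ n) (hlim : Tendsto δ atTop (𝓝 0)) :
    S_mb c δ ∧ S_l2 c δ ∧ S_dec c δ ∧ S_xst c κ δ := by
  have hc0 : 0 < c := by linarith
  have hct : c * c⁻¹ = 1 := mul_inv_cancel₀ hc0.ne'
  have ht1 : c⁻¹ ≤ 1 := inv_le_one_of_one_le₀ hc
  have hint : S_int c⁻¹ P := s_int _ P
  have hloc : S_loc := s_loc
  have hconf : S_conf := s_conf
  have hlow : S_low c c⁻¹ P := s_low hct hc hc2 hbox hpl hisP hint
  have hext : S_ext c⁻¹ P := s_ext hct hc hc2 hbox hpl hisP hint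
  have hup : S_up c c⁻¹ P := s_up hc hpl hswap hint
  have hcirc := main_circ hc hc2 hisP hsym hbox hswap hac
  have hA := assoc_pl0 hc hc2 hbox hisP
  rw [one_div] at hcirc hA
  have hrsw : S_rsw c⁻¹ P := s_rsw_of hice hcirc
  obtain ⟨C, hC, γ, hγ, hE⟩ := hegd
  have hcnt : S_cnt c⁻¹ P := s_cnt_egd hc0 hct ht1 hice hswap hC.le hγ hE hinv hrsw
  have hgap : S_gap c⁻¹ P := s_gap hext hcnt hconf hloc hint hrsw
  have hemom : S_emom c⁻¹ P := s_emom hext hconf hloc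
  have hpos : S_pos c⁻¹ P := s_pos hice hA hcirc
  have hmom : S_mom c⁻¹ P := s_mom hc hct hhyp hswap hC.le hγ hE hsym hlow hint hloc
  have hmm : S_mm c⁻¹ P δ := s_mm hc0 hct ht1 hhyp hswap hC.le hγ hE hsym hδ hlim
  have hmb : S_mb c δ := s_mb hc0 hδ hlim hlow hmm hrsw hloc
  have hl2 : S_l2 c δ := s_l2 hc0 hδ hlim hlow hmm hrsw hloc
  have hlowc : S_lowc c c⁻¹ P := s_lowc hct hc hc2 hbox hpl hisP hint
  have hdec : S_dec c δ := s_dec hc hint hlow hlowc hgap hmom hrsw hloc hconf hδ hlim hmb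
  have hmono : S_mono c := FK.s_mono hc
  have hsd : SdH c⁻¹ κ P δ := sdH_of hpl hgrp hhyp hclt (s_avg _ P) hint hloc hδ hlim
  have h0 : S_xst0 c κ δ := xst0_of' hc0 hδ hlim hmono hint hlow hup hloc hrsw hgap hpos hemom hmm
    (s_geom hconf) far hsd
  exact ⟨hmb, hl2, hdec, xst_of_xst0 hc0 hδ hmono hmb hl2 h0⟩

end Vale.Agent.P145.X
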