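import Vale.Agent.P145.X.AllH
import Vale.Agent.P145.FA.PlC
import Vale.Agent.P145.Top.Final
import Vale.Agent.P145.Top.Out

/-!
P145, block F: the scaling limit in Jordan domains, `1 ≤ c ≤ 2`, in terms of the stiffness `κ` of the
plane measure.
-/

namespace Vale.Agent.P145.X

open Filter Topology MeasureTheory
open Vale.Agent.P152 (Ori)
open Vale.Agent.P145.FA (PlIn exists_plIn)
open Vale.Agent.P145.Top
open Vale.Agent.P145.Dom (JordanDomain Conv)

/-- **The scaling limit**, the plane measure with stiffness `κ` (six-vertex coordinates). -/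
theorem conv_plIn {c : ℝ} (hc : 1 ≤ c) (hc2 : c ≤ 2) {P : Measure (Ori (ℤ × ℤ))} {κ : ℝ}
    (h : PlIn c P κ) {s : ℝ} (hs : κ / 4 = s ^ 2 * (2 * Real.pi)) (D : Set (ℝ × ℝ))
    (hD : JordanDomain D) : Conv (1 / c) s D := by
  have := h.prob
  have hc0 : 0 < c := by linarith
  have e : 1 / (1 / c) = c := one_div_one_div c
  have h4 : 4 * (κ / 4) = κ := by ring
  refine conv_of_inputs (κ := κ / 4) (by positivity) hs (by linarith [h.κpos]) ?_ ?_ s_out D hD
  · rw [e]
    exact FK.s_mono hc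
  · intro δ hδ hlim
    rw [e]
    exact inputs_of hc hc2 h.isP h.pl h.ice h.symM h.swap h.box h.grp h.inv h.hyp
      (by rw [h4]; exact h.clt) h.egd h.ac hδ hlim

/-- **The scaling limit**, with a constant which depends only on `c`. -/
theorem exists_conv {c : ℝ} (hc : 1 ≤ c) (hc2 : c ≤ 2) : ∃ κ : ℝ, 0 < κ ∧ ∀ s : ℝ,
    κ = s ^ 2 * (2 * Real.pi) → ∀ D, JordanDomain D → Conv (1 / c) s D := by
  obtain ⟨P, κ, h⟩ := exists_plIn hc hc2
  exact ⟨κ / 4, by linarith [h.κpos], fun s hs D hD => conv_plIn hc hc2 h hs D hD⟩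

end Vale.Agent.P145.X
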