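import Vale.Agent.P145.X.AvgX

/-!
P145, block F-X: `S_avg` is `Vale.Agent.P145.X.s_avg` of `X/AvgX.lean` (this file only imports it).
-/
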