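import Vale.Agent.P145.X.MuLev

/-!
P145: the counting argument for the decay of the probability that there is no zero circuit. The
measure of a union of `n` events at level 0 is at most of order `n ^ (3 / 4)`; the union is
decomposed according to the last event which occurs.
-/

namespace Vale.Agent.P145.X

open Finset MeasureTheory
open Vale.Agent.P152 (Ori pth)
open Vale.Agent.P145.FA (Hgt mu0)
open Vale.Agent.P145.FB

/-- Among `m` events there is one such that the measure of its part where none of the later ones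
(from `g` steps later on) occurs is at most `g / m` times the measure of the union. -/
theorem exists_last {Ω : Type*} [MeasurableSpace Ω] {μ : Measure Ω} {Z : ℕ → Set Ω}
    (hZ : ∀ k, MeasurableSet (Z k)) {g : ℕ} (hg : 0 < g) {m n : ℕ} (hm : 0 < m) (hmn : m ≤ n) :
    ∃ k < m, (m : ENNReal) * μ (Z k \ ⋃ j ∈ Set.Ico (k + g) n, Z j) ≤
      g * μ (⋃ j ∈ Set.Iio n, Z j) := by
  classical
  set A : ℕ → Set Ω := fun k => Z k \ ⋃ j ∈ Set.Ico (k + g) n, Z j with hA
  have hAm : ∀ k, MeasurableSet (A k) := fun k =>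
    (hZ k).diff (MeasurableSet.biUnion (Set.to_countable _) fun j _ => hZ j)
  -- the sum over one residue class
  have hcls : ∀ r, ∑ k ∈ (range m).filter (fun k => k % g = r), μ (A k) ≤
      μ (⋃ j ∈ Set.Iio n, Z j) := by
    intro r
    have hdis : Set.PairwiseDisjoint (↑((range m).filter (fun k => k % g = r))) A := by
      have key : ∀ i j, i < j → i % g = r → j % g = r → j < m → Disjoint (A i) (A j) := by
        intro i j hij hi hj hjm
        have hgj : i + g ≤ j := by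
          have h1 := Nat.div_add_mod i g
          have h2 := Nat.div_add_mod j g
          have h3 : i / g < j / g := by
            by_contra h
            have h4 : j / g ≤ i / g := by omega
            have h5 : g * (j / g) ≤ g * (i / g) := Nat.mul_le_mul_left g h4
            omega
          have h4 : g * (i / g + 1) ≤ g * (j / g) := Nat.mul_le_mul_left g h3
          rw [Nat.mul_add, Nat.mul_one] at h4
          omega
        rw [Set.disjoint_left]
        rintro w ⟨-, h1⟩ ⟨h2, -⟩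
        exact h1 (Set.mem_biUnion (show j ∈ Set.Ico (i + g) n from ⟨hgj, by omega⟩) h2)
      intro i hi j hj hij
      rw [Finset.mem_coe, Finset.mem_filter, Finset.mem_range] at hi hj
      rcases lt_or_gt_of_ne hij with h | h
      · exact key i j h hi.2 hj.2 hj.1
      · exact (key j i h hj.2 hi.2 hi.1).symm
    rw [← measure_biUnion_finset hdis fun k _ => hAm k]
    refine measure_mono ?_
    intro w hw
    simp only [Set.mem_iUnion, Finset.mem_filter, Finset.mem_range] at hw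
    obtain ⟨k, hk, h⟩ := hw
    exact Set.mem_biUnion (show k ∈ Set.Iio n from lt_of_lt_of_le hk.1 hmn) h.1
  have hsum : ∑ k ∈ range m, μ (A k) ≤ g * μ (⋃ j ∈ Set.Iio n, Z j) := by
    have h1 : ∑ k ∈ range m, μ (A k) =
        ∑ r ∈ range g, ∑ k ∈ (range m).filter (fun k => k % g = r), μ (A k) := by
      refine (Finset.sum_fiberwise_of_maps_to (fun k _ => ?_) _).symm
      exact Finset.mem_range.2 (Nat.mod_lt k hg)
    rw [h1]
    calc _ ≤ ∑ _r ∈ range g, μ (⋃ j ∈ Set.Iio n, Z j) := Finset.sum_le_sum fun r _ => hcls r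
      _ = _ := by rw [Finset.sum_const, Finset.card_range, nsmul_eq_mul]
  obtain ⟨k, hk, hmin⟩ := Finset.exists_min_image (range m) (fun k => μ (A k))
    ⟨0, Finset.mem_range.2 hm⟩
  refine ⟨k, Finset.mem_range.1 hk, le_trans ?_ hsum⟩
  calc (m : ENNReal) * μ (A k) = ∑ _j ∈ range m, μ (A k) := by
        rw [Finset.sum_const, Finset.card_range, nsmul_eq_mul]
    _ ≤ ∑ j ∈ range m, μ (A j) := Finset.sum_le_sum hmin

/-- The measure of a union of `n` events on which the fourth moment of `A` is at most `C n ^ 2`. -/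
theorem union_le {Ω : Type*} [MeasurableSpace Ω] {μ : Measure Ω} {A : Ω → ℝ} (hA : Measurable A)
    {Z : ℕ → Set Ω} {n : ℕ} {C : ℝ} (hC : 0 ≤ C)
    (hmom : ∀ j < n, ∫⁻ x in Z j, ENNReal.ofReal (A x ^ 4) ∂μ ≤ ENNReal.ofReal (C * n ^ 2))
    {M : ℝ} (hM : 0 < M) (hMn : (n : ℝ) ^ 3 ≤ M ^ 4)
    (hcount : μ {x | |A x| ≤ M} ≤ ENNReal.ofReal (M + 1)) :
    μ (⋃ j ∈ Set.Iio n, Z j) ≤ ENNReal.ofReal (M + 1 + C) := by
  have hM4 : 0 < M ^ 4 := by positivity
  have h1 : (⋃ j ∈ Set.Iio n, Z j) ⊆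
      {x | |A x| ≤ M} ∪ ⋃ j ∈ range n, (Z j ∩ {x | ENNReal.ofReal (M ^ 4) ≤ ENNReal.ofReal (A x ^ 4)}) := by
    intro x hx
    simp only [Set.mem_iUnion, Set.mem_Iio] at hx
    obtain ⟨j, hj, hxj⟩ := hx
    rcases le_or_gt (|A x|) M with h | h
    · exact Or.inl h
    · refine Or.inr (Set.mem_biUnion (Finset.mem_coe.2 (Finset.mem_range.2 hj)) ⟨hxj, ?_⟩)
      refine ENNReal.ofReal_le_ofReal ?_
      have h2 : A x ^ 4 = |A x| ^ 4 := (Even.pow_abs (by decide) (A x)).symm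
      rw [h2]
      exact pow_le_pow_left₀ hM.le h.le 4
  have h2 : ∀ j < n, μ (Z j ∩ {x | ENNReal.ofReal (M ^ 4) ≤ ENNReal.ofReal (A x ^ 4)}) ≤
      ENNReal.ofReal (C * n ^ 2 / M ^ 4) := by
    intro j hj
    have h3 := mul_meas_ge_le_lintegral (μ := μ.restrict (Z j))
      (f := fun x => ENNReal.ofReal (A x ^ 4)) (hA.pow_const 4).ennreal_ofReal
      (ENNReal.ofReal (M ^ 4))
    have h4 : MeasurableSet {x | ENNReal.ofReal (M ^ 4) ≤ ENNReal.ofReal (A x ^ 4)} :=
      measurableSet_le measurable_const (hA.pow_const 4).ennreal_ofReal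
    rw [Measure.restrict_apply h4] at h3
    have h5 := h3.trans (hmom j hj)
    rw [Set.inter_comm, ENNReal.ofReal_div_of_pos hM4, ENNReal.le_div_iff_mul_le
      (Or.inl (by simpa using hM4)) (Or.inl ENNReal.ofReal_ne_top), mul_comm]
    exact h5
  calc μ (⋃ j ∈ Set.Iio n, Z j)
      ≤ μ {x | |A x| ≤ M} + μ (⋃ j ∈ range n, (Z j ∩
        {x | ENNReal.ofReal (M ^ 4) ≤ ENNReal.ofReal (A x ^ 4)})) :=
        (measure_mono h1).trans (measure_union_le _ _)
    _ ≤ ENNReal.ofReal (M + 1) + ∑ j ∈ range n, μ (Z j ∩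
        {x | ENNReal.ofReal (M ^ 4) ≤ ENNReal.ofReal (A x ^ 4)}) :=
        add_le_add hcount (measure_biUnion_finset_le _ _)
    _ ≤ ENNReal.ofReal (M + 1) + ∑ _j ∈ range n, ENNReal.ofReal (C * n ^ 2 / M ^ 4) :=
        add_le_add le_rfl (Finset.sum_le_sum fun j hj => h2 j (Finset.mem_range.1 hj))
    _ ≤ ENNReal.ofReal (M + 1) + ENNReal.ofReal C := by
        refine add_le_add le_rfl ?_
        rw [Finset.sum_const, Finset.card_range, nsmul_eq_mul, ← ENNReal.ofReal_natCast,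
          ← ENNReal.ofReal_mul (Nat.cast_nonneg n)]
        refine ENNReal.ofReal_le_ofReal ?_
        have e : (n : ℝ) * (C * n ^ 2 / M ^ 4) = C * (n ^ 3 / M ^ 4) := by ring
        rw [e]
        have h6 : (n : ℝ) ^ 3 / M ^ 4 ≤ 1 := (div_le_one hM4).2 hMn
        calc C * ((n : ℝ) ^ 3 / M ^ 4) ≤ C * 1 := mul_le_mul_of_nonneg_left h6 hC
          _ = C := mul_one C
    _ = ENNReal.ofReal (M + 1 + C) := (ENNReal.ofReal_add (by linarith) hC).symm

/-! ### The functionals of the absolute heights -/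

theorem tsum_two_le {c M : ℝ} (hM : 0 ≤ M) :
    ∑' k : ℤ, (if |c + 2 * k| ≤ M then (1 : ENNReal) else 0) ≤ ENNReal.ofReal (M + 1) := by
  have hsub : ∀ k : ℤ, k ∉ Finset.Icc ⌈(-M - c) / 2⌉ ⌊(M - c) / 2⌋ →
      (if |c + 2 * (k : ℝ)| ≤ M then (1 : ENNReal) else 0) = 0 := by
    intro k hk
    refine if_neg fun h => hk ?_
    have h1 := abs_le.1 h
    rw [Finset.mem_Icc]
    exact ⟨Int.ceil_le.2 (by linarith [h1.1]), Int.le_floor.2 (by linarith [h1.2])⟩
  rw [tsum_eq_sum hsub]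
  calc ∑ k ∈ Finset.Icc ⌈(-M - c) / 2⌉ ⌊(M - c) / 2⌋,
        (if |c + 2 * (k : ℝ)| ≤ M then (1 : ENNReal) else 0)
      ≤ ∑ _k ∈ Finset.Icc ⌈(-M - c) / 2⌉ ⌊(M - c) / 2⌋, (1 : ENNReal) :=
        Finset.sum_le_sum fun k _ => by split_ifs <;> simp
    _ = ((Finset.Icc ⌈(-M - c) / 2⌉ ⌊(M - c) / 2⌋).card : ENNReal) := by simp
    _ ≤ ENNReal.ofReal (M + 1) := by
        rw [← ENNReal.ofReal_natCast]
        refine ENNReal.ofReal_le_ofReal ?_
        rw [Int.card_Icc]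
        have h1 := Int.floor_le ((M - c) / 2)
        have h2 := Int.le_ceil ((-M - c) / 2)
        rcases le_or_gt 0 (⌊(M - c) / 2⌋ + 1 - ⌈(-M - c) / 2⌉) with h | h
        · have h3 : ((⌊(M - c) / 2⌋ + 1 - ⌈(-M - c) / 2⌉).toNat : ℝ) =
              (⌊(M - c) / 2⌋ : ℝ) + 1 - ⌈(-M - c) / 2⌉ := by
            have : (((⌊(M - c) / 2⌋ + 1 - ⌈(-M - c) / 2⌉).toNat : ℤ) : ℝ) =
                ((⌊(M - c) / 2⌋ + 1 - ⌈(-M - c) / 2⌉ : ℤ) : ℝ) := by
              rw [Int.toNat_of_nonneg h]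
            push_cast at this
            exact this
          rw [h3]
          linarith
        · rw [Int.toNat_of_nonpos h.le]
          simp only [Nat.cast_zero]
          linarith

theorem ev_sh (w : (ℤ × ℤ) →₀ ℝ) (h : Hgt) (k : ℤ) :
    FA.ev w (fun q => h q + 2 * k) = FA.ev w h + 2 * k * FA.mass w := by
  unfold FA.ev FA.mass
  rw [Finsupp.sum, Finsupp.sum, Finsupp.sum, Finset.mul_sum, ← Finset.sum_add_distrib]
  refine Finset.sum_congr rfl fun q _ => ?_
  push_cast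
  ring

theorem measurable_evw (w : (ℤ × ℤ) →₀ ℝ) : Measurable fun h : Hgt => FA.ev w h := by
  unfold FA.ev Finsupp.sum
  refine Finset.measurable_sum _ fun q _ => measurable_const.mul ?_
  exact (measurable_from_top (f := fun z : ℤ => (z : ℝ))).comp (measurable_pi_apply q)

theorem Jmu_abs_le {t : ℝ} {P : Measure (Ori (ℤ × ℤ))} [IsProbabilityMeasure P]
    {w : (ℤ × ℤ) →₀ ℝ} (hw : FA.mass w = 1) {M : ℝ} (hM : 0 ≤ M) :
    Jmu t P {x | |FA.ev w x.1| ≤ M} ≤ ENNReal.ofReal (M + 1) := by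
  have hm : Measurable fun x : Hgt × Mk => |FA.ev w x.1| :=
    continuous_abs.measurable.comp ((measurable_evw w).comp measurable_fst)
  have hs : MeasurableSet {x : Hgt × Mk | |FA.ev w x.1| ≤ M} := measurableSet_le hm measurable_const
  rw [Jmu, Measure.sum_apply _ hs]
  have h1 : ∀ k : ℤ, (JO t P).map (hk k) {x | |FA.ev w x.1| ≤ M} =
      ∫⁻ x, (if |FA.ev w (pth x.1) + 2 * k| ≤ M then 1 else 0) ∂(JO t P) := by
    intro k
    rw [Measure.map_apply (measurable_hk k) hs]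
    have h2 : hk k ⁻¹' {x | |FA.ev w x.1| ≤ M} = {x | |FA.ev w (pth x.1) + 2 * k| ≤ M} := by
      ext x
      simp only [Set.mem_preimage, Set.mem_ofPred_eq, hk]
      rw [ev_sh, hw, mul_one]
    rw [h2]
    have h3 : (fun x : Ori (ℤ × ℤ) × Mk => if |FA.ev w (pth x.1) + 2 * k| ≤ M then (1 : ENNReal)
        else 0) = {x | |FA.ev w (pth x.1) + 2 * k| ≤ M}.indicator 1 := by
      funext x
      by_cases h : |FA.ev w (pth x.1) + 2 * k| ≤ M <;> simp [Set.indicator, h]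
    rw [h3, lintegral_indicator_one]
    rw [← h2]
    exact measurable_hk k hs
  simp_rw [h1]
  rw [← lintegral_tsum]
  · calc ∫⁻ x, ∑' k : ℤ, (if |FA.ev w (pth x.1) + 2 * k| ≤ M then (1 : ENNReal) else 0) ∂(JO t P)
        ≤ ∫⁻ _x, ENNReal.ofReal (M + 1) ∂(JO t P) := lintegral_mono fun x => tsum_two_le hM
      _ = ENNReal.ofReal (M + 1) := by rw [lintegral_const, measure_univ, mul_one]
  · intro k
    have h4 : MeasurableSet {x : Ori (ℤ × ℤ) × Mk | |FA.ev w (pth x.1) + 2 * k| ≤ M} := by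
      have h2 : hk k ⁻¹' {x | |FA.ev w x.1| ≤ M} = {x | |FA.ev w (pth x.1) + 2 * k| ≤ M} := by
        ext x
        simp only [Set.mem_preimage, Set.mem_ofPred_eq, hk]
        rw [ev_sh, hw, mul_one]
      rw [← h2]
      exact measurable_hk k hs
    exact (Measurable.ite h4 measurable_const measurable_const).aemeasurable

/-- **Counting lemma.** -/
theorem count {t : ℝ} {P : Measure (Ori (ℤ × ℤ))} [IsProbabilityMeasure P]
    {w : (ℤ × ℤ) →₀ ℝ} (hw : FA.mass w = 1) {Z : ℕ → Set (Hgt × Mk)}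
    (hZ : ∀ j, MeasurableSet (Z j)) {g m n : ℕ} (hg : 0 < g) (hm : 0 < m) (hmn : m ≤ n) {C : ℝ}
    (hC : 0 ≤ C) (hmom : ∀ j < n,
      ∫⁻ x in Z j, ENNReal.ofReal (FA.ev w x.1 ^ 4) ∂(Jmu t P) ≤ ENNReal.ofReal (C * n ^ 2))
    {M : ℝ} (hM : 0 < M) (hMn : (n : ℝ) ^ 3 ≤ M ^ 4) :
    ∃ k < m, (Jmu t P) (Z k \ ⋃ j ∈ Set.Ico (k + g) n, Z j) ≤
      ENNReal.ofReal (g / m * (M + 1 + C)) := by
  obtain ⟨k, hk, h⟩ := exists_last (μ := Jmu t P) hZ hg hm hmn
  refine ⟨k, hk, ?_⟩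
  have h1 := union_le (μ := Jmu t P) ((measurable_evw w).comp measurable_fst) hC hmom hM hMn
    (Jmu_abs_le hw hM.le)
  have hm' : (0 : ℝ) < m := by exact_mod_cast hm
  have h2 : ENNReal.ofReal (g / m * (M + 1 + C)) =
      ENNReal.ofReal (g * (M + 1 + C)) / (m : ENNReal) := by
    rw [← ENNReal.ofReal_natCast m, ← ENNReal.ofReal_div_of_pos hm']
    congr 1
    ring
  rw [h2, ENNReal.le_div_iff_mul_le (Or.inl (by simpa using hm.ne'))
    (Or.inl (ENNReal.natCast_ne_top m)), mul_comm]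
  refine h.trans ?_
  rw [ENNReal.ofReal_mul (Nat.cast_nonneg g), ENNReal.ofReal_natCast]
  exact mul_le_mul_right h1 _

/-- The counting lemma for `MU`, with real numbers. -/
theorem count_MU {t : ℝ} {P : Measure (Ori (ℤ × ℤ))} [IsProbabilityMeasure P]
    (hice : ∀ᵐ ω ∂P, ∀ x y, P152.Ice ω x y)
    {w : (ℤ × ℤ) →₀ ℝ} (hw : FA.mass w = 1) {Z : ℕ → Set (Hgt × Mk)}
    (hZ : ∀ j, MeasurableSet (Z j)) {g m n : ℕ} (hg : 0 < g) (hm : 0 < m) (hmn : m ≤ n) {C : ℝ}
    (hC : 0 ≤ C) (hmi : ∀ j < n, IntegrableOn (fun x => FA.ev w x.1 ^ 4) (Z j) (MU t P))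
    (hmom : ∀ j < n, ∫ x in Z j, FA.ev w x.1 ^ 4 ∂(MU t P) ≤ C * n ^ 2)
    {M : ℝ} (hM : 0 < M) (hMn : (n : ℝ) ^ 3 ≤ M ^ 4) :
    ∃ k < m, (MU t P) (Z k \ ⋃ j ∈ Set.Ico (k + g) n, Z j) ≤
        ENNReal.ofReal (g / m * (M + 1 + C)) ∧
      (MU t P).real (Z k \ ⋃ j ∈ Set.Ico (k + g) n, Z j) ≤ g / m * (M + 1 + C) := by
  rw [MU_eq_Jmu hice] at *
  have h1 : ∀ j < n, ∫⁻ x in Z j, ENNReal.ofReal (FA.ev w x.1 ^ 4) ∂(Jmu t P) ≤
      ENNReal.ofReal (C * n ^ 2) := by
    intro j hj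
    rw [← ofReal_integral_eq_lintegral_ofReal (hmi j hj)
      (Filter.Eventually.of_forall fun x => by positivity)]
    exact ENNReal.ofReal_le_ofReal (hmom j hj)
  obtain ⟨k, hk, h⟩ := count (t := t) (P := P) hw hZ hg hm hmn hC h1 hM hMn
  refine ⟨k, hk, h, ?_⟩
  exact ENNReal.toReal_le_of_le_ofReal (by positivity) h

end Vale.Agent.P145.X
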