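import Vale.Agent.P145.X.Stmt
import Vale.Agent.P145.X.Count
import Vale.Agent.P145.X.Mom
import Vale.Agent.P145.X.SPos
import Vale.Agent.P145.FB.Sym2

/-!
P145, X-level: `S_cnt`. Among the first `n` scales there is one such that, given a circuit at
level 0, there is another one at a larger scale, except with small relative probability; uniformly
in the centre, since the law of the heights and the marks is invariant under translations.
-/

namespace Vale.Agent.P145.X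

open Finset MeasureTheory Relation
open Vale.Agent.P152 (Ori pth Ice)
open Vale.Agent.P145.FA (Hgt mu0 pb)
open Vale.Agent.P145.FB

/-! ### Translations -/

/-- Translation of heights and bonds. -/
def shv (v : Pt) (x : Hgt × Mk) : Hgt × Mk := (pb (fun q => q + v) x.1, fun w => x.2 (w + v))

theorem measurable_shv (v : Pt) : Measurable (shv v) :=
  (measurable_pi_lambda _ fun q => (measurable_pi_apply (q + v)).comp measurable_fst).prodMk
    (measurable_pi_lambda _ fun w => (measurable_pi_apply (w + v)).comp measurable_snd)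

theorem e_add {v : Pt} (hv : Even (v.1 + v.2)) (w : Pt) :
    e1 (w + v) = e1 w + v ∧ e2 (w + v) = e2 w + v ∧ o1 (w + v) = o1 w + v ∧
      o2 (w + v) = o2 w + v := by
  obtain ⟨w1, w2⟩ := w
  obtain ⟨v1, v2⟩ := v
  simp only at hv
  have h : Even (w1 + v1 + (w2 + v2)) ↔ Even (w1 + w2) := by
    rw [Int.even_iff] at *
    rw [Int.even_iff]
    omega
  unfold e1 e2 o1 o2
  simp only [Prod.mk_add_mk, h]
  by_cases h1 : Even (w1 + w2)
  · simp only [if_pos h1, Prod.mk_add_mk]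
    refine ⟨?_, ?_, ?_, ?_⟩ <;>
      first | trivial | (refine Prod.ext ?_ ?_ <;> (try simp only) <;> ring)
  · simp only [if_neg h1, Prod.mk_add_mk]
    refine ⟨?_, ?_, ?_, ?_⟩ <;>
      first | trivial | (refine Prod.ext ?_ ?_ <;> (try simp only) <;> ring)

theorem om_shift {v : Pt} (hv : Even (v.1 + v.2)) (h : Hgt) (ξ : Mk) (w : Pt) :
    om (pb (fun q => q + v) h) (fun w => ξ (w + v)) w = om h ξ (w + v) := by
  obtain ⟨h1, h2, h3, h4⟩ := e_add hv w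
  unfold om pb
  rw [h1, h2, h3, h4]

theorem MU_shv {t : ℝ} {P : Measure (Ori (ℤ × ℤ))} [IsProbabilityMeasure P] {v : Pt}
    (hv : Even (v.1 + v.2)) (hinv : (mu0 P).map (pb (fun q => q + v)) = mu0 P) :
    (MU t P).map (shv v) = MU t P := by
  have hs : SFinite (mu0 P) := by unfold FA.mu0; infer_instance
  have m1 : Measurable (pb (fun q : Pt => q + v)) :=
    measurable_pi_lambda _ fun q => measurable_pi_apply (q + v)
  have m2 : Measurable fun (ξ : Mk) (w : Pt) => ξ (w + v) :=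
    measurable_pi_lambda _ fun w => measurable_pi_apply (w + v)
  have hm : (mkm t).map (fun (ξ : Mk) (w : Pt) => ξ (w + v)) = mkm t :=
    map_marks t (Equiv.addRight v)
  have e1 : (shv v) ∘ (fun x : Hgt × Mk => (x.1, om x.1 x.2)) =
      (fun x : Hgt × Mk => (x.1, om x.1 x.2)) ∘
        Prod.map (pb (fun q : Pt => q + v)) (fun (ξ : Mk) (w : Pt) => ξ (w + v)) := by
    funext x
    refine Prod.ext rfl ?_
    funext w
    exact (om_shift hv x.1 x.2 w).symm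
  unfold MU
  rw [Measure.map_map (measurable_shv v) measurable_om, e1,
    ← Measure.map_map measurable_om (m1.prodMap m2), ← Measure.map_prod_map _ _ m1 m2, hinv, hm]

theorem bl_shv {v : Pt} (hv : Even (v.1 + v.2)) (x : Hgt × Mk) :
    bl (shv v x) = {w | w + v ∈ bl x} := by
  ext w
  obtain ⟨h1, h2, -, -⟩ := e_add hv w
  unfold bl opl shv pb
  simp only [Set.mem_ofPred_eq, h1, h2]

theorem fine_shift (a b : ℤ) (B : Set Pt) :
    fine {w | w + (a + b, a - b) ∈ B} = {z | (z.1 + 2 * a, z.2 + 2 * b) ∈ fine B} := by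
  have hv : ∀ z : Pt, Odd (z.1 + z.2) → vx z + (a + b, a - b) = vx (z.1 + 2 * a, z.2 + 2 * b) := by
    intro z hz
    rw [Int.odd_iff] at hz
    unfold vx
    refine Prod.ext ?_ ?_ <;> simp only [Prod.mk_add_mk] <;> omega
  ext z
  simp only [fine, Set.mem_ofPred_eq]
  constructor
  · rintro (⟨h1, h2⟩ | ⟨h1, h2, q, h3, h4⟩)
    · left
      refine ⟨?_, ?_⟩
      · rw [Int.odd_iff] at h1 ⊢; omega
      · rw [← hv z h1]; exact h2
    · right
      refine ⟨?_, ?_, (q.1 + 2 * a, q.2 + 2 * b), nn_shift a b z q h3, ?_⟩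
      · rw [Int.even_iff] at h1 ⊢; omega
      · rw [Int.even_iff] at h2 ⊢; omega
      · rw [← hv q (by
          unfold NN at h3
          rw [Int.even_iff] at h1 h2
          rw [Int.odd_iff]; omega)]
        exact h4
  · rintro (⟨h1, h2⟩ | ⟨h1, h2, q, h3, h4⟩)
    · left
      have h5 : Odd (z.1 + z.2) := by rw [Int.odd_iff] at h1 ⊢; omega
      exact ⟨h5, by rw [hv z h5]; exact h2⟩
    · right
      have h6 : NN z (q.1 + 2 * (-a), q.2 + 2 * (-b)) := by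
        unfold NN at h3 ⊢
        simp only at h3 ⊢
        omega
      refine ⟨?_, ?_, (q.1 + 2 * (-a), q.2 + 2 * (-b)), h6, ?_⟩
      · rw [Int.even_iff] at h1 ⊢; omega
      · rw [Int.even_iff] at h2 ⊢; omega
      · rw [hv _ (by
          unfold NN at h3
          rw [Int.even_iff] at h1 h2
          rw [Int.odd_iff]
          simp only at h3 ⊢
          omega)]
        have e : ((q.1 + 2 * (-a) + 2 * a, q.2 + 2 * (-b) + 2 * b) : ℤ × ℤ) = q :=
          Prod.ext (by ring) (by ring)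
        rw [e]
        exact h4

theorem Zr_shift (c : ℤ × ℤ) (r a b : ℤ) (B : Set Pt) :
    Zr c r {w | w + (a + b, a - b) ∈ B} ↔ Zr (c.1 + a, c.2 + b) r B := by
  unfold Zr Ann
  rw [fine_shift, LRc_shift, LRc_shift, BTc_shift, BTc_shift]
  simp only
  have e1 : c.1 - 2 * r + a = c.1 + a - 2 * r := by ring
  have e2 : c.1 + 2 * r + a = c.1 + a + 2 * r := by ring
  have e3 : c.2 - 2 * r + b = c.2 + b - 2 * r := by ring
  have e4 : c.2 + 2 * r + b = c.2 + b + 2 * r := by ring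
  have e5 : c.2 + r + b = c.2 + b + r := by ring
  have e6 : c.2 - r + b = c.2 + b - r := by ring
  have e7 : c.1 + r + a = c.1 + a + r := by ring
  have e8 : c.1 - r + a = c.1 + a - r := by ring
  rw [e1, e2, e3, e4, e5, e6, e7, e8]

/-- The event of a circuit at level 0. -/
def ZE (p : ℤ × ℤ) (r : ℤ) : Set (Hgt × Mk) := {x | Zr p r (bl x)}

theorem meas_ZE (p : ℤ × ℤ) (r : ℤ) : MeasurableSet (ZE p r) := spos_meas_Ann p.1 p.2 r

/-- There is a circuit at scale `4 ^ k * s` and none at the scales from `k + 4` on. -/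
def ZD (s : ℤ) (k n : ℕ) (p : ℤ × ℤ) : Set (Hgt × Mk) :=
  ZE p (4 ^ k * s) \ ⋃ j ∈ Set.Ico (k + 4) n, ZE p (4 ^ j * s)

theorem meas_ZD (s : ℤ) (k n : ℕ) (p : ℤ × ℤ) : MeasurableSet (ZD s k n p) :=
  (meas_ZE _ _).diff (MeasurableSet.biUnion (Set.to_countable _) fun _ _ => meas_ZE _ _)

/-- The measure does not depend on the centre. -/
theorem MU_ZD {t : ℝ} {P : Measure (Ori (ℤ × ℤ))} [IsProbabilityMeasure P]
    (hinv : ∀ v : ℤ × ℤ, (2 : ℤ) ∣ v.1 + v.2 → (mu0 P).map (pb (fun q => q + v)) = mu0 P)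
    (s : ℤ) (k n : ℕ) (p : ℤ × ℤ) : MU t P (ZD s k n p) = MU t P (ZD s k n (0, 0)) := by
  have hv : Even (((p.1 + p.2, p.1 - p.2) : ℤ × ℤ).1 + ((p.1 + p.2, p.1 - p.2) : ℤ × ℤ).2) := by
    rw [Int.even_iff]; simp only; omega
  have h1 := MU_shv (t := t) (P := P) hv (hinv _ (by simp only; omega))
  have h2 : shv (p.1 + p.2, p.1 - p.2) ⁻¹' ZD s k n (0, 0) = ZD s k n p := by
    have h3 : ∀ (r : ℤ) (x : Hgt × Mk), shv (p.1 + p.2, p.1 - p.2) x ∈ ZE (0, 0) r ↔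
        x ∈ ZE p r := by
      intro r x
      change Zr (0, 0) r (bl (shv (p.1 + p.2, p.1 - p.2) x)) ↔ Zr p r (bl x)
      rw [bl_shv hv, Zr_shift]
      simp only [zero_add]
    ext x
    simp only [ZD, Set.mem_preimage, Set.mem_sdiff, Set.mem_iUnion, h3]
  rw [← h2, ← Measure.map_apply (measurable_shv _) (meas_ZD _ _ _ _), h1]

/-! ### Counting -/

/-- Fourth moments of an average of the heights at scale `s` given a circuit at scale
`4 ^ j * s`. -/
def MomJ (t : ℝ) (P : Measure (Ori (ℤ × ℤ))) : Prop :=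
  ∃ (w : ℤ → ((ℤ × ℤ) →₀ ℝ)) (D : ℝ) (s₁ : ℤ), 0 ≤ D ∧ (∀ s, s₁ ≤ s → FA.mass (w s) = 1) ∧
    ∀ j : ℕ, ∃ s₀ : ℤ, ∀ s, s₀ ≤ s →
      ∫⁻ x in ZE (0, 0) (4 ^ j * s), ENNReal.ofReal (FA.ev (w s) x.1 ^ 4) ∂(Jmu t P) ≤
        ENNReal.ofReal (D * (j + 1) ^ 2)

/-- Fourth moments of the differences of an average at scale `s` and averages outside the box of
size `2 * 4 ^ j * s`, in the plane. -/
def MomP (P : Measure (Ori (ℤ × ℤ))) : Prop :=
  ∃ (w : ℤ → ((ℤ × ℤ) →₀ ℝ)) (D : ℝ) (s₁ : ℤ), 0 ≤ D ∧ (∀ s, s₁ ≤ s → FA.mass (w s) = 1 ∧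
      ∀ v ∈ (w s).support, fi v ∈ rc (-s) s (-s) s) ∧
    ∀ j : ℕ, ∃ s₀ : ℤ, ∀ s, s₀ ≤ s → ∃ b : (ℤ × ℤ) →₀ ℝ, FA.mass b = -1 ∧
      (∀ v ∈ b.support, fi v ∉ rc (-(2 * (4 ^ j * s))) (2 * (4 ^ j * s)) (-(2 * (4 ^ j * s)))
        (2 * (4 ^ j * s))) ∧
      ∫⁻ ω, ENNReal.ofReal (FA.ev (w s + b) (pth ω) ^ 4) ∂P ≤ ENNReal.ofReal (D * (j + 1) ^ 2)

theorem mass_add (a b : (ℤ × ℤ) →₀ ℝ) : FA.mass (a + b) = FA.mass a + FA.mass b := by
  unfold FA.mass
  rw [Finsupp.sum_add_index' (fun _ => by simp) (fun _ _ _ => by ring)]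

theorem momJ_of {c t : ℝ} (hc : 0 < c) (hct : c * t = 1) (ht1 : t ≤ 1)
    {P : Measure (Ori (ℤ × ℤ))} [IsProbabilityMeasure P] (hice : ∀ᵐ a ∂P, ∀ x y, Ice a x y)
    (hS : Swap c P) (h : MomP P) : MomJ t P := by
  obtain ⟨w, D, s₁, hD, hw, hj⟩ := h
  refine ⟨w, D, s₁, hD, fun s hs => (hw s hs).1, fun j => ?_⟩
  obtain ⟨s₀, h0⟩ := hj j
  refine ⟨max (max s₀ s₁) 1, fun s hs => ?_⟩
  have hs0 : s₀ ≤ s := ((le_max_left _ _).trans (le_max_left _ _)).trans hs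
  have hs1 : s₁ ≤ s := ((le_max_right _ _).trans (le_max_left _ _)).trans hs
  have hs2 : 1 ≤ s := (le_max_right _ _).trans hs
  obtain ⟨b, hb1, hb2, hb3⟩ := h0 s hs0
  have h4 : (1 : ℤ) ≤ 4 ^ j := one_le_pow₀ (by norm_num)
  have hle : s ≤ 4 ^ j * s := by nlinarith
  have hm := (mom hc hct ht1 hice hS (p := 0) (q := 0) (s := 4 ^ j * s) (a := w s) (b := b)
    (by omega) ?_ ?_ (by rw [mass_add, (hw s hs1).1, hb1]; ring) 2).1
  · exact hm.trans hb3
  · intro v hv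
    have := (hw s hs1).2 v hv
    simp only [rc, Set.mem_ofPred_eq] at this ⊢
    omega
  · intro v hv hh
    refine hb2 v hv ?_
    simp only [rc, Set.mem_ofPred_eq] at hh ⊢
    omega

/-- The circuits exist with positive mass, at one centre. -/
theorem s_cnt {t : ℝ} {P : Measure (Ori (ℤ × ℤ))} [IsProbabilityMeasure P]
    (hice : ∀ᵐ ω ∂P, ∀ x y, Ice ω x y)
    (hinv : ∀ v : ℤ × ℤ, (2 : ℤ) ∣ v.1 + v.2 → (mu0 P).map (pb (fun q => q + v)) = mu0 P)
    (hrsw : S_rsw t P) (hmom : MomJ t P) : S_cnt t P := by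
  obtain ⟨c₁, hc₁, r₀, hr₀, hr⟩ := hrsw
  obtain ⟨w, D, s₁, hD, hw, hj⟩ := hmom
  intro η hη N
  -- the number of scales
  obtain ⟨L, hL⟩ := exists_nat_ge (4 * (4 + D) / (η * c₁))
  set K : ℕ := max (max L N) 1 with hK
  have hK1 : 1 ≤ K := le_max_right _ _
  have hKL : (L : ℝ) ≤ K := by exact_mod_cast (le_max_left _ _).trans (le_max_left _ _)
  have hKN : N ≤ K := (le_max_right _ _).trans (le_max_left _ _)
  have hK1' : (1 : ℝ) ≤ K := by exact_mod_cast hK1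
  refine ⟨K ^ 4, hKN.trans (Nat.le_self_pow (by norm_num) K), ?_⟩
  choose S hS using hj
  set n : ℕ := 2 * K ^ 4 + 1 with hn
  obtain ⟨s₂, hs₂⟩ : ∃ s₂ : ℤ, ∀ j < n, S j ≤ s₂ := by
    refine ⟨∑ j ∈ range n, |S j|, fun j hj => (le_abs_self _).trans ?_⟩
    exact Finset.single_le_sum (f := fun j => |S j|) (fun i _ => abs_nonneg _)
      (Finset.mem_range.2 hj)
  refine ⟨max (max r₀ s₁) s₂, hr₀.trans ((le_max_left _ _).trans (le_max_left _ _)),
    fun s hs => ?_⟩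
  have h1 : r₀ ≤ s := ((le_max_left _ _).trans (le_max_left _ _)).trans hs
  have h2 : s₁ ≤ s := ((le_max_right _ _).trans (le_max_left _ _)).trans hs
  have h3 : s₂ ≤ s := (le_max_right _ _).trans hs
  have hs1 : 1 ≤ s := hr₀.trans h1
  have hn1 : (n : ℝ) = 2 * K ^ 4 + 1 := by rw [hn]; push_cast; ring
  have hnm : K ^ 4 ≤ n := by omega
  have hm0 : 0 < K ^ 4 := Nat.pos_of_ne_zero (by positivity)
  have hM : (0 : ℝ) < 3 * (K : ℝ) ^ 3 := by positivity
  have hMn : (n : ℝ) ^ 3 ≤ (3 * (K : ℝ) ^ 3) ^ 4 := by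
    have hk : (1 : ℝ) ≤ (K : ℝ) ^ 4 := one_le_pow₀ hK1'
    have h5 : (n : ℝ) ≤ 3 * (K : ℝ) ^ 4 := by rw [hn1]; linarith
    calc (n : ℝ) ^ 3 ≤ (3 * (K : ℝ) ^ 4) ^ 3 := pow_le_pow_left₀ (Nat.cast_nonneg n) h5 3
      _ = 27 * (K : ℝ) ^ 12 := by ring
      _ ≤ 81 * (K : ℝ) ^ 12 := by
        have : (0 : ℝ) ≤ (K : ℝ) ^ 12 := by positivity
        linarith
      _ = (3 * (K : ℝ) ^ 3) ^ 4 := by ring
  have hb : ∀ j < n, ∫⁻ x in ZE (0, 0) (4 ^ j * s), ENNReal.ofReal (FA.ev (w s) x.1 ^ 4)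
      ∂(Jmu t P) ≤ ENNReal.ofReal (D * n ^ 2) := by
    intro j hj
    refine (hS j s ((hs₂ j hj).trans h3)).trans (ENNReal.ofReal_le_ofReal ?_)
    refine mul_le_mul_of_nonneg_left ?_ hD
    refine pow_le_pow_left₀ (by positivity) ?_ 2
    exact_mod_cast hj
  obtain ⟨k, hk, hk2⟩ := count (t := t) (P := P) (hw s h2) (Z := fun j => ZE (0, 0) (4 ^ j * s))
    (fun j => meas_ZE _ _) (g := 4) (by norm_num) hm0 hnm hD hb hM hMn
  refine ⟨k, hk, fun p => ?_⟩
  -- the event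
  have he : {x : Hgt × Mk | (fun B => Zr p (4 ^ k * s) B ∧ ∀ i, k + 4 ≤ i → i ≤ 2 * K ^ 4 →
      ¬ Zr p (4 ^ i * s) B) (bl x)} = ZD s k n p := by
    ext x
    simp only [ZD, ZE, Set.mem_ofPred_eq, Set.mem_sdiff, Set.mem_iUnion, not_exists, Set.mem_Ico]
    refine and_congr_right fun _ => ?_
    constructor
    · intro h i hi
      exact h i hi.1 (by omega)
    · intro h i h5 h6
      exact h i ⟨h5, by omega⟩
  have hme : MeasurableSet {x : Hgt × Mk | (fun B => Zr p (4 ^ k * s) B ∧ ∀ i, k + 4 ≤ i →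
      i ≤ 2 * K ^ 4 → ¬ Zr p (4 ^ i * s) B) (bl x)} := by
    rw [he]; exact meas_ZD _ _ _ _
  rw [spos_II_ind hme, he]
  have h6 : (MU t P).real (ZD s k n p) ≤ 4 / (K : ℝ) ^ 4 * (3 * (K : ℝ) ^ 3 + 1 + D) := by
    rw [Measure.real, MU_ZD hinv, MU_eq_Jmu hice]
    have := ENNReal.toReal_le_of_le_ofReal (by positivity) hk2
    refine this.trans (le_of_eq ?_)
    push_cast
    ring
  have h7 : 4 / (K : ℝ) ^ 4 * (3 * (K : ℝ) ^ 3 + 1 + D) ≤ η * c₁ := by
    have hk3 : (1 : ℝ) ≤ (K : ℝ) ^ 3 := one_le_pow₀ hK1'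
    have h8 : 3 * (K : ℝ) ^ 3 + 1 + D ≤ (4 + D) * (K : ℝ) ^ 3 := by nlinarith
    have h9 : 4 * (4 + D) ≤ η * c₁ * K := by
      have := hL.trans hKL
      rw [div_le_iff₀ (by positivity)] at this
      linarith
    calc 4 / (K : ℝ) ^ 4 * (3 * (K : ℝ) ^ 3 + 1 + D)
        ≤ 4 / (K : ℝ) ^ 4 * ((4 + D) * (K : ℝ) ^ 3) :=
          mul_le_mul_of_nonneg_left h8 (by positivity)
      _ = 4 * (4 + D) / K := by field_simp
      _ ≤ η * c₁ := by rw [div_le_iff₀ (by positivity)]; exact h9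
  have h10 : r₀ ≤ 4 ^ k * s := by
    have h4 : (1 : ℤ) ≤ 4 ^ k := one_le_pow₀ (by norm_num)
    nlinarith
  exact h6.trans (h7.trans (mul_le_mul_of_nonneg_left (hr _ h10 p).1 hη.le))

end Vale.Agent.P145.X
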