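import Vale.Agent.P145.X.NuX

/-!
P145, X-level: `Conf B F'ᶜ Fᶜ` is monotone in `B` and depends on finitely many edges, none of them
inside `F`.
-/

namespace Vale.Agent.P145.X.Sb

open Filter Topology Set MeasureTheory
open Vale.Agent.P145.FB

theorem af_inj {f g : ℤ × ℤ} (h : af f = af g) : f = g := by
  unfold af at h
  rw [Prod.ext_iff] at h
  simp only at h
  ext <;> omega

theorem conf_mono {B B' : Set Pt} (h : B ⊆ B') {S T : Set (ℤ × ℤ)} (hB : Conf B S T) :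
    Conf B' S T := by
  intro f hf g hg
  have key : Relation.ReflTransGen (stp B) f g := by
    induction hg with
    | refl => exact Relation.ReflTransGen.refl
    | tail _ hs ih =>
      obtain ⟨w, hw, h1⟩ := hs
      exact ih.tail ⟨w, fun h' => hw (h h'), h1⟩
  exact hB f hf g key

/-- The edges of a finite set of faces. -/
theorem tE_finite (F : Finset (ℤ × ℤ)) : (tE (F : Set (ℤ × ℤ))).Finite := by
  classical
  refine ((F.image fun f => af f) ∪ (F.image fun f => ((af f).1 + 1, (af f).2)) ∪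
    (F.image fun f => ((af f).1, (af f).2 + 1)) ∪
    (F.image fun f => ((af f).1 + 1, (af f).2 + 1))).finite_toSet.subset ?_
  rintro w ⟨f, hf, h⟩
  rw [Finset.mem_coe, Finset.mem_union, Finset.mem_union, Finset.mem_union, Finset.mem_image,
    Finset.mem_image, Finset.mem_image, Finset.mem_image]
  have h2 : w = af f ∨ w = ((af f).1 + 1, (af f).2) ∨ w = ((af f).1, (af f).2 + 1) ∨
      w = ((af f).1 + 1, (af f).2 + 1) := by
    simp only [Prod.ext_iff]
    rcases h with h | h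
    · unfold o1 at h
      split_ifs at h
      · rw [Prod.ext_iff] at h
        simp only at h
        omega
      · rw [h]
        omega
    · unfold o2 at h
      split_ifs at h
      · rw [Prod.ext_iff] at h
        simp only at h
        omega
      · rw [Prod.ext_iff] at h
        simp only at h
        omega
  rcases h2 with h2 | h2 | h2 | h2
  · exact Or.inl (Or.inl (Or.inl ⟨f, hf, h2.symm⟩))
  · exact Or.inl (Or.inl (Or.inr ⟨f, hf, h2.symm⟩))
  · exact Or.inl (Or.inr ⟨f, hf, h2.symm⟩)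
  · exact Or.inr ⟨f, hf, h2.symm⟩

theorem conf_congr {F F' : Finset (ℤ × ℤ)} {B B' : Set Pt}
    (h : ∀ w, w ∈ tE (F' : Set (ℤ × ℤ)) → w ∉ iE (F : Set (ℤ × ℤ)) → w ∈ B → w ∈ B')
    (hB : Conf B (F' : Set (ℤ × ℤ))ᶜ (F : Set (ℤ × ℤ))ᶜ) :
    Conf B' (F' : Set (ℤ × ℤ))ᶜ (F : Set (ℤ × ℤ))ᶜ := by
  intro f hf g hg
  have key : ∃ f₀ ∈ (F' : Set (ℤ × ℤ))ᶜ, Relation.ReflTransGen (stp B) f₀ g := by
    induction hg with
    | refl => exact ⟨f, hf, Relation.ReflTransGen.refl⟩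
    | tail _ hs ih =>
      rename_i a b _
      obtain ⟨f₀, hf₀, hp⟩ := ih
      by_cases hb : b ∈ (F' : Set (ℤ × ℤ))
      · have ha : a ∈ (F : Set (ℤ × ℤ))ᶜ := hB f₀ hf₀ a hp
        obtain ⟨w, hw, h1⟩ := hs
        refine ⟨f₀, hf₀, hp.tail ⟨w, fun hwB => hw (h w ?_ ?_ hwB), h1⟩⟩
        · rcases h1 with h1 | h1
          · exact ⟨b, hb, Or.inr h1.2⟩
          · exact ⟨b, hb, Or.inl h1.1⟩
        · rintro ⟨f1, hf1, f2, hf2, h2, h3⟩
          rcases h1 with h1 | h1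
          · have : a = f1 := af_inj (h1.1.symm.trans h2)
            exact ha (this ▸ hf1)
          · have : a = f2 := af_inj (h1.2.symm.trans h3)
            exact ha (this ▸ hf2)
      · exact ⟨b, hb, Relation.ReflTransGen.refl⟩
  obtain ⟨f₀, hf₀, hp⟩ := key
  exact hB f₀ hf₀ g hp

/-- Locality of the confinement. -/
theorem conf_loc (F F' : Finset (ℤ × ℤ)) : LocS (iE (F : Set (ℤ × ℤ)))ᶜ
    (ind fun B => Conf B (F' : Set (ℤ × ℤ))ᶜ (F : Set (ℤ × ℤ))ᶜ) := by
  classical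
  have hfin : (tE (F' : Set (ℤ × ℤ)) \ iE (F : Set (ℤ × ℤ))).Finite :=
    (tE_finite F').subset fun w hw => hw.1
  refine ⟨hfin.toFinset, fun w hw => ?_, fun B B' hBB => ?_⟩
  · rw [Set.Finite.mem_toFinset] at hw
    exact hw.2
  · have h1 : Conf B (F' : Set (ℤ × ℤ))ᶜ (F : Set (ℤ × ℤ))ᶜ ↔
        Conf B' (F' : Set (ℤ × ℤ))ᶜ (F : Set (ℤ × ℤ))ᶜ := by
      constructor
      · refine conf_congr fun w h1 h2 h3 => (hBB w ?_).1 h3
        rw [Set.Finite.mem_toFinset]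
        exact ⟨h1, h2⟩
      · refine conf_congr fun w h1 h2 h3 => (hBB w ?_).2 h3
        rw [Set.Finite.mem_toFinset]
        exact ⟨h1, h2⟩
    by_cases h : Conf B (F' : Set (ℤ × ℤ))ᶜ (F : Set (ℤ × ℤ))ᶜ
    · rw [ind_one (Q := fun B => Conf B (F' : Set (ℤ × ℤ))ᶜ (F : Set (ℤ × ℤ))ᶜ) h,
        ind_one (Q := fun B => Conf B (F' : Set (ℤ × ℤ))ᶜ (F : Set (ℤ × ℤ))ᶜ) (h1.1 h)]
    · rw [ind_zero (Q := fun B => Conf B (F' : Set (ℤ × ℤ))ᶜ (F : Set (ℤ × ℤ))ᶜ) h,
        ind_zero (Q := fun B => Conf B (F' : Set (ℤ × ℤ))ᶜ (F : Set (ℤ × ℤ))ᶜ)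
          fun h' => h (h1.2 h')]

theorem ind_and (Q G : Set Pt → Prop) (B : Set Pt) :
    ind (fun B => Q B ∧ G B) B = ind Q B * ind G B := by
  by_cases h : Q B
  · by_cases h' : G B
    · rw [ind_one (Q := fun B => Q B ∧ G B) ⟨h, h'⟩, ind_one h, ind_one h', one_mul]
    · rw [ind_zero (Q := fun B => Q B ∧ G B) fun h2 => h' h2.2, ind_zero h', mul_zero]
  · rw [ind_zero (Q := fun B => Q B ∧ G B) fun h2 => h h2.1, ind_zero h, zero_mul]

theorem locS_mul {A : Set Pt} {g g' : Set Pt → ℝ} (h : LocS A g) (h' : LocS A g') :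
    LocS A fun B => g B * g' B := by
  classical
  obtain ⟨Λ, h1, h2⟩ := h
  obtain ⟨Λ', h1', h2'⟩ := h'
  refine ⟨Λ ∪ Λ', fun w hw => ?_, fun B B' hBB => ?_⟩
  · rcases Finset.mem_union.1 hw with hw | hw
    · exact h1 w hw
    · exact h1' w hw
  · have e1 := h2 B B' fun w hw => hBB w (Finset.mem_union_left _ hw)
    have e2 := h2' B B' fun w hw => hBB w (Finset.mem_union_right _ hw)
    simp only [e1, e2]

theorem locS_and {A : Set Pt} {Q G : Set Pt → Prop} (h : LocS A (ind Q)) (h' : LocS A (ind G)) :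
    LocS A (ind fun B => Q B ∧ G B) := by
  have : (ind fun B => Q B ∧ G B) = fun B => ind Q B * ind G B := funext fun B => ind_and Q G B
  rw [this]
  exact locS_mul h h'

theorem locS_not {A : Set Pt} {Q : Set Pt → Prop} (h : LocS A (ind Q)) :
    LocS A (ind fun B => ¬ Q B) := by
  obtain ⟨Λ, h1, h2⟩ := h
  refine ⟨Λ, h1, fun B B' hBB => ?_⟩
  have h3 := h2 B B' hBB
  by_cases hQ : Q B
  · have hQ' := ind_congr h3 hQ
    rw [ind_zero (Q := fun B => ¬ Q B) (not_not.2 hQ), ind_zero (Q := fun B => ¬ Q B)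
      (not_not.2 hQ')]
  · have hQ' : ¬ Q B' := fun h' => hQ (ind_congr h3.symm h')
    rw [ind_one (Q := fun B => ¬ Q B) hQ, ind_one (Q := fun B => ¬ Q B) hQ']

theorem mono_ind {Q : Set Pt → Prop} (h : ∀ B B' : Set Pt, B ⊆ B' → Q B → Q B') :
    Monotone (ind Q) := by
  intro B B' hBB
  by_cases hQ : Q B
  · rw [ind_one hQ, ind_one (h B B' hBB hQ)]
  · rw [ind_zero hQ]
    exact ind_nonneg B'

theorem of_mono_ind {Q : Set Pt → Prop} (h : Monotone (ind Q)) {B B' : Set Pt} (hBB : B ⊆ B')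
    (hQ : Q B) : Q B' := by
  have h1 := h hBB
  rw [ind_one hQ] at h1
  by_contra h2
  rw [ind_zero h2] at h1
  norm_num at h1

end Vale.Agent.P145.X.Sb
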