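import Vale.Agent.P145.FA.Sd3
import Vale.Agent.P145.FP.Rot
import Vale.Agent.P145.Top.Stmt

/-!
P145, X-level: the vertex functionals of the Ashkin-Teller lattice in six-vertex coordinates.
-/

namespace Vale.Agent.P145.X

open Finset Filter Topology MeasureTheory
open Vale.Agent.P145.FA (Hgt ev Wd Wd_apply wd_fin ev_tsum)
open Vale.Agent.P145.Top (hv hvl vh)

/-- The heights at the sites of the Ashkin-Teller lattice. -/
def ht (h : Hgt) : FP.Site → ℤ := fun s => h (FP.fc s)

lemma fc_inl (v : ℤ × ℤ) : FP.fc (Sum.inl v) = (v.1 - v.2, v.1 + v.2) := rfl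

/-- The vertex functional is a six-vertex functional. -/
theorem hv_ht {δ : ℝ} (hδ : 0 < δ) {f : ℝ × ℝ → ℝ} (cf : HasCompactSupport f) (h : Hgt) :
    hv δ f (vh (ht h)) = ev (Wd δ (FP.rot f) 0) h := by
  have cr := FP.rot_compact cf
  rw [ev_tsum]
  set G : ℤ × ℤ → ℝ := fun q => Wd δ (FP.rot f) 0 q * (h q : ℝ) with hG
  have hinj : Function.Injective fun v : ℤ × ℤ => ((v.1 - v.2, v.1 + v.2) : ℤ × ℤ) := by
    intro a b hab
    simp only [Prod.mk.injEq] at hab
    exact Prod.ext (by omega) (by omega)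
  have hsub : Function.support G ⊆ Set.range fun v : ℤ × ℤ => ((v.1 - v.2, v.1 + v.2) : ℤ × ℤ) := by
    intro q hq
    have h1 : Wd δ (FP.rot f) 0 q ≠ 0 := by
      intro h0
      apply hq
      rw [hG]
      simp only
      rw [h0, zero_mul]
    have h2 := (FA.Wd_supp hδ cr h1).1
    refine ⟨((q.1 + q.2) / 2, (q.2 - q.1) / 2), ?_⟩
    simp only
    refine Prod.ext ?_ ?_ <;> simp only <;> omega
  have hGv : ∀ v : ℤ × ℤ, G (v.1 - v.2, v.1 + v.2) =
      δ ^ 2 * (vh (ht h) v * f (δ * v.1, δ * v.2)) := by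
    intro v
    rw [hG]
    simp only
    rw [Wd_apply hδ cr]
    have e1 : FP.ev ((v.1 - v.2, v.1 + v.2) : ℤ × ℤ) = 1 := by
      unfold FP.ev
      rw [if_pos]
      simp only
      omega
    have e2 : FP.rot f (δ * (((v.1 - v.2) + (0 : ℤ × ℤ).1 : ℤ) : ℝ),
        δ * (((v.1 + v.2) + (0 : ℤ × ℤ).2 : ℤ) : ℝ)) = 1 / 4 * f (δ * v.1, δ * v.2) := by
      unfold FP.rot
      simp only [Prod.fst_zero, Prod.snd_zero, add_zero]
      congr 2
      refine Prod.ext ?_ ?_ <;> simp only <;> push_cast <;> ring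
    rw [e1, e2]
    unfold Top.vh ht
    rw [fc_inl]
    ring
  have hfin : (Function.support fun v : ℤ × ℤ => vh (ht h) v * f (δ * v.1, δ * v.2)).Finite := by
    have h3 : (Function.support G).Finite := by
      refine (Wd δ (FP.rot f) 0).support.finite_toSet.subset fun q hq => ?_
      rw [Finset.mem_coe, Finsupp.mem_support_iff]
      intro h0
      apply hq
      rw [hG]
      simp only
      rw [h0, zero_mul]
    refine (h3.preimage hinj.injOn).subset fun v hv => ?_
    rw [Set.mem_preimage, Function.mem_support, hGv]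
    exact mul_ne_zero (pow_ne_zero 2 hδ.ne') hv
  have h4 : ∑' v : ℤ × ℤ, vh (ht h) v * f (δ * v.1, δ * v.2) =
      ∑ᶠ v : ℤ × ℤ, vh (ht h) v * f (δ * v.1, δ * v.2) := tsum_eq_finsum hfin
  unfold Top.hv
  rw [← h4, ← tsum_mul_left, ← hinj.tsum_eq hsub]
  exact tsum_congr fun v => (hGv v).symm

/-- Products over lists. -/
theorem hvl_ht {δ : ℝ} (hδ : 0 < δ) {l : List (ℝ × ℝ → ℝ)} (cl : ∀ f ∈ l, HasCompactSupport f)
    (h : Hgt) :
    hvl δ l (vh (ht h)) = (l.map fun f => ev (Wd δ (FP.rot f) 0) h).prod := by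
  unfold Top.hvl
  congr 1
  exact List.map_congr_left fun f hf => hv_ht hδ (cl f hf) h

end Vale.Agent.P145.X
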