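import Vale.Agent.P145.FK.K1

/-!
P145: the sign of a cluster. The signs at all sites of the cluster of a set of odd sites
(connected by medial vertices which are not blocked) can be changed simultaneously; so products of
an observable near `O`, which is odd, and an observable near `I` only see the configurations in
which `O` and `I` are connected.
-/

namespace Vale.Agent.P145.FK

open Finset
open scoped Classical

namespace Net

variable {V F E : Type*} {K : ℕ}

/-- The site `i` is in `C` or adjacent to `C`. -/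
def adj (N : Net V F E) (C : Set F) (i : V ⊕ F) : Prop :=
  Sum.elim (fun v => ∃ f, N.inc v f ∧ f ∈ C) (fun f => f ∈ C) i

/-- Change of the signs at the odd sites of `C` and at the even sites adjacent to `C`. -/
noncomputable def flp (N : Net V F E) (C : Set F) (s : V ⊕ F → Bool) : V ⊕ F → Bool :=
  fun i => if N.adj C i then !(s i) else s i

lemma flp_flp (N : Net V F E) (C : Set F) (s : V ⊕ F → Bool) : N.flp C (N.flp C s) = s := by
  funext i
  by_cases h : N.adj C i
  · simp [flp, h]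
  · simp [flp, h]

/-- The change of signs as a permutation. -/
noncomputable def flpE (N : Net V F E) (C : Set F) : Equiv.Perm (V ⊕ F → Bool) where
  toFun := N.flp C
  invFun := N.flp C
  left_inv := N.flp_flp C
  right_inv := N.flp_flp C

/-- `C` is a union of clusters. -/
def closedC (N : Net V F E) (x : Cfg V F E K) (C : Set F) : Prop :=
  (∀ v, (x.1 (.inl v) : ℕ) ≠ 0 → ∀ f f', N.inc v f → N.inc v f' → f ∈ C → f' ∈ C) ∧
    ∀ e, x.2 e = true → (N.f e ∈ C ↔ N.g e ∈ C)

lemma closedC_expl {N : Net V F E} (hN : N.Loc) (O : Set F) (x : Cfg V F E K) :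
    N.closedC x (N.expl O x) := by
  constructor
  · intro v hv f f' hf hf' hfC
    by_contra hf'C
    obtain ⟨e, he, hne⟩ := hN v (N.expl O x) ⟨f, hf, hfC⟩ ⟨f', hf', hf'C⟩
    have hb := expl_blocked hne
    rcases he with he | he
    · exact hv (by rw [← he]; exact hb.1)
    · exact hv (by rw [← he]; exact hb.2.1)
  · intro e he
    by_contra hne
    have hb := expl_blocked hne
    rw [hb.2.2] at he
    exact Bool.false_ne_true he

lemma sv_not (b : Bool) : sv (!b) = -sv b := by cases b <;> simp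

section
variable [Fintype V] [Fintype F] [Fintype E]

lemma cst_flp (N : Net V F E) {x : Cfg V F E K} {C : Set F} (hC : N.closedC x C)
    (s : V ⊕ F → Bool) : N.cst (act x) (N.flp C s) = N.cst (act x) s := by
  unfold cst
  refine Finset.prod_congr rfl fun i hi => ?_
  rcases i with v | e
  · have hv : (x.1 (.inl v) : ℕ) ≠ 0 := mem_act_inl.mp hi
    simp only [con, Sum.elim_inl]
    unfold cv
    refine Finset.prod_congr rfl fun f hf => ?_
    have hvf : N.inc v f := (Finset.mem_filter.mp hf).2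
    unfold pr
    by_cases h : N.adj C (.inl v)
    · have h' : N.adj C (.inr f) := by
        obtain ⟨f', hf', hfC⟩ := h
        exact hC.1 v hv f' f hf' hvf hfC
      simp only [flp, h, h', if_true, sv_not]
      ring
    · have h' : ¬ N.adj C (.inr f) := fun h' => h ⟨f, hvf, h'⟩
      simp only [flp, h, h', if_false]
  · have he : x.2 e = true := mem_act_inr.mp hi
    simp only [con, Sum.elim_inr]
    unfold th pr
    have hiff := hC.2 e he
    by_cases h : N.adj C (.inr (N.f e))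
    · have h' : N.adj C (.inr (N.g e)) := hiff.mp h
      simp only [flp, h, h', if_true, sv_not]
      ring
    · have h' : ¬ N.adj C (.inr (N.g e)) := fun h' => h (hiff.mpr h')
      simp only [flp, h, h', if_false]

/-- Functions which are odd under the change of the signs of the cluster of `O` have integral
zero. -/
theorem J_odd (N : Net V F E) (hN : N.Loc) (t : ℝ) (κ : V ⊕ F → Fin (K + 1) → ℝ)
    (β : E → Bool → ℝ) (O : Set F) {G : Cfg V F E K → (V ⊕ F → Bool) → ℝ}
    (hG : ∀ x s, G x (N.flp (N.expl O x) s) = -G x s) : N.J t κ β G = 0 := by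
  unfold J
  refine Finset.sum_eq_zero fun x _ => ?_
  have h1 : ∑ s, N.jw t κ β x * N.cst (act x) s * G x s
      = ∑ s, N.jw t κ β x * N.cst (act x) (N.flp (N.expl O x) s) *
        G x (N.flp (N.expl O x) s) :=
    (Equiv.sum_comp (N.flpE (N.expl O x)) fun s => N.jw t κ β x * N.cst (act x) s * G x s).symm
  have h2 : ∑ s, N.jw t κ β x * N.cst (act x) (N.flp (N.expl O x) s) *
        G x (N.flp (N.expl O x) s) = -∑ s, N.jw t κ β x * N.cst (act x) s * G x s := by
    rw [← Finset.sum_neg_distrib]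
    refine Finset.sum_congr rfl fun s _ => ?_
    rw [N.cst_flp (closedC_expl hN O x), hG]
    ring
  linarith

/-- Indicator of the event that `O` and `I` are connected. -/
noncomputable def cnn (N : Net V F E) (O I : Set F) (x : Cfg V F E K) : ℝ :=
  if Disjoint (N.expl O x) I then 0 else 1

omit [Fintype V] [Fintype F] [Fintype E] in
lemma cnn_cases (N : Net V F E) (O I : Set F) (x : Cfg V F E K) :
    N.cnn O I x = 0 ∨ N.cnn O I x = 1 := by
  unfold cnn; split_ifs <;> simp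

omit [Fintype V] [Fintype F] [Fintype E] in
lemma cnn_nonneg (N : Net V F E) (O I : Set F) (x : Cfg V F E K) : 0 ≤ N.cnn O I x := by
  rcases N.cnn_cases O I x with h | h <;> simp [h]

omit [Fintype V] [Fintype F] [Fintype E] in
lemma cnn_le_one (N : Net V F E) (O I : Set F) (x : Cfg V F E K) : N.cnn O I x ≤ 1 := by
  rcases N.cnn_cases O I x with h | h <;> simp [h]

omit [Fintype V] [Fintype F] [Fintype E] in
lemma cnn_monotone (N : Net V F E) (O I : Set F) :
    Monotone (N.cnn O I : Cfg V F E K → ℝ) := by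
  intro x y hxy
  unfold cnn
  by_cases h : Disjoint (N.expl O y) I
  · have h' : Disjoint (N.expl O x) I := h.mono_left (expl_mono O hxy)
    rw [if_pos h, if_pos h']
  · rw [if_neg h]
    split_ifs <;> norm_num

/-- The signed height of an even site. -/
def vht (x : Cfg V F E K) (s : V ⊕ F → Bool) (v : V) : ℤ :=
  sg (s (.inl v)) * (2 * ((x.1 (.inl v) : ℕ) : ℤ))

lemma sg_not (b : Bool) : sg (!b) = -sg b := by cases b <;> simp [sg]

omit [Fintype V] [Fintype F] [Fintype E] in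
lemma vht_flp_adj {N : Net V F E} {C : Set F} {x : Cfg V F E K} {s : V ⊕ F → Bool} {v : V}
    (hv : ∃ f, N.inc v f ∧ f ∈ C) : vht x (N.flp C s) v = -vht x s v := by
  have h : N.adj C (.inl v) := hv
  simp only [vht, flp, h, if_true, sg_not]
  ring

omit [Fintype V] [Fintype F] [Fintype E] in
lemma vht_flp_not {N : Net V F E} {C : Set F} {x : Cfg V F E K} (hC : N.closedC x C)
    {s : V ⊕ F → Bool} {v : V} (hv : ∃ f, N.inc v f ∧ f ∉ C) :
    vht x (N.flp C s) v = vht x s v := by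
  by_cases h : N.adj C (.inl v)
  · have h0 : (x.1 (.inl v) : ℕ) = 0 := by
      by_contra hne
      obtain ⟨f, hf, hfC⟩ := hv
      obtain ⟨f', hf', hfC'⟩ := h
      exact hfC (hC.1 v hne f' f hf' hf hfC')
    simp only [vht, h0]
    simp
  · simp only [vht, flp, h, if_false]

/-- An observable `A` of the heights near `O` which is odd times an observable `B` of the heights
near `I` only sees the configurations in which `O` and `I` are connected. -/
theorem J_cnn (N : Net V F E) (hN : N.Loc) (t : ℝ) (κ : V ⊕ F → Fin (K + 1) → ℝ)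
    (β : E → Bool → ℝ) (O I : Set F) (P : Cfg V F E K → ℝ) {A B : (V → ℤ) → ℝ}
    (hA : ∀ y y' : V → ℤ, (∀ v, (∃ f, N.inc v f ∧ f ∈ O) → y' v = -y v) → A y' = -A y)
    (hB : ∀ y y' : V → ℤ, (∀ v, (∃ f, N.inc v f ∧ f ∈ I) → y' v = y v) → B y' = B y) :
    N.J t κ β (fun x s => P x * (A (vht x s) * B (vht x s)))
      = N.J t κ β (fun x s => P x * N.cnn O I x * (A (vht x s) * B (vht x s))) := by
  have h1 := N.J_odd hN t κ β O
    (G := fun x s => P x * (1 - N.cnn O I x) * (A (vht x s) * B (vht x s))) (by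
      intro x s
      by_cases hd : Disjoint (N.expl O x) I
      · have h1 : A (vht x (N.flp (N.expl O x) s)) = -A (vht x s) := by
          refine hA _ _ fun v hv => ?_
          obtain ⟨f, hf, hfO⟩ := hv
          exact vht_flp_adj ⟨f, hf, N.subset_expl O x hfO⟩
        have h2 : B (vht x (N.flp (N.expl O x) s)) = B (vht x s) := by
          refine hB _ _ fun v hv => ?_
          obtain ⟨f, hf, hfI⟩ := hv
          exact vht_flp_not (closedC_expl hN O x) ⟨f, hf, fun h => Set.disjoint_left.mp hd h hfI⟩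
        rw [h1, h2]
        ring
      · have h0 : N.cnn O I x = 1 := if_neg hd
        rw [h0]
        ring)
  have h2 : N.J t κ β (fun x s => P x * (A (vht x s) * B (vht x s)))
      = N.J t κ β (fun x s => P x * N.cnn O I x * (A (vht x s) * B (vht x s))) +
        N.J t κ β (fun x s => P x * (1 - N.cnn O I x) * (A (vht x s) * B (vht x s))) := by
    rw [← N.J_add]
    congr 1
    funext x s
    ring
  rw [h2, h1, add_zero]

/-- Cauchy-Schwarz inequality. -/
theorem J_cs (N : Net V F E) {t : ℝ} (ht0 : 0 ≤ t) {κ : V ⊕ F → Fin (K + 1) → ℝ}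
    (hκ : ∀ i z, 0 ≤ κ i z) {β : E → Bool → ℝ} (hβ : ∀ e b, 0 ≤ β e b)
    (G H : Cfg V F E K → (V ⊕ F → Bool) → ℝ) :
    N.J t κ β (fun x s => G x s * H x s) ^ 2
      ≤ N.J t κ β (fun x s => G x s ^ 2) * N.J t κ β (fun x s => H x s ^ 2) := by
  rw [J_eq_tw, J_eq_tw, J_eq_tw]
  have h := Finset.sum_mul_sq_le_sq_mul_sq (Finset.univ : Finset (Cfg V F E K × (V ⊕ F → Bool)))
    (fun p => √(N.tw t κ β p.1 p.2) * G p.1 p.2) (fun p => √(N.tw t κ β p.1 p.2) * H p.1 p.2)
  have e1 : ∀ p : Cfg V F E K × (V ⊕ F → Bool),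
      √(N.tw t κ β p.1 p.2) * √(N.tw t κ β p.1 p.2) = N.tw t κ β p.1 p.2 := fun p =>
    Real.mul_self_sqrt (N.tw_nonneg ht0 hκ hβ _ _)
  calc _ = (∑ p : Cfg V F E K × (V ⊕ F → Bool), √(N.tw t κ β p.1 p.2) * G p.1 p.2 *
        (√(N.tw t κ β p.1 p.2) * H p.1 p.2)) ^ 2 := by
        congr 1
        refine Finset.sum_congr rfl fun p _ => ?_
        calc N.tw t κ β p.1 p.2 * (G p.1 p.2 * H p.1 p.2)
            = (√(N.tw t κ β p.1 p.2) * √(N.tw t κ β p.1 p.2)) * (G p.1 p.2 * H p.1 p.2) := by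
              rw [e1 p]
          _ = _ := by ring
    _ ≤ _ := h
    _ = _ := by
        congr 1
        · refine Finset.sum_congr rfl fun p _ => ?_
          rw [mul_pow, sq, e1 p]
        · refine Finset.sum_congr rfl fun p _ => ?_
          rw [mul_pow, sq, e1 p]

/-! ### Connections inside a set of faces -/

/-- One step through a medial vertex inside `S` which is not blocked. -/
def stepI (N : Net V F E) (S : Set F) (x : Cfg V F E K) (f f' : F) : Prop :=
  ∃ e, N.inE S e ∧ ¬ N.blocked x e ∧ ((N.f e = f ∧ N.g e = f') ∨ (N.g e = f ∧ N.f e = f'))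

/-- The odd sites which are connected to `O` inside `S`. -/
def explI (N : Net V F E) (S O : Set F) (x : Cfg V F E K) : Set F :=
  {f | ∃ f0 ∈ O, Relation.ReflTransGen (N.stepI S x) f0 f}

omit [Fintype V] [Fintype F] [Fintype E] in
lemma zb_blocked {N : Net V F E} {S : Set F} {x : Cfg V F E K} (hx : N.zb S x) {e : E}
    (he : ¬ N.inE S e) : N.blocked x e := by
  have h1 : ∀ v, N.inc v (N.f e) → N.inc v (N.g e) → (x.1 (.inl v) : ℕ) = 0 := by
    intro v h1 h2
    refine hx.1 _ fun h => he ⟨h _ h1, h _ h2⟩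
  exact ⟨h1 _ (N.huf e) (N.hug e), h1 _ (N.hvf e) (N.hvg e), hx.2 e he⟩

omit [Fintype V] [Fintype F] [Fintype E] in
lemma expl_eq_explI {N : Net V F E} {S O : Set F} {x : Cfg V F E K} (hx : N.zb S x) :
    N.expl O x = N.explI S O x := by
  ext f
  constructor
  · rintro ⟨f0, hf0, hf⟩
    refine ⟨f0, hf0, Relation.ReflTransGen.mono (fun a b => ?_) _ _ hf⟩
    rintro ⟨e, he, h⟩
    exact ⟨e, by_contra fun h' => he (zb_blocked hx h'), he, h⟩
  · rintro ⟨f0, hf0, hf⟩
    refine ⟨f0, hf0, Relation.ReflTransGen.mono (fun a b => ?_) _ _ hf⟩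
    rintro ⟨e, _, he, h⟩
    exact ⟨e, he, h⟩

/-- Indicator of the event that `O` and `I` are connected inside `S`. -/
noncomputable def cnnI (N : Net V F E) (S O I : Set F) (x : Cfg V F E K) : ℝ :=
  if Disjoint (N.explI S O x) I then 0 else 1

omit [Fintype V] [Fintype F] [Fintype E] in
lemma cnnI_cases (N : Net V F E) (S O I : Set F) (x : Cfg V F E K) :
    N.cnnI S O I x = 0 ∨ N.cnnI S O I x = 1 := by
  unfold cnnI; split_ifs <;> simp

omit [Fintype V] [Fintype F] [Fintype E] in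
lemma cnnI_nonneg (N : Net V F E) (S O I : Set F) (x : Cfg V F E K) : 0 ≤ N.cnnI S O I x := by
  rcases N.cnnI_cases S O I x with h | h <;> simp [h]

omit [Fintype V] [Fintype F] [Fintype E] in
lemma cnnI_le_one (N : Net V F E) (S O I : Set F) (x : Cfg V F E K) : N.cnnI S O I x ≤ 1 := by
  rcases N.cnnI_cases S O I x with h | h <;> simp [h]

omit [Fintype V] [Fintype F] [Fintype E] in
lemma explI_mono {N : Net V F E} (S O : Set F) {x y : Cfg V F E K} (h : x ≤ y) :
    N.explI S O x ⊆ N.explI S O y := by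
  rintro f ⟨f0, hf0, hf⟩
  refine ⟨f0, hf0, Relation.ReflTransGen.mono (fun a b => ?_) _ _ hf⟩
  rintro ⟨e, he, hb, h'⟩
  exact ⟨e, he, fun hb' => hb (blocked_anti h hb'), h'⟩

omit [Fintype V] [Fintype F] [Fintype E] in
lemma cnnI_monotone (N : Net V F E) (S O I : Set F) :
    Monotone (N.cnnI S O I : Cfg V F E K → ℝ) := by
  intro x y hxy
  unfold cnnI
  by_cases h : Disjoint (N.explI S O y) I
  · have h' : Disjoint (N.explI S O x) I := h.mono_left (explI_mono S O hxy)
    rw [if_pos h, if_pos h']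
  · rw [if_neg h]
    split_ifs <;> norm_num

omit [Fintype V] [Fintype F] [Fintype E] in
lemma cnnI_le_cnn (N : Net V F E) (S O I : Set F) (x : Cfg V F E K) :
    N.cnnI S O I x ≤ N.cnn O I x := by
  unfold cnnI cnn
  have hs : N.explI S O x ⊆ N.expl O x := by
    rintro f ⟨f0, hf0, hf⟩
    refine ⟨f0, hf0, Relation.ReflTransGen.mono (fun a b => ?_) _ _ hf⟩
    rintro ⟨e, _, hb, h'⟩
    exact ⟨e, hb, h'⟩
  by_cases h : Disjoint (N.expl O x) I
  · rw [if_pos h, if_pos (h.mono_left hs)]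
  · rw [if_neg h]
    split_ifs <;> norm_num

omit [Fintype V] [Fintype F] [Fintype E] in
lemma zbi_cnn (N : Net V F E) (S O I : Set F) (x : Cfg V F E K) :
    N.zbi S x * N.cnn O I x = N.zbi S x * N.cnnI S O I x := by
  by_cases h : N.zb S x
  · unfold cnn cnnI
    rw [expl_eq_explI h]
  · have h0 : N.zbi S x = 0 := if_neg h
    rw [h0, zero_mul, zero_mul]

/-- Product of an odd observable near `O` and an observable near `I`, with zero boundary
conditions on the complement of `S`: bound by the probability of a connection inside `S` under any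
law which is tilted by a function of the outside of `S`. -/
theorem J_low_cnn (N : Net V F E) (hN : N.Loc) {t : ℝ} (ht0 : 0 ≤ t) (ht : t ≤ 1)
    {κ : V ⊕ F → Fin (K + 1) → ℝ} (hκ : ∀ i z, 0 ≤ κ i z) {β : E → Bool → ℝ}
    (hβ : ∀ e b, 0 ≤ β e b) (S O I : Set F) {A B : (V → ℤ) → ℝ}
    (hA : ∀ y y' : V → ℤ, (∀ v, (∃ f, N.inc v f ∧ f ∈ O) → y' v = -y v) → A y' = -A y)
    (hB : ∀ y y' : V → ℤ, (∀ v, (∃ f, N.inc v f ∧ f ∈ I) → y' v = y v) → B y' = B y)
    {Θ : Cfg V F E K → ℝ} (hΘ : ∀ x, 0 ≤ Θ x) (hΘS : ∀ x y, N.agOut S x y → Θ x = Θ y) :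
    N.J t κ β (fun x s => N.zbi S x * (A (vht x s) * B (vht x s))) ^ 4 * N.J t κ β (fun x _ => Θ x) ^ 2
      ≤ N.J t κ β (fun x s => N.zbi S x * A (vht x s) ^ 4) *
        N.J t κ β (fun x s => N.zbi S x * B (vht x s) ^ 4) *
        (N.J t κ β (fun x _ => N.zbi S x) * N.J t κ β (fun x _ => Θ x * N.cnnI S O I x)) ^ 2 := by
  have z2 : ∀ x : Cfg V F E K, N.zbi S x * N.zbi S x = N.zbi S x := by
    intro x
    unfold zbi
    split_ifs <;> simp
  have c2 : ∀ x : Cfg V F E K, N.cnnI S O I x * N.cnnI S O I x = N.cnnI S O I x := by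
    intro x
    rcases N.cnnI_cases S O I x with h | h <;> simp [h]
  -- only connected configurations count
  have h1 : N.J t κ β (fun x s => N.zbi S x * (A (vht x s) * B (vht x s)))
      = N.J t κ β (fun x s => (N.zbi S x * N.cnnI S O I x) *
          (N.zbi S x * (A (vht x s) * B (vht x s)))) := by
    rw [N.J_cnn hN t κ β O I (N.zbi S) hA hB]
    congr 1
    funext x s
    rw [zbi_cnn]
    calc N.zbi S x * N.cnnI S O I x * (A (vht x s) * B (vht x s))
        = (N.zbi S x * N.zbi S x) * N.cnnI S O I x * (A (vht x s) * B (vht x s)) := by rw [z2]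
      _ = _ := by ring
  -- Cauchy-Schwarz, twice
  have h2 := N.J_cs ht0 hκ hβ (K := K) (fun x _ => N.zbi S x * N.cnnI S O I x)
    (fun x s => N.zbi S x * (A (vht x s) * B (vht x s)))
  have h3 := N.J_cs ht0 hκ hβ (K := K) (fun x s => N.zbi S x * A (vht x s) ^ 2)
    (fun x s => N.zbi S x * B (vht x s) ^ 2)
  have e1 : N.J t κ β (fun x _ => (N.zbi S x * N.cnnI S O I x) ^ 2)
      = N.J t κ β (fun x (_ : V ⊕ F → Bool) => N.zbi S x * N.cnnI S O I x) := by
    congr 1
    funext x s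
    calc (N.zbi S x * N.cnnI S O I x) ^ 2
        = (N.zbi S x * N.zbi S x) * (N.cnnI S O I x * N.cnnI S O I x) := by ring
      _ = _ := by rw [z2, c2]
  have e2 : N.J t κ β (fun x s => (N.zbi S x * (A (vht x s) * B (vht x s))) ^ 2)
      = N.J t κ β (fun x s => (N.zbi S x * A (vht x s) ^ 2) * (N.zbi S x * B (vht x s) ^ 2)) := by
    congr 1
    funext x s
    ring
  have e3 : N.J t κ β (fun x s => (N.zbi S x * A (vht x s) ^ 2) ^ 2)
      = N.J t κ β (fun x s => N.zbi S x * A (vht x s) ^ 4) := by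
    congr 1
    funext x s
    calc (N.zbi S x * A (vht x s) ^ 2) ^ 2 = (N.zbi S x * N.zbi S x) * A (vht x s) ^ 4 := by ring
      _ = _ := by rw [z2]
  have e4 : N.J t κ β (fun x s => (N.zbi S x * B (vht x s) ^ 2) ^ 2)
      = N.J t κ β (fun x s => N.zbi S x * B (vht x s) ^ 4) := by
    congr 1
    funext x s
    calc (N.zbi S x * B (vht x s) ^ 2) ^ 2 = (N.zbi S x * N.zbi S x) * B (vht x s) ^ 4 := by ring
      _ = _ := by rw [z2]
  rw [e1, e2] at h2
  rw [e3, e4] at h3
  rw [← h1] at h2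
  -- comparison with the tilted law
  have h4 := N.zero_le_out ht0 ht hκ hβ S (X := fun _ => 1) (Θ := Θ) (C := fun _ => 1)
    (fun _ => zero_le_one) (fun _ _ _ => le_rfl) hΘ hΘS (fun _ => zero_le_one) (fun _ _ _ => le_rfl)
    (Mon.mag (N.cnnI_nonneg S O I) (N.cnnI_monotone S O I))
  simp only [one_mul, mul_one] at h4
  have n1 : 0 ≤ N.J t κ β (fun x (_ : V ⊕ F → Bool) => N.zbi S x * N.cnnI S O I x) :=
    N.J_nonneg ht0 hκ hβ fun x _ => mul_nonneg (N.zbi_nonneg S x) (N.cnnI_nonneg S O I x)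
  have n2 : 0 ≤ N.J t κ β (fun x (_ : V ⊕ F → Bool) => Θ x) :=
    N.J_nonneg ht0 hκ hβ fun x _ => hΘ x
  have n3 : 0 ≤ N.J t κ β (fun x s => (N.zbi S x * A (vht x s) ^ 2) * (N.zbi S x * B (vht x s) ^ 2)) :=
    N.J_nonneg ht0 hκ hβ fun x s => mul_nonneg (mul_nonneg (N.zbi_nonneg S x) (sq_nonneg _))
      (mul_nonneg (N.zbi_nonneg S x) (sq_nonneg _))
  have n4 : 0 ≤ N.J t κ β (fun x s => N.zbi S x * A (vht x s) ^ 4) *
      N.J t κ β (fun x s => N.zbi S x * B (vht x s) ^ 4) :=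
    mul_nonneg (N.J_nonneg ht0 hκ hβ fun x s => mul_nonneg (N.zbi_nonneg S x) (by positivity))
      (N.J_nonneg ht0 hκ hβ fun x s => mul_nonneg (N.zbi_nonneg S x) (by positivity))
  set j := N.J t κ β (fun x s => N.zbi S x * (A (vht x s) * B (vht x s)))
  set θ := N.J t κ β (fun x (_ : V ⊕ F → Bool) => Θ x)
  set p := N.J t κ β (fun x (_ : V ⊕ F → Bool) => N.zbi S x * N.cnnI S O I x)
  set q := N.J t κ β (fun x s => (N.zbi S x * A (vht x s) ^ 2) * (N.zbi S x * B (vht x s) ^ 2))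
  set a4 := N.J t κ β (fun x s => N.zbi S x * A (vht x s) ^ 4)
  set b4 := N.J t κ β (fun x s => N.zbi S x * B (vht x s) ^ 4)
  set z := N.J t κ β (fun x (_ : V ⊕ F → Bool) => N.zbi S x)
  set r := N.J t κ β (fun x (_ : V ⊕ F → Bool) => Θ x * N.cnnI S O I x)
  calc j ^ 4 * θ ^ 2 = (j ^ 2) ^ 2 * θ ^ 2 := by ring
    _ ≤ (p * q) ^ 2 * θ ^ 2 := by
        refine mul_le_mul_of_nonneg_right ?_ (sq_nonneg _)
        exact pow_le_pow_left₀ (sq_nonneg _) h2 2
    _ = q ^ 2 * (p * θ) ^ 2 := by ring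
    _ ≤ (a4 * b4) * (z * r) ^ 2 :=
        mul_le_mul h3 (pow_le_pow_left₀ (mul_nonneg n1 n2) h4 2) (sq_nonneg _) n4

end

end Net

open Vale.Agent.P145.FP Vale.Agent.P145.Dom

/-- Product of an odd observable of the heights near `O` and an observable of the heights near `I`
in the domain `F` with zero boundary condition: bound by the probability of a connection inside
`F` under any law which is tilted by a function `Θ` of the outside of `F`. -/
theorem ze_low_cnn {B F : Finset (ℤ × ℤ)} (hBF : Nb B F) (hN : (boxN B).Loc) {K : ℕ}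
    (hK : KF F ≤ K) {c : ℝ} (hc : 1 ≤ c) {O I : Set (ℤ × ℤ)} (hO : ∀ f ∈ O, f ∈ B)
    (hI : ∀ f ∈ I, f ∈ B) {A D : (ℤ × ℤ → ℤ) → ℝ}
    (hA : ∀ y y' : ℤ × ℤ → ℤ, (∀ v, (∃ f, Cor v f ∧ f ∈ O) → y' v = -y v) → A y' = -A y)
    (hD : ∀ y y' : ℤ × ℤ → ℤ, (∀ v, (∃ f, Cor v f ∧ f ∈ I) → y' v = y v) → D y' = D y)
    {Θ : Net.Cfg (VB B) (FB B) (EB B) K → ℝ} (hΘ : ∀ x, 0 ≤ Θ x)
    (hΘF : ∀ x y, (boxN B).agOut (inB B F) x y → Θ x = Θ y) :
    ze c F (fun x => A (fun v => x (.inl v)) * D (fun v => x (.inl v))) ^ 4 *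
        (boxN B).J c⁻¹ Net.κ6 (Net.β6 c⁻¹) (fun x _ => Θ x) ^ 2
      ≤ ze c F (fun x => A (fun v => x (.inl v)) ^ 4) *
        ze c F (fun x => D (fun v => x (.inl v)) ^ 4) *
        (boxN B).J c⁻¹ Net.κ6 (Net.β6 c⁻¹)
          (fun x _ => Θ x * (boxN B).cnnI (inB B F) (inB B O) (inB B I) x) ^ 2 := by
  have hc0 : 0 < c := by linarith
  have ht : 0 < c⁻¹ := inv_pos.mpr hc0
  have ht1 : c⁻¹ ≤ 1 := inv_le_one_of_one_le₀ hc
  set ex : (VB B → ℤ) → (ℤ × ℤ → ℤ) := fun y v => if h : v ∈ verts B then y ⟨v, h⟩ else 0 with hex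
  have hsg : ∀ (x : Net.Cfg (VB B) (FB B) (EB B) K) (s : VB B ⊕ FB B → Bool),
      (fun v => sgh (F : Set (ℤ × ℤ)) x s (.inl v)) = ex (Net.vht x s) := by
    intro x s
    funext v
    simp only [sgh, xt, Sum.elim_inl, hex, Net.pv, Net.vht]
  have hver : ∀ f ∈ B, ∀ v, Cor v f → v ∈ verts B := fun f hf v hv => mem_verts.mpr ⟨f, hf, hv⟩
  have key := (boxN B).J_low_cnn hN ht.le ht1 (K := K) Net.κ6_nonneg (Net.β6_nonneg ht.le ht1)
    (inB B F) (inB B O) (inB B I) (A := fun y => A (ex y)) (B := fun y => D (ex y))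
    (by
      intro y y' h
      refine hA _ _ fun v hv => ?_
      obtain ⟨f, hvf, hf⟩ := hv
      have hvB := hver f (hO f hf) v hvf
      simp only [hex, dif_pos hvB]
      exact h ⟨v, hvB⟩ ⟨⟨f, hO f hf⟩, hvf, hf⟩)
    (by
      intro y y' h
      refine hD _ _ fun v hv => ?_
      obtain ⟨f, hvf, hf⟩ := hv
      have hvB := hver f (hI f hf) v hvf
      simp only [hex, dif_pos hvB]
      exact h ⟨v, hvB⟩ ⟨⟨f, hI f hf⟩, hvf, hf⟩) hΘ hΘF
  have e1 := J_ze hBF hK ht ht1 (fun x => A (fun v => x (.inl v)) * D (fun v => x (.inl v)))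
  have e2 := J_ze hBF hK ht ht1 (fun x => A (fun v => x (.inl v)) ^ 4)
  have e3 := J_ze hBF hK ht ht1 (fun x => D (fun v => x (.inl v)) ^ 4)
  rw [inv_inv] at e1 e2 e3
  simp only [hsg] at e1 e2 e3
  rw [e1, e2, e3] at key
  have hz := (boxN B).J_zbi_pos (K := K) ht.le Net.κ6_nonneg (Net.β6_nonneg ht.le ht1)
    (fun i => Net.κ6_pos i 0) (fun e => Net.β6_pos ht e) (inB B (F : Set (ℤ × ℤ)))
  set z := (boxN B).J (K := K) c⁻¹ Net.κ6 (Net.β6 c⁻¹)
    (fun x _ => (boxN B).zbi (inB B (F : Set (ℤ × ℤ))) x)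
  refine le_of_mul_le_mul_left ?_ (pow_pos hz 4)
  calc _ = _ := ?_
    _ ≤ _ := key
    _ = _ := ?_
  · ring
  · ring

/-- The same with the probability of the connection under the zero boundary condition. -/
theorem ze_cnn {B F : Finset (ℤ × ℤ)} (hBF : Nb B F) (hN : (boxN B).Loc) {K : ℕ}
    (hK : KF F ≤ K) {c : ℝ} (hc : 1 ≤ c) {O I : Set (ℤ × ℤ)} (hO : ∀ f ∈ O, f ∈ B)
    (hI : ∀ f ∈ I, f ∈ B) {A D : (ℤ × ℤ → ℤ) → ℝ}
    (hA : ∀ y y' : ℤ × ℤ → ℤ, (∀ v, (∃ f, Cor v f ∧ f ∈ O) → y' v = -y v) → A y' = -A y)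
    (hD : ∀ y y' : ℤ × ℤ → ℤ, (∀ v, (∃ f, Cor v f ∧ f ∈ I) → y' v = y v) → D y' = D y) :
    ze c F (fun x => A (fun v => x (.inl v)) * D (fun v => x (.inl v))) ^ 4
      ≤ ze c F (fun x => A (fun v => x (.inl v)) ^ 4) *
        ze c F (fun x => D (fun v => x (.inl v)) ^ 4) *
        ((boxN B).J (K := K) c⁻¹ Net.κ6 (Net.β6 c⁻¹)
          (fun x _ => (boxN B).zbi (inB B F) x * (boxN B).cnnI (inB B F) (inB B O) (inB B I) x) /
          (boxN B).J (K := K) c⁻¹ Net.κ6 (Net.β6 c⁻¹)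
          (fun x _ => (boxN B).zbi (inB B F) x)) ^ 2 := by
  have hc0 : 0 < c := by linarith
  have ht : 0 < c⁻¹ := inv_pos.mpr hc0
  have ht1 : c⁻¹ ≤ 1 := inv_le_one_of_one_le₀ hc
  have h := ze_low_cnn hBF hN hK hc hO hI hA hD (Θ := fun x => (boxN B).zbi (inB B F) x)
    (fun x => (boxN B).zbi_nonneg _ x) (fun x y hxy => by
      unfold Net.zbi
      simp only [Net.zb_congr hxy])
  have hz := (boxN B).J_zbi_pos (K := K) ht.le Net.κ6_nonneg (Net.β6_nonneg ht.le ht1)
    (fun i => Net.κ6_pos i 0) (fun e => Net.β6_pos ht e) (inB B (F : Set (ℤ × ℤ)))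
  rw [div_pow, ← mul_div_assoc, le_div_iff₀ (pow_pos hz 2)]
  exact h

end Vale.Agent.P145.FK
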