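import Vale.Agent.P145.X.Stmt
import Vale.Agent.P145.X.Sign

/-!
P145, decay at the boundary: the expectation of the product of two functionals of the heights is
bounded by the probability that their supports are connected.
-/

namespace Vale.Agent.P145.X

open Filter Topology Set MeasureTheory
open Vale.Agent.P152 (Ori)
open Vale.Agent.P145.FA (Hgt)
open Vale.Agent.P145.FB (Pt Mk e1 e2 o1 o2 Ann MU bl fine mkm om)
open Vale.Agent.P145.Top (Om Cone vh EE hv hvl)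
open Vale.Agent.P145.Dom (ze)
open Vale.Agent.P145.PT (TestOn)
open Vale.Agent.P145.FK (Nb boxN VB FB EB inB KF Cor)

/-- Probability, with zero boundary condition on the complement of `F`, that `O` and `I` are
connected by edges which are not blocked (computed in the box `B` with cutoff `K`). -/
noncomputable def pcn (c : ℝ) (B F : Finset (ℤ × ℤ)) (K : ℕ) (O I : Set (ℤ × ℤ)) : ℝ :=
  (boxN B).J (K := K) c⁻¹ FK.Net.κ6 (FK.Net.β6 c⁻¹)
      (fun x _ => (boxN B).zbi (inB B F) x * (boxN B).cnnI (inB B F) (inB B O) (inB B I) x) /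
    (boxN B).J (K := K) c⁻¹ FK.Net.κ6 (FK.Net.β6 c⁻¹) (fun x _ => (boxN B).zbi (inB B F) x)

theorem pcn_nonneg {c : ℝ} (hc : 1 ≤ c) (B F : Finset (ℤ × ℤ)) (K : ℕ) (O I : Set (ℤ × ℤ)) :
    0 ≤ pcn c B F K O I := by
  have hc0 : 0 < c := by linarith
  have ht : 0 < c⁻¹ := inv_pos.mpr hc0
  have ht1 : c⁻¹ ≤ 1 := inv_le_one_of_one_le₀ hc
  refine div_nonneg ?_ ?_
  · exact (boxN B).J_nonneg ht.le FK.Net.κ6_nonneg (FK.Net.β6_nonneg ht.le ht1) fun x _ =>
      mul_nonneg ((boxN B).zbi_nonneg _ x) ((boxN B).cnnI_nonneg _ _ _ x)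
  · exact (boxN B).J_nonneg ht.le FK.Net.κ6_nonneg (FK.Net.β6_nonneg ht.le ht1) fun x _ =>
      (boxN B).zbi_nonneg _ x

/-- The box `B` and the cutoff `K` are admissible for `F`, `O`, `I`. -/
structure BoxOK (B F : Finset (ℤ × ℤ)) (K : ℕ) (O I : Set (ℤ × ℤ)) : Prop where
  nb : Nb B (F : Set (ℤ × ℤ))
  loc : (boxN B).Loc
  cut : KF F ≤ K
  o : ∀ f ∈ O, f ∈ B
  i : ∀ f ∈ I, f ∈ B

theorem cor_selfD (v : ℤ × ℤ) : Cor v v := FK.cor00 v

/-- The functional `hv` of the heights. -/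
theorem hv_neg {δ : ℝ} {b : ℝ × ℝ → ℝ} {ω ω' : Om}
    (h : ∀ v : ℤ × ℤ, b (δ * v.1, δ * v.2) ≠ 0 → ω' v = -ω v) : hv δ b ω' = -hv δ b ω := by
  unfold hv
  rw [← mul_neg, ← finsum_neg_distrib]
  congr 1
  refine finsum_congr fun v => ?_
  by_cases hv : b (δ * v.1, δ * v.2) = 0
  · rw [hv]; ring
  · rw [h v hv]; ring

theorem hv_congr {δ : ℝ} {b : ℝ × ℝ → ℝ} {ω ω' : Om}
    (h : ∀ v : ℤ × ℤ, b (δ * v.1, δ * v.2) ≠ 0 → ω' v = ω v) : hv δ b ω' = hv δ b ω := by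
  unfold hv
  congr 1
  refine finsum_congr fun v => ?_
  by_cases hv : b (δ * v.1, δ * v.2) = 0
  · rw [hv]; ring
  · rw [h v hv]

/-- The mixed moment is bounded by the probability of a connection. -/
theorem ze_mixed {c : ℝ} (hc : 1 ≤ c) {δ : ℝ} {F : Finset (ℤ × ℤ)} {b f : ℝ × ℝ → ℝ} (k : ℕ)
    {O I : Set (ℤ × ℤ)} (hO : ∀ v : ℤ × ℤ, b (δ * v.1, δ * v.2) ≠ 0 → v ∈ O)
    (hI : ∀ v : ℤ × ℤ, f (δ * v.1, δ * v.2) ≠ 0 → v ∈ I) {B : Finset (ℤ × ℤ)} {K : ℕ}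
    (hB : BoxOK B F K O I) :
    ze c F (fun x => hv δ b (vh x) * hv δ f (vh x) ^ k) ^ 4 ≤
      ze c F (fun x => hv δ b (vh x) ^ 4) * ze c F (fun x => hv δ f (vh x) ^ (4 * k)) *
        pcn c B F K O I ^ 2 := by
  have h := FK.ze_cnn hB.nb hB.loc hB.cut hc hB.o hB.i
    (A := fun y => hv δ b (fun v => (y v : ℝ) / 2)) (D := fun y => hv δ f (fun v => (y v : ℝ) / 2) ^ k)
    (by
      intro y y' hy
      refine hv_neg fun v hv => ?_
      rw [hy v ⟨v, cor_selfD v, hO v hv⟩]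
      push_cast
      ring)
    (by
      intro y y' hy
      have : hv δ f (fun v => (y' v : ℝ) / 2) = hv δ f (fun v => (y v : ℝ) / 2) := by
        refine hv_congr fun v hv => ?_
        rw [hy v ⟨v, cor_selfD v, hI v hv⟩]
      simp only [this])
  have e : ∀ x : FP.Site → ℤ, (hv δ f (fun v => (x (Sum.inl v) : ℝ) / 2) ^ k) ^ 4 =
      hv δ f (vh x) ^ (4 * k) := by
    intro x
    rw [← pow_mul, mul_comm k 4]
    rfl
  simp only [e] at h
  exact h

end Vale.Agent.P145.X
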