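import Vale.Agent.P145.X.Stmt

/-!
P145, decay at the boundary: geometry. Boxes outside of the domain near a boundary point.
-/

namespace Vale.Agent.P145.X

open Filter Topology Set MeasureTheory
open Vale.Agent.P145.FB (Pt o1 o2)
open Vale.Agent.P145.Top (Fs sq)

private theorem dg_af_inj {f g : ℤ × ℤ} (h : af f = af g) : f = g := by
  unfold af at h
  simp only [Prod.mk.injEq] at h
  exact Prod.ext (by omega) (by omega)

theorem mem_FsD {δ : ℝ} {D : Set (ℝ × ℝ)} {f : ℤ × ℤ} (h : f ∈ Fs δ D) : sq δ f ⊆ D := by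
  unfold Fs at h
  split_ifs at h with hf
  · exact (Set.Finite.mem_toFinset hf).1 h
  · simp at h

theorem sq_ne {δ : ℝ} (hδ : 0 < δ) (f : ℤ × ℤ) : (sq δ f).Nonempty :=
  ⟨(δ * f.1, δ * f.2), le_rfl, by nlinarith, le_rfl, by nlinarith⟩

/-- Edges at faces outside of `D` are not inside `D`. -/
theorem tE_compl {δ : ℝ} (hδ : 0 < δ) {D : Set (ℝ × ℝ)} {S : Set (ℤ × ℤ)}
    (hS : ∀ f ∈ S, Disjoint (sq δ f) D) : tE S ⊆ (iE (Fs δ D : Set (ℤ × ℤ)))ᶜ := by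
  rintro w ⟨f, hf, hw⟩ ⟨a, ha, b, hb, h1, h2⟩
  have key : f ∉ (Fs δ D : Set (ℤ × ℤ)) := by
    intro h
    obtain ⟨z, hz⟩ := sq_ne hδ f
    exact Set.disjoint_left.1 (hS f hf) hz (mem_FsD h hz)
  rcases hw with hw | hw
  · rw [hw] at h1
    rw [dg_af_inj h1] at key
    exact key ha
  · rw [hw] at h2
    rw [dg_af_inj h2] at key
    exact key hb

theorem LocS.monoD {A A' : Set Pt} {g : Set Pt → ℝ} (h : LocS A g) (hA : A ⊆ A') : LocS A' g := by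
  obtain ⟨Λ, h1, h2⟩ := h
  exact ⟨Λ, fun w hw => hA (h1 w hw), h2⟩

theorem Fn.monoD {A A' : Set Pt} {g : Set Pt → ℝ} (h : Fn A g) (hA : A ⊆ A') : Fn A' g :=
  ⟨h.nonneg, h.loc.monoD hA, h.pin⟩

theorem LocS.mulD {A : Set Pt} {g g' : Set Pt → ℝ} (h : LocS A g) (h' : LocS A g') :
    LocS A (fun B => g B * g' B) := by
  classical
  obtain ⟨Λ, h1, h2⟩ := h
  obtain ⟨Λ', h1', h2'⟩ := h'
  refine ⟨Λ ∪ Λ', fun w hw => ?_, fun B B' hB => ?_⟩
  · rcases Finset.mem_union.1 hw with h | h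
    · exact h1 w h
    · exact h1' w h
  · show g B * g' B = g B' * g' B'
    rw [h2 B B' fun w hw => hB w (Finset.mem_union_left _ hw),
      h2' B B' fun w hw => hB w (Finset.mem_union_right _ hw)]

/-- A box of half side `2 W` outside of `D` near the point `z₀`. -/
theorem exists_box {D : Set (ℝ × ℝ)} {g : ℝ} (hg : 0 < g)
    (hT : ∀ x ∉ D, ∃ y : ℝ × ℝ, x ∈ Metric.closedBall y g ∧ Disjoint (Metric.closedBall y g) D)
    {z₀ : ℝ × ℝ} (hz : z₀ ∉ D) {δ : ℝ} (hδ : 0 < δ) {W : ℤ} (hW : 0 < W)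
    (h : 2 * (δ * W) + 3 * δ ≤ g) :
    ∃ p : ℤ × ℤ, (∀ f ∈ bx p (2 * W), Disjoint (sq δ f) D) ∧
      |δ * p.1 - z₀.1| ≤ 2 * (δ * W) + 4 * δ ∧ |δ * p.2 - z₀.2| ≤ 2 * (δ * W) + 4 * δ := by
  obtain ⟨y, hy, hyD⟩ := hT z₀ hz
  have hW' : (0 : ℝ) < W := by exact_mod_cast hW
  set ρ : ℝ := 2 * (δ * W) + 3 * δ with hρ
  have hρ0 : 0 < ρ := by positivity
  set u : ℝ := ρ / g with hu
  have hu0 : 0 ≤ u := by positivity
  have hu1 : u ≤ 1 := (div_le_one hg).2 h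
  have hug : u * g = ρ := div_mul_cancel₀ _ hg.ne'
  rw [Metric.mem_closedBall, Prod.dist_eq, max_le_iff, Real.dist_eq, Real.dist_eq] at hy
  obtain ⟨hy1, hy2⟩ := hy
  set q : ℝ × ℝ := (z₀.1 + u * (y.1 - z₀.1), z₀.2 + u * (y.2 - z₀.2)) with hq
  -- one coordinate
  have c1 : ∀ a b : ℝ, |a - b| ≤ g → |a + u * (b - a) - a| ≤ ρ ∧ |a + u * (b - a) - b| ≤ g - ρ := by
    intro a b hab
    constructor
    · have : a + u * (b - a) - a = -(u * (a - b)) := by ring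
      rw [this, abs_neg, abs_mul, abs_of_nonneg hu0, ← hug]
      exact mul_le_mul_of_nonneg_left hab hu0
    · have : a + u * (b - a) - b = (1 - u) * (a - b) := by ring
      rw [this, abs_mul, abs_of_nonneg (by linarith)]
      have := mul_le_mul_of_nonneg_left hab (by linarith : 0 ≤ 1 - u)
      calc (1 - u) * |a - b| ≤ (1 - u) * g := this
        _ = g - ρ := by rw [← hug]; ring
  have c2 : ∀ r : ℝ, δ * (⌊r / δ⌋ : ℝ) ≤ r ∧ r - δ ≤ δ * (⌊r / δ⌋ : ℝ) := by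
    intro r
    have h1 := Int.floor_le (r / δ)
    have h2 := Int.lt_floor_add_one (r / δ)
    have e : δ * (r / δ) = r := mul_div_cancel₀ _ hδ.ne'
    constructor
    · calc δ * (⌊r / δ⌋ : ℝ) ≤ δ * (r / δ) := mul_le_mul_of_nonneg_left h1 hδ.le
        _ = r := e
    · have h3 : δ * (r / δ) ≤ δ * ((⌊r / δ⌋ : ℝ) + 1) := mul_le_mul_of_nonneg_left h2.le hδ.le
      rw [e] at h3
      linarith
  obtain ⟨a1, a2⟩ := c1 z₀.1 y.1 hy1
  obtain ⟨b1, b2⟩ := c1 z₀.2 y.2 hy2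
  obtain ⟨f1, f2⟩ := c2 q.1
  obtain ⟨g1, g2⟩ := c2 q.2
  rw [abs_le] at a1 a2 b1 b2
  refine ⟨(⌊q.1 / δ⌋, ⌊q.2 / δ⌋), fun f hf => ?_, ?_, ?_⟩
  · refine Set.disjoint_left.2 fun z hz => Set.disjoint_left.1 hyD ?_
    obtain ⟨k1, k2, k3, k4⟩ := hf
    obtain ⟨l1, l2, l3, l4⟩ := hz
    rw [Metric.mem_closedBall, Prod.dist_eq, max_le_iff, Real.dist_eq, Real.dist_eq]
    have m1 : ((⌊q.1 / δ⌋ : ℤ) : ℝ) - 2 * W ≤ f.1 := by exact_mod_cast k1
    have m2 : (f.1 : ℝ) + 1 ≤ ((⌊q.1 / δ⌋ : ℤ) : ℝ) + 2 * W := by exact_mod_cast k2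
    have m3 : ((⌊q.2 / δ⌋ : ℤ) : ℝ) - 2 * W ≤ f.2 := by exact_mod_cast k3
    have m4 : (f.2 : ℝ) + 1 ≤ ((⌊q.2 / δ⌋ : ℤ) : ℝ) + 2 * W := by exact_mod_cast k4
    have n1 := mul_le_mul_of_nonneg_left m1 hδ.le
    have n2 := mul_le_mul_of_nonneg_left m2 hδ.le
    have n3 := mul_le_mul_of_nonneg_left m3 hδ.le
    have n4 := mul_le_mul_of_nonneg_left m4 hδ.le
    have q1 : q.1 = z₀.1 + u * (y.1 - z₀.1) := rfl
    have q2 : q.2 = z₀.2 + u * (y.2 - z₀.2) := rfl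
    constructor
    · rw [abs_le]
      constructor <;> linarith
    · rw [abs_le]
      constructor <;> linarith
  · have q1 : q.1 = z₀.1 + u * (y.1 - z₀.1) := rfl
    rw [abs_le]
    constructor <;> simp only <;> linarith
  · have q2 : q.2 = z₀.2 + u * (y.2 - z₀.2) := rfl
    rw [abs_le]
    constructor <;> simp only <;> linarith

end Vale.Agent.P145.X
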