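import Vale.Agent.P145.X.DecA
import Vale.Agent.P145.X.DecGeo
import Vale.Agent.P145.Top.Zm

/-!
P145, decay at the boundary.
-/

namespace Vale.Agent.P145.X

open Filter Topology Set MeasureTheory
open Vale.Agent.P152 (Ori)
open Vale.Agent.P145.FA (Hgt)
open Vale.Agent.P145.FB (Pt Mk e1 e2 o1 o2 Ann MU bl fine mkm om)
open Vale.Agent.P145.Top (Om Cone vh EE hv hvl S_mb S_dec Fs sq ThickC)
open Vale.Agent.P145.Dom (ze zs zw)
open Vale.Agent.P145.PT (TestOn dd bump)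

/-- Indicator of the event that `O` and `I` are connected inside `F` by edges not in `B`. -/
noncomputable def cn (F O I : Set (ℤ × ℤ)) : Set Pt → ℝ :=
  ind fun B => ∃ f ∈ O, ∃ g ∈ I, Relation.ReflTransGen (fun a b => a ∈ F ∧ b ∈ F ∧ stp B a b) f g

/-- Comparison of the probability of a connection under the zero boundary condition with the one
in the plane. -/
def S_lowc (c t : ℝ) (P : Measure (Ori (ℤ × ℤ))) : Prop :=
  ∀ (F : Finset (ℤ × ℤ)) (O I : Set (ℤ × ℤ)) (Θ : Set Pt → ℝ), Fn (iE F)ᶜ Θ → O.Finite →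
    I.Finite → ∃ (B : Finset (ℤ × ℤ)) (K : ℕ), BoxOK B F K O I ∧
      pcn c B F K O I * II t P Θ (fun _ => 1) ≤
        II t P (fun E => Θ E * cn (F : Set (ℤ × ℤ)) O I E) (fun _ => 1)

theorem ind_casesD (Q : Set Pt → Prop) (B : Set Pt) : ind Q B = 0 ∨ ind Q B = 1 := by
  unfold ind; split_ifs <;> simp

theorem ind_nonnegD (Q : Set Pt → Prop) (B : Set Pt) : 0 ≤ ind Q B := by
  rcases ind_casesD Q B with h | h <;> simp [h]

theorem ind_leD {Q Q' : Set Pt → Prop} {B : Set Pt} (h : Q B → Q' B) : ind Q B ≤ ind Q' B := by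
  unfold ind
  by_cases h1 : Q B
  · rw [if_pos h1, if_pos (h h1)]
  · rw [if_neg h1]; split_ifs <;> norm_num

theorem ind_neD {Q : Set Pt → Prop} {B : Set Pt} (h : ind Q B ≠ 0) : Q B := by
  by_contra h1
  exact h (if_neg h1)

theorem locS_iff {A : Set Pt} {Q : Set Pt → Prop} : LocS A (ind Q) ↔
    ∃ Λ : Finset Pt, (∀ w ∈ Λ, w ∈ A) ∧ ∀ B B' : Set Pt, (∀ w ∈ Λ, w ∈ B ↔ w ∈ B') →
      (Q B ↔ Q B') := by
  constructor
  · rintro ⟨Λ, h1, h2⟩
    refine ⟨Λ, h1, fun B B' hB => ?_⟩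
    have h3 := h2 B B' hB
    unfold ind at h3
    by_cases a : Q B <;> by_cases b : Q B' <;> simp_all
  · rintro ⟨Λ, h1, h2⟩
    refine ⟨Λ, h1, fun B B' hB => ?_⟩
    have h3 := h2 B B' hB
    unfold ind
    by_cases a : Q B
    · rw [if_pos a, if_pos (h3.1 a)]
    · rw [if_neg a, if_neg fun h => a (h3.2 h)]

theorem locS_all {A : Set Pt} {S : Finset ℕ} {Q : ℕ → Set Pt → Prop}
    (h : ∀ i ∈ S, LocS A (ind (Q i))) : LocS A (ind fun B => ∀ i ∈ S, ¬ Q i B) := by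
  classical
  rw [locS_iff]
  choose! Λ h1 h2 using fun i (hi : i ∈ S) => locS_iff.1 (h i hi)
  refine ⟨S.biUnion Λ, fun w hw => ?_, fun B B' hB => ?_⟩
  · obtain ⟨i, hi, hw⟩ := Finset.mem_biUnion.1 hw
    exact h1 i hi w hw
  · refine forall_congr' fun i => forall_congr' fun hi => not_congr ?_
    exact h2 i hi B B' fun w hw => hB w (Finset.mem_biUnion.2 ⟨i, hi, hw⟩)

theorem II_monoD {t : ℝ} {P : Measure (Ori (ℤ × ℤ))} (hint : S_int t P) {g g' : Set Pt → ℝ}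
    (h0 : ∀ B, 0 ≤ g B) (hle : ∀ B, g B ≤ g' B) (hl : LocS univ g') (he : g' ∅ = 0) :
    II t P g (fun _ => 1) ≤ II t P g' (fun _ => 1) := by
  unfold II
  refine integral_mono_of_nonneg (Eventually.of_forall fun x => ?_)
    (hint g' (fun _ => 1) hl he Top.Pol.one) (Eventually.of_forall fun x => ?_)
  · simp only [mul_one]
    exact h0 _
  · simp only [mul_one]
    exact hle _

theorem fin_pts {δ : ℝ} (hδ : 0 < δ) {S : Set (ℝ × ℝ)} (hS : Bornology.IsBounded S) :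
    {v : ℤ × ℤ | (δ * (v.1 : ℝ), δ * (v.2 : ℝ)) ∈ S}.Finite := by
  obtain ⟨R, hR⟩ := hS.subset_closedBall 0
  set M : ℤ := ⌈R / δ⌉ with hM
  refine (Set.finite_Icc ((-M, -M) : ℤ × ℤ) (M, M)).subset fun v hv => ?_
  have h1 := hR hv
  rw [Metric.mem_closedBall, Prod.dist_eq, max_le_iff, Real.dist_eq, Real.dist_eq] at h1
  simp only [Prod.fst_zero, Prod.snd_zero, sub_zero] at h1
  have key : ∀ a : ℤ, |δ * (a : ℝ)| ≤ R → -M ≤ a ∧ a ≤ M := by
    intro a ha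
    rw [abs_mul, abs_of_pos hδ] at ha
    have h2 : |(a : ℝ)| ≤ R / δ := by rw [le_div_iff₀ hδ]; linarith
    have h3 : |(a : ℝ)| ≤ M := h2.trans (Int.le_ceil _)
    rw [abs_le] at h3
    constructor
    · have : (-(M : ℝ)) ≤ a := h3.1
      exact_mod_cast this
    · exact_mod_cast h3.2
  obtain ⟨a1, a2⟩ := key v.1 h1.1
  obtain ⟨b1, b2⟩ := key v.2 h1.2
  exact ⟨⟨a1, b1⟩, ⟨a2, b2⟩⟩

theorem zw_nonneg {c : ℝ} (hc : 0 ≤ c) (F : Finset (ℤ × ℤ)) (x : FP.Site → ℤ) : 0 ≤ zw c F x := by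
  unfold zw
  refine mul_nonneg (Finset.prod_nonneg fun e _ => ?_) (Finset.prod_nonneg fun e _ => ?_)
  · split_ifs <;> linarith
  · split_ifs <;> linarith

theorem zs_nonneg {c : ℝ} (hc : 0 ≤ c) (F : Finset (ℤ × ℤ)) {Φ : (FP.Site → ℤ) → ℝ}
    (h : ∀ x, 0 ≤ Φ x) : 0 ≤ zs c F Φ :=
  finsum_nonneg fun x => finsum_nonneg fun _ => mul_nonneg (zw_nonneg hc F x) (h x)

theorem ze_nonneg' {c : ℝ} (hc : 0 ≤ c) (F : Finset (ℤ × ℤ)) {Φ : (FP.Site → ℤ) → ℝ}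
    (h : ∀ x, 0 ≤ Φ x) : 0 ≤ ze c F Φ :=
  div_nonneg (zs_nonneg hc F h) (zs_nonneg hc F fun _ => zero_le_one)

end Vale.Agent.P145.X
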