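import Vale.Agent.P145.X.DecB

/-!
P145, decay at the boundary: the probability of a connection between a small neighbourhood of a
point near the boundary and a compact subset of the domain.
-/

namespace Vale.Agent.P145.X

open Filter Topology Set MeasureTheory
open Vale.Agent.P152 (Ori)
open Vale.Agent.P145.FB (Pt)
open Vale.Agent.P145.Top (Fs sq ThickC)
open Vale.Agent.P145.PT (dd)

/-- The event of a connection excludes the circuits in between. -/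
theorem cn_excl (hconf : S_conf) {F O I : Set (ℤ × ℤ)} {p : ℤ × ℤ} {r : ℤ} (hr : 1 ≤ r)
    (hO : ∀ v ∈ O, v ∈ bx p r) (hI : ∀ v ∈ I, v ∉ bx p (2 * r)) {B : Set Pt}
    (h : ∃ f ∈ O, ∃ g ∈ I, Relation.ReflTransGen (fun a b => a ∈ F ∧ b ∈ F ∧ stp B a b) f g) :
    ¬ Zr p r B := by
  intro hZ
  obtain ⟨f, hf, g, hg, hfg⟩ := h
  have h1 : Relation.ReflTransGen (stp B) f g :=
    Relation.ReflTransGen.mono (fun _ _ h => h.2.2) _ _ hfg
  exact hI g hg (hconf p r B hr hZ f (hO f hf) g h1)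

/-- One coordinate: points near `x`. -/
theorem one_O {e d s W a b c q : ℝ} (he : 0 < e) (hes : d ≤ e * s) (hsW : 4 * s ≤ W) (hW : 1 ≤ W)
    (h1 : |e * a - b| ≤ d / 2) (h2 : |b - c| ≤ d) (h3 : |e * q - c| ≤ 2 * (e * W) + 4 * e) :
    |a - q| ≤ 7 * W := by
  have h0 : 4 * (e * s) ≤ e * W := by
    have := mul_le_mul_of_nonneg_left hsW he.le
    linarith
  have h0' : e ≤ e * W := by
    have := mul_le_mul_of_nonneg_left hW he.le
    linarith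
  have h4 : |e * (a - q)| ≤ e * (7 * W) := by
    have : e * (a - q) = (e * a - b) + (b - c) - (e * q - c) := by ring
    rw [this]
    have i1 := abs_sub ((e * a - b) + (b - c)) (e * q - c)
    have i2 := abs_add_le (e * a - b) (b - c)
    linarith
  rw [abs_mul, abs_of_pos he] at h4
  exact le_of_mul_le_mul_left h4 he

/-- One coordinate: points near the centre. -/
theorem one_I {e r W R a c q : ℝ} (he : 0 < e) (h1 : |a - q| ≤ r)
    (h2 : |e * q - c| ≤ 2 * (e * W) + 4 * e) (h : e * r + (2 * (e * W) + 4 * e) < R) :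
    |c - e * a| < R := by
  have h3 : |e * (a - q)| ≤ e * r := by
    rw [abs_mul, abs_of_pos he]
    exact mul_le_mul_of_nonneg_left h1 he.le
  have h4 : c - e * a = -(e * (a - q)) - (e * q - c) := by ring
  rw [h4]
  have h5 := abs_sub (-(e * (a - q))) (e * q - c)
  rw [abs_neg] at h5
  linarith

theorem pos_O {e d : ℝ} (he : 0 < e) {s W r : ℤ} (hes : d ≤ e * s) (hsW : 4 * s ≤ W) (hW : 1 ≤ W)
    (hr : 64 * W ≤ r) {x z : ℝ × ℝ} (hxz : dist x z ≤ d) {p v : ℤ × ℤ}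
    (hp1 : |e * p.1 - z.1| ≤ 2 * (e * W) + 4 * e) (hp2 : |e * p.2 - z.2| ≤ 2 * (e * W) + 4 * e)
    (hv : (e * (v.1 : ℝ), e * (v.2 : ℝ)) ∈ Metric.closedBall x (d / 2)) : v ∈ bx p r := by
  rw [Metric.mem_closedBall, Prod.dist_eq, Real.dist_eq, Real.dist_eq, max_le_iff] at hv
  rw [Prod.dist_eq, Real.dist_eq, Real.dist_eq, max_le_iff] at hxz
  have hsW' : (4 : ℝ) * s ≤ W := by exact_mod_cast hsW
  have hW' : (1 : ℝ) ≤ W := by exact_mod_cast hW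
  have a1 := one_O he hes hsW' hW' hv.1 hxz.1 hp1
  have a2 := one_O he hes hsW' hW' hv.2 hxz.2 hp2
  have b1 : |v.1 - p.1| ≤ 7 * W := by exact_mod_cast a1
  have b2 : |v.2 - p.2| ≤ 7 * W := by exact_mod_cast a2
  rw [abs_le] at b1 b2
  refine ⟨?_, ?_, ?_, ?_⟩ <;> omega

theorem pos_I {e R : ℝ} (he : 0 < e) {W r : ℤ} {z : ℝ × ℝ} {p v : ℤ × ℤ}
    (hp1 : |e * p.1 - z.1| ≤ 2 * (e * W) + 4 * e) (hp2 : |e * p.2 - z.2| ≤ 2 * (e * W) + 4 * e)
    (h : e * r + (2 * (e * W) + 4 * e) < R) (hv : v ∈ bx p r) :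
    dist z (e * (v.1 : ℝ), e * (v.2 : ℝ)) < R := by
  obtain ⟨k1, k2, k3, k4⟩ := hv
  have l1 : |(v.1 : ℝ) - p.1| ≤ r := by
    have : |v.1 - p.1| ≤ r := by rw [abs_le]; omega
    exact_mod_cast this
  have l2 : |(v.2 : ℝ) - p.2| ≤ r := by
    have : |v.2 - p.2| ≤ r := by rw [abs_le]; omega
    exact_mod_cast this
  rw [Prod.dist_eq, Real.dist_eq, Real.dist_eq, max_lt_iff]
  exact ⟨one_I he l1 hp1 h, one_I he l2 hp2 h⟩

/-- The scale of the distance to the boundary. -/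
theorem scale {d e N₀ : ℝ} (he : 0 < e) (hN : 1 ≤ N₀) (he1 : e < d / 100) (he2 : e < d / N₀) :
    d ≤ e * (⌈d / e⌉ : ℤ) ∧ e * (⌈d / e⌉ : ℤ) ≤ 101 / 100 * d ∧ N₀ ≤ (⌈d / e⌉ : ℤ) := by
  have hs1 : d / e ≤ (⌈d / e⌉ : ℤ) := Int.le_ceil _
  have hs2 : ((⌈d / e⌉ : ℤ) : ℝ) < d / e + 1 := Int.ceil_lt_add_one _
  refine ⟨?_, ?_, ?_⟩
  · rw [div_le_iff₀ he] at hs1
    linarith
  · have h1 := mul_le_mul_of_nonneg_left hs2.le he.le
    rw [mul_add, mul_div_cancel₀ _ he.ne', mul_one] at h1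
    linarith
  · refine le_trans ?_ hs1
    rw [le_div_iff₀ he]
    rw [lt_div_iff₀ (by linarith)] at he2
    linarith

/-- The event that there is no circuit at the larger scales is local. -/
theorem locS_no (hloc : S_loc) (p : ℤ × ℤ) {s : ℤ} (hs : 1 ≤ s) (j m : ℕ) :
    LocS univ (ind fun B => ∀ i, j + 4 ≤ i → i ≤ 2 * m → ¬ Zr p (4 ^ i * s) B) := by
  have h3 := locS_all (A := univ) (S := (Finset.range (2 * m + 1)).filter fun i => j + 4 ≤ i)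
    (Q := fun i => Zr p (4 ^ i * s)) (fun i _ => by
      have h41 : (1 : ℤ) ≤ 4 ^ i := one_le_pow₀ (by norm_num)
      exact (hloc p (4 ^ i * s) (one_le_mul_of_one_le_of_one_le h41 hs)).2.loc.monoD
        (Set.subset_univ _))
  have h4 : (fun B => ∀ i ∈ (Finset.range (2 * m + 1)).filter fun i => j + 4 ≤ i,
      ¬ Zr p (4 ^ i * s) B) = fun B => ∀ i, j + 4 ≤ i → i ≤ 2 * m → ¬ Zr p (4 ^ i * s) B := by
    funext B
    refine propext ⟨fun h i h1 h2 => h i ?_, fun h i hi => ?_⟩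
    · rw [Finset.mem_filter, Finset.mem_range]
      exact ⟨by omega, h1⟩
    · rw [Finset.mem_filter, Finset.mem_range] at hi
      exact h i hi.2 (by omega)
  rw [h4] at h3
  exact h3

/-- The probabilistic step. -/
theorem pcn_le {c t : ℝ} {P : Measure (Ori (ℤ × ℤ))} (hint : S_int t P)
    (hlowc : S_lowc c t P) (hloc : S_loc) (hconf : S_conf) {F : Finset (ℤ × ℤ)}
    {O I : Set (ℤ × ℤ)} (hOf : O.Finite) (hIf : I.Finite) {p : ℤ × ℤ} {s W : ℤ} {j m : ℕ}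
    (hs : 1 ≤ s) (hW : 1 ≤ W) (hF : tE (bx p (2 * W)) ⊆ (iE (F : Set (ℤ × ℤ)))ᶜ)
    (hO : ∀ i, j + 4 ≤ i → ∀ v ∈ O, v ∈ bx p (4 ^ i * s))
    (hI : ∀ i, i ≤ 2 * m → ∀ v ∈ I, v ∉ bx p (2 * (4 ^ i * s))) {η c₁ : ℝ} (hc₁ : 0 < c₁)
    (hgap : II t P (fun B => ind (Zr p W) B *
        ind (fun B => ∀ i, j + 4 ≤ i → i ≤ 2 * m → ¬ Zr p (4 ^ i * s) B) B) (fun _ => 1) ≤
      η * II t P (ind (Zr p W)) (fun _ => 1))
    (hrsw : c₁ ≤ II t P (ind (Zr p W)) (fun _ => 1)) :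
    ∃ (B : Finset (ℤ × ℤ)) (K : ℕ), BoxOK B F K O I ∧ pcn c B F K O I ≤ η := by
  obtain ⟨hm1, hf1⟩ := hloc p W hW
  have hΘ : Fn (iE (F : Set (ℤ × ℤ)))ᶜ (ind (Zr p W)) := hf1.monoD fun w hw => hF hw.1
  obtain ⟨B, K, hBK, hlow⟩ := hlowc F O I _ hΘ hOf hIf
  refine ⟨B, K, hBK, ?_⟩
  have hle : II t P (fun E => ind (Zr p W) E * cn (F : Set (ℤ × ℤ)) O I E) (fun _ => 1) ≤
      II t P (fun B => ind (Zr p W) B *
        ind (fun B => ∀ i, j + 4 ≤ i → i ≤ 2 * m → ¬ Zr p (4 ^ i * s) B) B) (fun _ => 1) := by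
    refine II_monoD hint (fun B => mul_nonneg (ind_nonnegD _ _) (ind_nonnegD _ _)) (fun B => ?_) ?_ ?_
    · refine mul_le_mul_of_nonneg_left (ind_leD fun h => ?_) (ind_nonnegD _ _)
      intro i hi1 hi2
      have h41 : (1 : ℤ) ≤ 4 ^ i := one_le_pow₀ (by norm_num)
      exact cn_excl hconf (one_le_mul_of_one_le_of_one_le h41 hs) (hO i hi1) (hI i hi2) h
    · exact LocS.mulD (hf1.loc.monoD (Set.subset_univ _)) (locS_no hloc p hs j m)
    · show ind (Zr p W) ∅ * _ = 0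
      rw [hf1.pin, zero_mul]
  exact le_of_mul_le_mul_right (hlow.trans (hle.trans hgap)) (hc₁.trans_le hrsw)

theorem dec_prob {c t : ℝ} {P : Measure (Ori (ℤ × ℤ))} (hint : S_int t P)
    (hlowc : S_lowc c t P) (hgap : S_gap t P) (hrsw : S_rsw t P) (hloc : S_loc) (hconf : S_conf)
    {δ : ℕ → ℝ} (hδ : ∀ n, 0 < δ n) (hlim : Tendsto δ atTop (𝓝 0)) {D : Set (ℝ × ℝ)}
    (hD : IsOpen D) (hb : Bornology.IsBounded D) (hT : ThickC D) {S : Set (ℝ × ℝ)}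
    (hS : IsCompact S) (hSD : S ⊆ D) {η : ℝ} (hη : 0 < η) :
    ∃ r : ℝ, 0 < r ∧ ∀ x ∈ D, dd D x < r → ∀ᶠ n in atTop, ∃ (B : Finset (ℤ × ℤ)) (K : ℕ),
      BoxOK B (Fs (δ n) D) K
        {v | (δ n * (v.1 : ℝ), δ n * (v.2 : ℝ)) ∈ Metric.closedBall x (dd D x / 2)}
        {v | (δ n * (v.1 : ℝ), δ n * (v.2 : ℝ)) ∈ S} ∧
      pcn c B (Fs (δ n) D) K
        {v | (δ n * (v.1 : ℝ), δ n * (v.2 : ℝ)) ∈ Metric.closedBall x (dd D x / 2)}
        {v | (δ n * (v.1 : ℝ), δ n * (v.2 : ℝ)) ∈ S} ≤ η := by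
  obtain ⟨g, hg, hT⟩ := hT
  obtain ⟨R, hR, hRS⟩ := hS.exists_thickening_subset_open hD hSD
  have hRS' : ∀ z ∈ S, ∀ y ∉ D, ¬ dist y z < R := by
    intro z hz y hy hc
    exact hy (hRS (Metric.mem_thickening_iff.2 ⟨z, hz, hc⟩))
  obtain ⟨m, -, s₁, hs₁, hgap⟩ := hgap η hη 0
  obtain ⟨c₁, hc₁, r₀, hr₀, hrsw⟩ := hrsw
  have hM0 : (0 : ℝ) < 16 * 4 ^ (2 * m) := by positivity
  refine ⟨min g R / (16 * 4 ^ (2 * m)), div_pos (lt_min hg hR) hM0, fun x hx hxr => ?_⟩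
  have hd0 : 0 < dd D x := (PT.dd_pos hD hb).2 hx
  obtain ⟨z₀, hz₀, hdz⟩ := hD.isClosed_compl.exists_infDist_eq_dist (PT.compl_ne hb) x
  have hdz' : dist x z₀ = dd D x := hdz.symm
  generalize dd D x = d at hxr hd0 hdz' ⊢
  rw [lt_div_iff₀ hM0] at hxr
  have hdg : 16 * (4 ^ (2 * m) * d) < g := by linarith [min_le_left g R]
  have hdR : 16 * (4 ^ (2 * m) * d) < R := by linarith [min_le_right g R]
  -- small mesh
  have hN₀1 : (1 : ℝ) ≤ max (s₁ : ℝ) r₀ := le_max_of_le_left (by exact_mod_cast hs₁)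
  have hev : ∀ᶠ n in atTop, δ n < min (d / 100) (d / max (s₁ : ℝ) r₀) :=
    (tendsto_order.1 hlim).2 _ (lt_min (by positivity) (by positivity))
  filter_upwards [hev] with n hn
  have hδn := hδ n
  generalize δ n = e at hn hδn ⊢
  have he1 : e < d / 100 := hn.trans_le (min_le_left _ _)
  obtain ⟨hes1, hes3, hsN⟩ := scale hδn hN₀1 he1 (hn.trans_le (min_le_right _ _))
  generalize ⌈d / e⌉ = s at hes1 hes3 hsN
  have hss : s₁ ≤ s := by exact_mod_cast (le_max_left (s₁ : ℝ) r₀).trans hsN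
  have hsr : r₀ ≤ s := by exact_mod_cast (le_max_right (s₁ : ℝ) r₀).trans hsN
  have hs0 : 1 ≤ s := hs₁.trans hss
  obtain ⟨j, hj, hgap⟩ := hgap s hss
  have h41 : (1 : ℤ) ≤ 4 ^ j := one_le_pow₀ (by norm_num)
  have hW4 : 4 * s ≤ 4 ^ (j + 1) * s := by
    have : 1 * s ≤ 4 ^ j * s := mul_le_mul_of_nonneg_right h41 (by omega)
    rw [pow_succ]
    linarith
  have heW : e * ((4 ^ (j + 1) * s : ℤ) : ℝ) ≤ 101 / 100 * (4 ^ (2 * m) * d) := by
    have hp1 : (4 : ℝ) ^ (j + 1) ≤ 4 ^ (2 * m) := pow_le_pow_right₀ (by norm_num) (by omega)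
    have h0 : 0 ≤ e * s := hd0.le.trans hes1
    push_cast
    calc e * (4 ^ (j + 1) * (s : ℝ)) = 4 ^ (j + 1) * (e * s) := by ring
      _ ≤ 4 ^ (2 * m) * (e * s) := mul_le_mul_of_nonneg_right hp1 h0
      _ ≤ 4 ^ (2 * m) * (101 / 100 * d) := mul_le_mul_of_nonneg_left hes3 (by positivity)
      _ = _ := by ring
  have hmd : d ≤ 4 ^ (2 * m) * d := by
    have : (1 : ℝ) * d ≤ 4 ^ (2 * m) * d :=
      mul_le_mul_of_nonneg_right (one_le_pow₀ (by norm_num)) hd0.le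
    linarith
  have hr64 : ∀ i, j + 4 ≤ i → 64 * (4 ^ (j + 1) * s) ≤ 4 ^ i * s := by
    intro i hi
    have h1 : (4 : ℤ) ^ (j + 4) ≤ 4 ^ i := pow_le_pow_right₀ (by norm_num) hi
    have h2 : (4 : ℤ) ^ (j + 4) = 64 * 4 ^ (j + 1) := by rw [pow_add, pow_add]; ring
    rw [h2] at h1
    have h3 := mul_le_mul_of_nonneg_right h1 (by omega : (0 : ℤ) ≤ s)
    linarith
  have hri : ∀ i, i ≤ 2 * m →
      e * ((2 * (4 ^ i * s) : ℤ) : ℝ) ≤ 2 * (101 / 100 * (4 ^ (2 * m) * d)) := by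
    intro i hi
    have hq : (4 : ℝ) ^ i ≤ 4 ^ (2 * m) := pow_le_pow_right₀ (by norm_num) hi
    have h0 : 0 ≤ e * s := hd0.le.trans hes1
    push_cast
    calc e * (2 * (4 ^ i * (s : ℝ))) = 2 * (4 ^ i * (e * s)) := by ring
      _ ≤ 2 * (4 ^ (2 * m) * (e * s)) := by
          have := mul_le_mul_of_nonneg_right hq h0
          linarith
      _ ≤ 2 * (4 ^ (2 * m) * (101 / 100 * d)) := by
          have := mul_le_mul_of_nonneg_left hes3 (by positivity : (0 : ℝ) ≤ 4 ^ (2 * m))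
          linarith
      _ = _ := by ring
  have hrW : r₀ ≤ 4 ^ (j + 1) * s := by omega
  have hgap' := fun p => hgap p (ind (Zr p (4 ^ (j + 1) * s)))
    ((hloc p (4 ^ (j + 1) * s) (by omega)).2.monoD (Set.subset_univ _))
    (hloc p (4 ^ (j + 1) * s) (by omega)).1 fun B hB => ind_neD hB
  generalize (4 ^ (j + 1) * s : ℤ) = W at hW4 heW hr64 hrW hgap'
  have hW0 : 0 < W := by omega
  obtain ⟨p, hp, hpz1, hpz2⟩ := exists_box hg hT hz₀ hδn hW0 (by linarith)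
  exact pcn_le hint hlowc hloc hconf (fin_pts hδn Metric.isBounded_closedBall)
    (fin_pts hδn hS.isBounded) hs0 hW0 (tE_compl hδn hp)
    (fun i hi v hv => pos_O hδn hes1 hW4 hW0 (hr64 i hi) hdz'.le hpz1 hpz2 hv)
    (fun i hi v hv hvb => hRS' _ hv z₀ hz₀
      (pos_I hδn hpz1 hpz2 (by have := hri i hi; linarith) hvb))
    hc₁ (hgap' p) (hrsw W hrW p).1

end Vale.Agent.P145.X
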