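import Mathlib.Analysis.SpecialFunctions.Exp
import Mathlib.Algebra.BigOperators.Intervals
import Mathlib.Tactic

/-!
P145, X-level: the flow between the averages over boxes of different scales, and its energy, which
grows linearly with the number of the scales.
-/

namespace Vale.Agent.P145.X.Flow

open Finset

/-- Tail of the uniform law on `{0, …, R - 1}`. -/
noncomputable def cc (R z : ℕ) : ℝ := ((R - 1 - z : ℕ) : ℝ) / R

theorem cc_nonneg (R z : ℕ) : 0 ≤ cc R z := by unfold cc; positivity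

theorem cc_zero {R z : ℕ} (h : R ≤ z + 1) : cc R z = 0 := by
  unfold cc
  have : R - 1 - z = 0 := by omega
  rw [this]; simp

theorem cc_eq {R z : ℕ} (h : z + 1 ≤ R) : cc R z = 1 - (z + 1) / R := by
  unfold cc
  have hR : (0 : ℝ) < R := by exact_mod_cast (by omega : 0 < R)
  have h1 : ((R - 1 - z : ℕ) : ℝ) = R - 1 - z := by
    rw [Nat.cast_sub (by omega), Nat.cast_sub (by omega)]; simp
  rw [h1, eq_sub_iff_add_eq, ← add_div, div_eq_one_iff_eq hR.ne']
  ring

theorem cc_le_one (R z : ℕ) : cc R z ≤ 1 := by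
  rcases le_or_gt (z + 1) R with h | h
  · rw [cc_eq h]
    have : (0 : ℝ) ≤ (z + 1) / R := by positivity
    linarith
  · rw [cc_zero h.le]; norm_num

theorem cc_mono {r R : ℕ} (h : r ≤ R) (z : ℕ) : cc r z ≤ cc R z := by
  rcases le_or_gt r (z + 1) with h1 | h1
  · rw [cc_zero h1]; exact cc_nonneg R z
  · rw [cc_eq (by omega), cc_eq (by omega)]
    have hr : (0 : ℝ) < r := by exact_mod_cast (by omega : 0 < r)
    have hR : (r : ℝ) ≤ R := by exact_mod_cast h
    have : ((z : ℝ) + 1) / R ≤ (z + 1) / r :=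
      div_le_div_of_nonneg_left (by positivity) hr hR
    linarith

theorem tele (f : ℕ → ℝ) (R : ℕ) : ∑ x ∈ range R, f x =
    R * f 0 + ∑ z ∈ range R, ((R - 1 - z : ℕ) : ℝ) * (f (z + 1) - f z) := by
  induction R with
  | zero => simp
  | succ R ih =>
    have h1 : ∑ z ∈ range (R + 1), ((R + 1 - 1 - z : ℕ) : ℝ) * (f (z + 1) - f z) =
        ∑ z ∈ range R, ((R - 1 - z : ℕ) : ℝ) * (f (z + 1) - f z) + (f R - f 0) := by
      rw [sum_range_succ, ← Finset.sum_range_sub f R, ← sum_add_distrib]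
      have : R + 1 - 1 - R = 0 := by omega
      rw [this, Nat.cast_zero, zero_mul, add_zero]
      refine sum_congr rfl fun z hz => ?_
      have hz' := mem_range.1 hz
      have : R + 1 - 1 - z = (R - 1 - z) + 1 := by omega
      rw [this]; push_cast; ring
    rw [sum_range_succ, ih, h1]
    push_cast; ring

theorem avg_eq (f : ℕ → ℝ) {R M : ℕ} (hR : 0 < R) (hM : R ≤ M) :
    (∑ x ∈ range R, f x) / R = f 0 + ∑ z ∈ range M, cc R z * (f (z + 1) - f z) := by
  have hR' : (0 : ℝ) < R := by exact_mod_cast hR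
  have h1 : ∑ z ∈ range M, cc R z * (f (z + 1) - f z) =
      ∑ z ∈ range R, cc R z * (f (z + 1) - f z) := by
    symm
    refine sum_subset (range_mono hM) fun z _ hz => ?_
    rw [mem_range, not_lt] at hz
    rw [cc_zero (by omega), zero_mul]
  rw [h1, tele, add_div, mul_div_cancel_left₀ _ hR'.ne', sum_div]
  congr 1
  refine sum_congr rfl fun z _ => ?_
  unfold cc; ring

theorem avg_sub (f : ℕ → ℝ) {r R M : ℕ} (hr : 0 < r) (hR : r ≤ R) (hM : R ≤ M) :
    (∑ x ∈ range R, f x) / R - (∑ x ∈ range r, f x) / r =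
      ∑ z ∈ range M, (cc R z - cc r z) * (f (z + 1) - f z) := by
  rw [avg_eq f (hr.trans_le hR) hM, avg_eq f hr (hR.trans hM), add_sub_add_left_eq_sub,
    ← sum_sub_distrib]
  exact sum_congr rfl fun z _ => by ring

/-- The average over the box `[0, R)²`. -/
noncomputable def AA (R : ℕ) (H : ℕ → ℕ → ℝ) : ℝ := (∑ x ∈ range R, (∑ y ∈ range R, H x y) / R) / R

/-- The horizontal flow from the box of side `r` to the box of side `R`. -/
noncomputable def g1 (r R : ℕ) (p : ℕ × ℕ) : ℝ :=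
  (cc R p.1 - cc r p.1) * if p.2 < r then 1 / (r : ℝ) else 0

/-- The vertical flow. -/
noncomputable def g2 (r R : ℕ) (p : ℕ × ℕ) : ℝ :=
  (cc R p.2 - cc r p.2) * if p.1 < R then 1 / (R : ℝ) else 0

theorem sum_ite_lt {r M : ℕ} (h : r ≤ M) (f : ℕ → ℝ) :
    ∑ y ∈ range M, (if y < r then f y else 0) = ∑ y ∈ range r, f y := by
  rw [← sum_filter]
  congr 1
  ext y; simp only [mem_filter, mem_range]; omega

/-- The flows. -/
noncomputable def F1 (M : ℕ) (g : ℕ × ℕ → ℝ) (H : ℕ → ℕ → ℝ) : ℝ :=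
  ∑ p ∈ range M ×ˢ range M, g p * (H (p.1 + 1) p.2 - H p.1 p.2)

noncomputable def F2 (M : ℕ) (g : ℕ × ℕ → ℝ) (H : ℕ → ℕ → ℝ) : ℝ :=
  ∑ p ∈ range M ×ˢ range M, g p * (H p.1 (p.2 + 1) - H p.1 p.2)

theorem AA_sub (H : ℕ → ℕ → ℝ) {r R M : ℕ} (hr : 0 < r) (hR : r ≤ R) (hM : R ≤ M) :
    AA R H - AA r H = F1 M (g1 r R) H + F2 M (g2 r R) H := by
  have hr' : (0 : ℝ) < r := by exact_mod_cast hr
  have hR' : (0 : ℝ) < R := by exact_mod_cast hr.trans_le hR
  set Mid : ℝ := (∑ x ∈ range R, (∑ y ∈ range r, H x y) / r) / R with hMid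
  have h2 : AA R H - Mid = F2 M (g2 r R) H := by
    unfold AA F2
    rw [hMid, ← sub_div, ← sum_sub_distrib]
    have : ∀ x, (∑ y ∈ range R, H x y) / R - (∑ y ∈ range r, H x y) / r =
        ∑ z ∈ range M, (cc R z - cc r z) * (H x (z + 1) - H x z) := fun x =>
      avg_sub (H x) hr hR hM
    simp_rw [this]
    rw [sum_product, ← sum_ite_lt hM, sum_div]
    refine sum_congr rfl fun x _ => ?_
    split_ifs with hx
    · rw [sum_div]
      refine sum_congr rfl fun z _ => ?_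
      unfold g2
      rw [if_pos hx]; ring
    · rw [zero_div]
      symm
      refine sum_eq_zero fun z _ => ?_
      unfold g2
      rw [if_neg hx]; ring
  have h1 : Mid - AA r H = F1 M (g1 r R) H := by
    have e1 : Mid = (∑ y ∈ range r, (∑ x ∈ range R, H x y) / R) / r := by
      rw [hMid, ← sum_div, ← sum_div, sum_comm]
      rw [div_div, div_div, mul_comm]
    have e2 : AA r H = (∑ y ∈ range r, (∑ x ∈ range r, H x y) / r) / r := by
      unfold AA
      rw [← sum_div, ← sum_div, sum_comm]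
    rw [e1, e2, ← sub_div, ← sum_sub_distrib]
    have : ∀ y, (∑ x ∈ range R, H x y) / R - (∑ x ∈ range r, H x y) / r =
        ∑ z ∈ range M, (cc R z - cc r z) * (H (z + 1) y - H z y) := fun y =>
      avg_sub (fun x => H x y) hr hR hM
    simp_rw [this]
    unfold F1
    rw [sum_product_right, ← sum_ite_lt (hR.trans hM), sum_div]
    refine sum_congr rfl fun y _ => ?_
    split_ifs with hy
    · rw [sum_div]
      refine sum_congr rfl fun z _ => ?_
      unfold g1
      rw [if_pos hy]; ring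
    · rw [zero_div]
      symm
      refine sum_eq_zero fun z _ => ?_
      unfold g1
      rw [if_neg hy]; ring
  rw [← h1, ← h2]; ring

theorem g1_nonneg {r R : ℕ} (h : r ≤ R) (p : ℕ × ℕ) : 0 ≤ g1 r R p := by
  unfold g1
  have := cc_mono h p.1
  refine mul_nonneg (by linarith) ?_
  split_ifs <;> positivity

theorem g2_nonneg {r R : ℕ} (h : r ≤ R) (p : ℕ × ℕ) : 0 ≤ g2 r R p := by
  unfold g2
  have := cc_mono h p.2
  refine mul_nonneg (by linarith) ?_
  split_ifs <;> positivity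

theorem cdiff_le (r R z : ℕ) : cc R z - cc r z ≤ if z < R then 1 else 0 := by
  have h1 := cc_nonneg r z
  split_ifs with h
  · have := cc_le_one R z; linarith
  · rw [cc_zero (by omega)]; linarith

theorem g1_le {r R : ℕ} (p : ℕ × ℕ) :
    g1 r R p ≤ (if p.1 < R then 1 else 0) * if p.2 < r then 1 / (r : ℝ) else 0 := by
  unfold g1
  refine mul_le_mul_of_nonneg_right (cdiff_le r R p.1) ?_
  split_ifs <;> positivity

theorem g2_le {r R : ℕ} (p : ℕ × ℕ) :
    g2 r R p ≤ (if p.2 < R then 1 else 0) * if p.1 < R then 1 / (R : ℝ) else 0 := by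
  unfold g2
  refine mul_le_mul_of_nonneg_right (cdiff_le r R p.2) ?_
  split_ifs <;> positivity

theorem g1_le' {r R : ℕ} (p : ℕ × ℕ) : g1 r R p ≤ 1 / r := by
  refine (g1_le p).trans ?_
  have : (0 : ℝ) ≤ 1 / r := by positivity
  split_ifs <;> simp only [one_mul, zero_mul, mul_zero, le_refl] <;> exact this

theorem g2_le' {r R : ℕ} (hr : 0 < r) (h : r ≤ R) (p : ℕ × ℕ) : g2 r R p ≤ 1 / r := by
  refine (g2_le p).trans ?_
  have hr' : (0 : ℝ) < r := by exact_mod_cast hr
  have hR' : (r : ℝ) ≤ R := by exact_mod_cast h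
  have h0 : (0 : ℝ) ≤ 1 / r := by positivity
  have h1 : (1 : ℝ) / R ≤ 1 / r := one_div_le_one_div_of_le hr' hR'
  split_ifs <;> simp only [one_mul, zero_mul, mul_zero] <;> first | exact h1 | exact h0

theorem sum_ind {R M : ℕ} (h : R ≤ M) (a : ℝ) :
    ∑ z ∈ range M, (if z < R then a else 0) = R * a := by
  rw [sum_ite_lt h (fun _ => a)]
  simp

theorem g1_sum {r R M : ℕ} (hr : 0 < r) (h : r ≤ R) (hM : R ≤ M) :
    ∑ p ∈ range M ×ˢ range M, g1 r R p ≤ R := by
  have hr' : (0 : ℝ) < r := by exact_mod_cast hr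
  calc ∑ p ∈ range M ×ˢ range M, g1 r R p
      ≤ ∑ p ∈ range M ×ˢ range M,
        ((if p.1 < R then (1 : ℝ) else 0) * if p.2 < r then 1 / (r : ℝ) else 0) :=
        sum_le_sum fun p _ => g1_le p
    _ = (∑ z ∈ range M, (if z < R then (1 : ℝ) else 0)) *
        ∑ y ∈ range M, (if y < r then 1 / (r : ℝ) else 0) := by
        rw [sum_product, sum_mul_sum]
    _ = R := by
        rw [sum_ind hM, sum_ind (h.trans hM)]
        field_simp

theorem g2_sum {r R M : ℕ} (hr : 0 < r) (h : r ≤ R) (hM : R ≤ M) :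
    ∑ p ∈ range M ×ˢ range M, g2 r R p ≤ R := by
  have hR' : (0 : ℝ) < R := by exact_mod_cast hr.trans_le h
  calc ∑ p ∈ range M ×ˢ range M, g2 r R p
      ≤ ∑ p ∈ range M ×ˢ range M,
        ((if p.2 < R then (1 : ℝ) else 0) * if p.1 < R then 1 / (R : ℝ) else 0) :=
        sum_le_sum fun p _ => g2_le p
    _ = (∑ z ∈ range M, (if z < R then (1 : ℝ) else 0)) *
        ∑ y ∈ range M, (if y < R then 1 / (R : ℝ) else 0) := by
        rw [sum_product_right, sum_mul_sum]
    _ = R := by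
        rw [sum_ind hM, sum_ind hM]
        field_simp

/-- Energy of a multi-scale flow. -/
theorem energy_le {ι : Type*} (B : Finset ι) (g : ℕ → ι → ℝ) (a m : ℕ → ℝ) {K : ℝ}
    (hg0 : ∀ i p, 0 ≤ g i p) (hga : ∀ i p, g i p ≤ a i) (ha : ∀ i, 0 ≤ a i)
    (hm : ∀ i, ∑ p ∈ B, g i p ≤ m i) (hK : ∀ i, a i * (2 * ∑ k ∈ range i, m k + m i) ≤ K)
    (j : ℕ) : ∑ p ∈ B, (∑ i ∈ range j, g i p) ^ 2 ≤ K * j := by
  induction j with
  | zero => simp
  | succ j ih =>
    have h1 : ∀ p, (∑ i ∈ range (j + 1), g i p) ^ 2 = (∑ i ∈ range j, g i p) ^ 2 +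
        (2 * ((∑ i ∈ range j, g i p) * g j p) + g j p * g j p) := by
      intro p; rw [sum_range_succ]; ring
    simp_rw [h1]
    rw [sum_add_distrib, sum_add_distrib, ← mul_sum]
    have h2 : ∑ p ∈ B, (∑ i ∈ range j, g i p) * g j p ≤ a j * ∑ k ∈ range j, m k := by
      calc ∑ p ∈ B, (∑ i ∈ range j, g i p) * g j p
          ≤ ∑ p ∈ B, (∑ i ∈ range j, g i p) * a j := sum_le_sum fun p _ =>
            mul_le_mul_of_nonneg_left (hga j p) (sum_nonneg fun i _ => hg0 i p)
        _ = a j * ∑ i ∈ range j, ∑ p ∈ B, g i p := by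
            rw [← sum_mul, sum_comm]; ring
        _ ≤ a j * ∑ k ∈ range j, m k :=
            mul_le_mul_of_nonneg_left (sum_le_sum fun i _ => hm i) (ha j)
    have h3 : ∑ p ∈ B, g j p * g j p ≤ a j * m j := by
      calc ∑ p ∈ B, g j p * g j p ≤ ∑ p ∈ B, a j * g j p := sum_le_sum fun p _ =>
            mul_le_mul_of_nonneg_right (hga j p) (hg0 j p)
        _ = a j * ∑ p ∈ B, g j p := by rw [mul_sum]
        _ ≤ a j * m j := mul_le_mul_of_nonneg_left (hm j) (ha j)
    have h4 := hK j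
    push_cast
    nlinarith

/-- The scales. -/
def Rs (s i : ℕ) : ℕ := 4 ^ i * s

theorem Rs_pos {s : ℕ} (hs : 0 < s) (i : ℕ) : 0 < Rs s i := by unfold Rs; positivity

theorem le_Rs (s i : ℕ) : s ≤ Rs s i := Nat.le_mul_of_pos_left s (by positivity)

theorem Rs_succ (s i : ℕ) : Rs s (i + 1) = 4 * Rs s i := by unfold Rs; ring

theorem Rs_mono {s i j : ℕ} (h : i ≤ j) : Rs s i ≤ Rs s j :=
  Nat.mul_le_mul_right _ (Nat.pow_le_pow_right (by norm_num) h)

theorem Rs_le_succ (s i : ℕ) : Rs s i ≤ Rs s (i + 1) := Rs_mono (Nat.le_succ i)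

theorem sum_Rs (s j : ℕ) : 3 * ∑ k ∈ range j, (Rs s k : ℝ) ≤ Rs s j := by
  induction j with
  | zero => simp
  | succ j ih =>
    rw [sum_range_succ, Rs_succ]
    push_cast
    linarith

theorem sum_inv_Rs {s : ℕ} (hs : 0 < s) (j : ℕ) :
    ∑ k ∈ range j, 1 / (Rs s k : ℝ) ≤ 2 / s - 2 / Rs s j := by
  induction j with
  | zero => simp [Rs]
  | succ j ih =>
    rw [sum_range_succ, Rs_succ]
    have hR : (0 : ℝ) < Rs s j := by exact_mod_cast Rs_pos hs j
    have h2 : (2 : ℝ) / ((4 * Rs s j : ℕ) : ℝ) = (1 / 2) * (1 / Rs s j) := by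
      push_cast; field_simp; norm_num
    have h3 : (2 : ℝ) / Rs s j = 2 * (1 / Rs s j) := by ring
    have h4 : (0 : ℝ) < 1 / Rs s j := by positivity
    rw [h2]
    rw [h3] at ih
    linarith

/-- The total flows over `j` scales. -/
noncomputable def G1 (s j : ℕ) (p : ℕ × ℕ) : ℝ := ∑ i ∈ range j, g1 (Rs s i) (Rs s (i + 1)) p

noncomputable def G2 (s j : ℕ) (p : ℕ × ℕ) : ℝ := ∑ i ∈ range j, g2 (Rs s i) (Rs s (i + 1)) p

theorem F1_sum (M : ℕ) (g : ℕ → ℕ × ℕ → ℝ) (H : ℕ → ℕ → ℝ) (j : ℕ) :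
    ∑ i ∈ range j, F1 M (g i) H = F1 M (fun p => ∑ i ∈ range j, g i p) H := by
  unfold F1
  rw [sum_comm]
  exact sum_congr rfl fun p _ => by rw [sum_mul]

theorem F2_sum (M : ℕ) (g : ℕ → ℕ × ℕ → ℝ) (H : ℕ → ℕ → ℝ) (j : ℕ) :
    ∑ i ∈ range j, F2 M (g i) H = F2 M (fun p => ∑ i ∈ range j, g i p) H := by
  unfold F2
  rw [sum_comm]
  exact sum_congr rfl fun p _ => by rw [sum_mul]

theorem AA_tot (H : ℕ → ℕ → ℝ) {s j M : ℕ} (hs : 0 < s) (hM : Rs s j ≤ M) :
    AA (Rs s j) H - AA s H = F1 M (G1 s j) H + F2 M (G2 s j) H := by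
  have h1 : AA (Rs s j) H - AA (Rs s 0) H =
      ∑ i ∈ range j, (AA (Rs s (i + 1)) H - AA (Rs s i) H) :=
    (Finset.sum_range_sub (fun i => AA (Rs s i) H) j).symm
  have h0 : Rs s 0 = s := by simp [Rs]
  rw [h0] at h1
  rw [h1]
  have h2 : ∀ i ∈ range j, AA (Rs s (i + 1)) H - AA (Rs s i) H =
      F1 M (g1 (Rs s i) (Rs s (i + 1))) H + F2 M (g2 (Rs s i) (Rs s (i + 1))) H := fun i hi =>
    AA_sub H (Rs_pos hs i) (Rs_le_succ s i) ((Rs_mono (by
      have := mem_range.1 hi; omega)).trans hM)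
  rw [sum_congr rfl h2, sum_add_distrib, F1_sum, F2_sum]
  rfl

theorem G1_nonneg (s j : ℕ) (p : ℕ × ℕ) : 0 ≤ G1 s j p :=
  sum_nonneg fun i _ => g1_nonneg (Rs_le_succ s i) p

theorem G2_nonneg (s j : ℕ) (p : ℕ × ℕ) : 0 ≤ G2 s j p :=
  sum_nonneg fun i _ => g2_nonneg (Rs_le_succ s i) p

theorem G1_le {s : ℕ} (hs : 0 < s) (j : ℕ) (p : ℕ × ℕ) : G1 s j p ≤ 2 / s := by
  have h1 : G1 s j p ≤ ∑ k ∈ range j, 1 / (Rs s k : ℝ) :=
    sum_le_sum fun i _ => g1_le' p
  have h2 := sum_inv_Rs hs j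
  have h3 : (0 : ℝ) ≤ 2 / Rs s j := by positivity
  linarith

theorem G2_le {s : ℕ} (hs : 0 < s) (j : ℕ) (p : ℕ × ℕ) : G2 s j p ≤ 2 / s := by
  have h1 : G2 s j p ≤ ∑ k ∈ range j, 1 / (Rs s k : ℝ) :=
    sum_le_sum fun i _ => g2_le' (Rs_pos hs i) (Rs_le_succ s i) p
  have h2 := sum_inv_Rs hs j
  have h3 : (0 : ℝ) ≤ 2 / Rs s j := by positivity
  linarith

theorem en_aux {s : ℕ} (hs : 0 < s) (i : ℕ) :
    1 / (Rs s i : ℝ) * (2 * ∑ k ∈ range i, (Rs s (k + 1) : ℝ) + Rs s (i + 1)) ≤ 7 := by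
  have hR : (0 : ℝ) < Rs s i := by exact_mod_cast Rs_pos hs i
  have h1 : ∑ k ∈ range i, (Rs s (k + 1) : ℝ) = 4 * ∑ k ∈ range i, (Rs s k : ℝ) := by
    rw [mul_sum]
    exact sum_congr rfl fun k _ => by rw [Rs_succ]; push_cast; ring
  have h2 := sum_Rs s i
  rw [h1, Rs_succ, one_div, inv_mul_le_iff₀ hR]
  push_cast
  linarith

theorem G1_sq {s : ℕ} (hs : 0 < s) (j M : ℕ) (hM : Rs s j ≤ M) :
    ∑ p ∈ range M ×ˢ range M, G1 s j p ^ 2 ≤ 7 * j := by
  -- only the scales below `j` matter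
  have key := energy_le (range M ×ˢ range M)
    (fun i p => if i < j then g1 (Rs s i) (Rs s (i + 1)) p else 0)
    (fun i => 1 / (Rs s i : ℝ)) (fun i => (Rs s (i + 1) : ℝ)) (K := 7)
    (fun i p => by
      split_ifs
      · exact g1_nonneg (Rs_le_succ s i) p
      · exact le_rfl)
    (fun i p => by
      split_ifs
      · exact g1_le' p
      · positivity)
    (fun i => by positivity)
    (fun i => by
      split_ifs with h
      · exact g1_sum (Rs_pos hs i) (Rs_le_succ s i) ((Rs_mono (by omega)).trans hM)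
      · rw [sum_const_zero]; positivity)
    (fun i => en_aux hs i) j
  refine le_trans (le_of_eq (sum_congr rfl fun p _ => ?_)) key
  unfold G1
  congr 1
  exact sum_congr rfl fun i hi => by rw [if_pos (mem_range.1 hi)]

theorem G2_sq {s : ℕ} (hs : 0 < s) (j M : ℕ) (hM : Rs s j ≤ M) :
    ∑ p ∈ range M ×ˢ range M, G2 s j p ^ 2 ≤ 7 * j := by
  have key := energy_le (range M ×ˢ range M)
    (fun i p => if i < j then g2 (Rs s i) (Rs s (i + 1)) p else 0)
    (fun i => 1 / (Rs s i : ℝ)) (fun i => (Rs s (i + 1) : ℝ)) (K := 7)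
    (fun i p => by
      split_ifs
      · exact g2_nonneg (Rs_le_succ s i) p
      · exact le_rfl)
    (fun i p => by
      split_ifs
      · exact g2_le' (Rs_pos hs i) (Rs_le_succ s i) p
      · positivity)
    (fun i => by positivity)
    (fun i => by
      split_ifs with h
      · exact g2_sum (Rs_pos hs i) (Rs_le_succ s i) ((Rs_mono (by omega)).trans hM)
      · rw [sum_const_zero]; positivity)
    (fun i => en_aux hs i) j
  refine le_trans (le_of_eq (sum_congr rfl fun p _ => ?_)) key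
  unfold G2
  congr 1
  exact sum_congr rfl fun i hi => by rw [if_pos (mem_range.1 hi)]

/-! ### The shift -/

/-- The average over the box `[L, L + R) × [0, R)`. -/
noncomputable def AS (L R : ℕ) (H : ℕ → ℕ → ℝ) : ℝ := AA R (fun x y => H (L + x) y)

/-- The flow of the shift by `L` of the box of side `R`. -/
noncomputable def g3 (L R : ℕ) (p : ℕ × ℕ) : ℝ :=
  ((if p.1 < L then 1 else cc R (p.1 - L)) - cc R p.1) * if p.2 < R then 1 / (R : ℝ) else 0

theorem shift_avg (f : ℕ → ℝ) {L R M : ℕ} (hR : 0 < R) (hM : L + R ≤ M) :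
    (∑ x ∈ range R, f (L + x)) / R - (∑ x ∈ range R, f x) / R =
      ∑ z ∈ range M, ((if z < L then 1 else cc R (z - L)) - cc R z) * (f (z + 1) - f z) := by
  have h1 := avg_eq (fun x => f (L + x)) hR (le_refl R)
  have h2 := avg_eq f hR (show R ≤ M by omega)
  have h3 : ∑ z ∈ range M, (if z < L then 1 else cc R (z - L)) * (f (z + 1) - f z) =
      ∑ z ∈ range (L + R), (if z < L then 1 else cc R (z - L)) * (f (z + 1) - f z) := by
    symm
    refine sum_subset (range_mono hM) fun z _ hz => ?_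
    rw [mem_range, not_lt] at hz
    rw [if_neg (by omega), cc_zero (by omega), zero_mul]
  have h4 : ∑ z ∈ range (L + R), (if z < L then 1 else cc R (z - L)) * (f (z + 1) - f z) =
      (f L - f 0) + ∑ z ∈ range R, cc R z * (f (L + (z + 1)) - f (L + z)) := by
    rw [sum_range_add]
    congr 1
    · rw [← Finset.sum_range_sub f L]
      exact sum_congr rfl fun z hz => by rw [if_pos (mem_range.1 hz), one_mul]
    · refine sum_congr rfl fun z _ => ?_
      rw [if_neg (by omega), Nat.add_sub_cancel_left, add_assoc]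
  simp_rw [sub_mul]
  rw [sum_sub_distrib, h3, h4, h1, h2, add_zero]
  ring

theorem AS_sub (H : ℕ → ℕ → ℝ) {L R M : ℕ} (hR : 0 < R) (hM : L + R ≤ M) :
    AS L R H - AA R H = F1 M (g3 L R) H := by
  have e : ∀ H : ℕ → ℕ → ℝ, AA R H = (∑ y ∈ range R, (∑ x ∈ range R, H x y) / R) / R := by
    intro H
    unfold AA
    rw [← sum_div, ← sum_div, sum_comm]
  unfold AS
  rw [e, e, ← sub_div, ← sum_sub_distrib]
  have : ∀ y, (∑ x ∈ range R, H (L + x) y) / R - (∑ x ∈ range R, H x y) / R =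
      ∑ z ∈ range M, ((if z < L then 1 else cc R (z - L)) - cc R z) * (H (z + 1) y - H z y) :=
    fun y => shift_avg (fun x => H x y) hR hM
  simp_rw [this]
  unfold F1
  rw [sum_product_right, ← sum_ite_lt (show R ≤ M by omega), sum_div]
  refine sum_congr rfl fun y _ => ?_
  split_ifs with hy
  · rw [sum_div]
    refine sum_congr rfl fun z _ => ?_
    unfold g3
    rw [if_pos hy]; ring
  · rw [zero_div]
    symm
    refine sum_eq_zero fun z _ => ?_
    unfold g3
    rw [if_neg hy]; ring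

theorem g3_nonneg {L R : ℕ} (h : R ≤ L) (p : ℕ × ℕ) : 0 ≤ g3 L R p := by
  unfold g3
  refine mul_nonneg ?_ (by split_ifs <;> positivity)
  split_ifs with h1
  · have := cc_le_one R p.1; linarith
  · have := cc_nonneg R (p.1 - L)
    rw [cc_zero (R := R) (z := p.1) (by omega)]; linarith

theorem g3_le {L R : ℕ} (p : ℕ × ℕ) :
    g3 L R p ≤ (if p.1 < L + R then 1 else 0) * if p.2 < R then 1 / (R : ℝ) else 0 := by
  unfold g3
  refine mul_le_mul_of_nonneg_right ?_ (by split_ifs <;> positivity)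
  have h0 := cc_nonneg R p.1
  split_ifs with h1 h2 h2
  · linarith
  · omega
  · have := cc_le_one R (p.1 - L); linarith
  · rw [cc_zero (R := R) (z := p.1 - L) (by omega)]; linarith

theorem g3_le' {L R : ℕ} (p : ℕ × ℕ) : g3 L R p ≤ 1 / R := by
  refine (g3_le p).trans ?_
  have : (0 : ℝ) ≤ 1 / R := by positivity
  split_ifs <;> simp only [one_mul, zero_mul, mul_zero, le_refl] <;> exact this

theorem g3_sq {L R M : ℕ} (hR : 0 < R) (h : R ≤ L) (hL : L ≤ 3 * R) (hM : L + R ≤ M) :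
    ∑ p ∈ range M ×ˢ range M, g3 L R p ^ 2 ≤ 4 := by
  have hR' : (0 : ℝ) < R := by exact_mod_cast hR
  have h1 : ∑ p ∈ range M ×ˢ range M, g3 L R p ≤ L + R := by
    calc ∑ p ∈ range M ×ˢ range M, g3 L R p
        ≤ ∑ p ∈ range M ×ˢ range M,
          ((if p.1 < L + R then (1 : ℝ) else 0) * if p.2 < R then 1 / (R : ℝ) else 0) :=
          sum_le_sum fun p _ => g3_le p
      _ = (∑ z ∈ range M, (if z < L + R then (1 : ℝ) else 0)) *
          ∑ y ∈ range M, (if y < R then 1 / (R : ℝ) else 0) := by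
          rw [sum_product, sum_mul_sum]
      _ = L + R := by
          rw [sum_ind hM, sum_ind (by omega)]
          push_cast
          field_simp
  calc ∑ p ∈ range M ×ˢ range M, g3 L R p ^ 2
      ≤ ∑ p ∈ range M ×ˢ range M, 1 / (R : ℝ) * g3 L R p := sum_le_sum fun p _ => by
        rw [pow_two]
        exact mul_le_mul_of_nonneg_right (g3_le' p) (g3_nonneg h p)
    _ = 1 / (R : ℝ) * ∑ p ∈ range M ×ˢ range M, g3 L R p := by rw [mul_sum]
    _ ≤ 1 / (R : ℝ) * (L + R) := mul_le_mul_of_nonneg_left h1 (by positivity)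
    _ ≤ 4 := by
        rw [one_div, inv_mul_le_iff₀ hR']
        have : (L : ℝ) ≤ 3 * R := by exact_mod_cast hL
        linarith

end Vale.Agent.P145.X.Flow
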