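import Vale.Agent.P145.X.SandS
import Vale.Agent.P145.X.ConfL

/-!
P145, X-level: the sandwich for the measures `nuX t P Q`.
-/

namespace Vale.Agent.P145.X.Sb

open Filter Topology Set MeasureTheory
open Vale.Agent.P152 (Ori)
open Vale.Agent.P145.FA (Hgt)
open Vale.Agent.P145.FB
open Vale.Agent.P145.Top (Om Cone Alg Pol Mom vh EE hv hvl Fs sq S_mono)
open Vale.Agent.P145.Dom (ze)
open Vale.Agent.P145.PT (TestOn)

/-! ### Test functions on the lattice -/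

theorem vert_in {D : Set (ℝ × ℝ)} (hD : IsOpen D) (hb : Bornology.IsBounded D)
    {g : ℝ × ℝ → ℝ} (hg : TestOn D g) {δ : ℕ → ℝ} (hδ : ∀ n, 0 < δ n)
    (hlim : Tendsto δ atTop (𝓝 0)) : ∀ᶠ n in atTop, ∀ v : ℤ × ℤ,
      g (δ n * v.1, δ n * v.2) ≠ 0 → v ∈ inV (Fs (δ n) D : Set (ℤ × ℤ)) := by
  have hK : IsCompact (tsupport g) := hg.2.1
  obtain ⟨r, hr, hsub⟩ := hK.exists_cthickening_subset_open hD hg.2.2
  filter_upwards [hlim.eventually (gt_mem_nhds hr)] with n hn v hv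
  have hz : ((δ n * v.1, δ n * v.2) : ℝ × ℝ) ∈ tsupport g := subset_tsupport _ hv
  have key : ∀ f : ℤ × ℤ, (f.1 = v.1 ∨ f.1 = v.1 - 1) → (f.2 = v.2 ∨ f.2 = v.2 - 1) →
      f ∈ (Fs (δ n) D : Set (ℤ × ℤ)) := by
    intro f h1 h2
    rw [Finset.mem_coe, Top.mem_Fs (hδ n) hb]
    intro w hw
    refine hsub (Metric.mem_cthickening_of_dist_le w _ r _ hz ?_)
    obtain ⟨w1, w2, w3, w4⟩ := hw
    have hδn := hδ n
    rw [Prod.dist_eq, Real.dist_eq, Real.dist_eq]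
    refine max_le ?_ ?_
    · simp only
      rcases h1 with h1 | h1
      · rw [h1] at w1 w2
        rw [abs_le]
        constructor <;> nlinarith
      · rw [h1] at w1 w2
        push_cast at w1 w2
        rw [abs_le]
        constructor <;> nlinarith
    · simp only
      rcases h2 with h2 | h2
      · rw [h2] at w3 w4
        rw [abs_le]
        constructor <;> nlinarith
      · rw [h2] at w3 w4
        push_cast at w3 w4
        rw [abs_le]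
        constructor <;> nlinarith
  exact ⟨key v (Or.inl rfl) (Or.inl rfl), key _ (Or.inr rfl) (Or.inl rfl),
    key _ (Or.inl rfl) (Or.inr rfl), key _ (Or.inr rfl) (Or.inr rfl)⟩

theorem on_hv {V : Set (ℤ × ℤ)} {δ : ℝ} {g : ℝ × ℝ → ℝ}
    (h : ∀ v : ℤ × ℤ, g (δ * v.1, δ * v.2) ≠ 0 → v ∈ V) : On V (hv δ g) := by
  intro ω ω' hω
  unfold hv
  congr 1
  refine finsum_congr fun v => ?_
  by_cases h0 : g (δ * v.1, δ * v.2) = 0
  · rw [h0, mul_zero, mul_zero]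
  · rw [hω v (h v h0)]

theorem on_hvl {V : Set (ℤ × ℤ)} {δ : ℝ} {l : List (ℝ × ℝ → ℝ)}
    (h : ∀ g ∈ l, ∀ v : ℤ × ℤ, g (δ * v.1, δ * v.2) ≠ 0 → v ∈ V) : On V (hvl δ l) := by
  intro ω ω' hω
  unfold hvl
  congr 1
  exact List.map_congr_left fun g hg => on_hv (h g hg) ω ω' hω

/-- The square of a product is at most the sum of the powers. -/
theorem sq_prod_le (l : List ℝ) (hl : l ≠ []) :
    l.prod ^ 2 ≤ (l.map fun a => a ^ (2 * l.length)).sum := by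
  classical
  have hne : l.toFinset.Nonempty := by
    rw [List.toFinset_nonempty_iff]
    exact hl
  obtain ⟨a, ha, hmax⟩ := l.toFinset.exists_max_image (fun a => |a|) hne
  rw [List.mem_toFinset] at ha
  have h1 : ∀ m : List ℝ, (∀ b ∈ m, |b| ≤ |a|) → |m.prod| ≤ |a| ^ m.length := by
    intro m
    induction m with
    | nil => intro _; simp
    | cons b m ih =>
      intro hm
      rw [List.prod_cons, List.length_cons, abs_mul, pow_succ, mul_comm (|a| ^ m.length)]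
      exact mul_le_mul (hm b List.mem_cons_self)
        (ih fun b' hb' => hm b' (List.mem_cons_of_mem _ hb')) (abs_nonneg _) (abs_nonneg _)
  have h2 := h1 l fun b hb => hmax b (List.mem_toFinset.2 hb)
  have h3 : l.prod ^ 2 ≤ a ^ (2 * l.length) := by
    calc l.prod ^ 2 = |l.prod| ^ 2 := (sq_abs _).symm
      _ ≤ (|a| ^ l.length) ^ 2 := pow_le_pow_left₀ (abs_nonneg _) h2 2
      _ = a ^ (2 * l.length) := by rw [← pow_mul, mul_comm, pow_mul, sq_abs, ← pow_mul]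
  refine h3.trans ?_
  exact List.single_le_sum (l := l.map fun a => a ^ (2 * l.length)) (by
    intro x hx
    obtain ⟨b, -, rfl⟩ := List.mem_map.1 hx
    exact (even_two_mul _).pow_nonneg b) _ (List.mem_map.2 ⟨a, ha, rfl⟩)

theorem hvl_sq_le (δ : ℝ) (l : List (ℝ × ℝ → ℝ)) (hl : l ≠ []) (ω : Om) :
    hvl δ (l ++ l) ω ≤ (l.map fun g => hv δ g ω ^ (2 * l.length)).sum := by
  rw [hvl_append, ← _root_.sq]
  have h := sq_prod_le (l.map fun g => hv δ g ω) (by simpa using hl)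
  rw [List.map_map, List.length_map] at h
  exact h

/-! ### Moments -/

variable {c t : ℝ} {P : Measure (Ori (ℤ × ℤ))} {Q : Set Pt → Prop}

theorem alg_hv {δ : ℝ} (hδ : 0 < δ) {D : Set (ℝ × ℝ)} (hb : Bornology.IsBounded D)
    {g : ℝ × ℝ → ℝ} (hg : TestOn D g) : Alg (hv δ g) := by
  obtain ⟨R, hR⟩ := hb.subset_ball (0 : ℝ × ℝ)
  obtain ⟨B, hB⟩ := Top.hv_eq_hB (R := R) hδ
  exact (Top.alg_hB (B := B) (δ := δ) (f := g)).of_eq fun ω =>
    (hB g (fun z hz => hR (hg.2.2 (subset_tsupport _ hz))) ω).symm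

/-- Sums of powers. -/
theorem II_list (hint : S_int t P) (hQ : LocS univ (ind Q)) (h0 : ind Q ∅ = 0)
    (l : List (Om → ℝ)) (hl : ∀ A ∈ l, Alg A) :
    (Integrable (fun x => ind Q (bl x) * (l.map fun A => A (vm x.1)).sum) (MU t P)) ∧
    II t P (ind Q) (fun ω => (l.map fun A => A ω).sum) = (l.map fun A => II t P (ind Q) A).sum := by
  induction l with
  | nil => simp [II]
  | cons A l ih =>
    obtain ⟨i1, i2⟩ := ih fun B hB => hl B (List.mem_cons_of_mem _ hB)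
    have i3 := hint (ind Q) A hQ h0 (hl A List.mem_cons_self)
    simp only [List.map_cons, List.sum_cons, mul_add]
    refine ⟨i3.add i1, ?_⟩
    unfold II at i2 ⊢
    simp only [mul_add]
    rw [integral_add i3 i1, i2]

/-- **Moments** of products given a macroscopic circuit. -/
theorem mom_one (hint : S_int t P) (hloc : S_loc) {δ : ℕ → ℝ} (hδ : ∀ n, 0 < δ n)
    (hlim : Tendsto δ atTop (𝓝 0)) (hmm : S_mm t P δ) (hrsw : S_rsw t P) {R : ℝ} (hR : 1 ≤ R)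
    (l : List (ℝ × ℝ → ℝ)) (hl : ∀ g ∈ l, TestOn (Metric.ball (0 : ℝ × ℝ) R) g) :
    ∃ C : ℝ, 0 ≤ C ∧ ∀ᶠ n in atTop, ∀ (p : ℤ × ℤ) (s : ℤ), |δ n * p.1| ≤ R → |δ n * p.2| ≤ R →
      R⁻¹ ≤ δ n * s → δ n * s ≤ R → 1 ≤ s ∧ 0 < II t P (ind (Zr p s)) (fun _ => 1) ∧
        II t P (ind (Zr p s)) (hvl (δ n) (l ++ l)) ≤ C * II t P (ind (Zr p s)) (fun _ => 1) := by
  have hR0 : 0 < R := by linarith
  obtain ⟨c₁, hc₁, r₀, hr₀, hcirc⟩ := hrsw
  -- `s` is large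
  have hs : ∀ᶠ n in atTop, ∀ s : ℤ, R⁻¹ ≤ δ n * s → r₀ ≤ s ∧ 1 ≤ s := by
    have h1 : 0 < R⁻¹ / (|(r₀ : ℝ)| + 1) := by positivity
    filter_upwards [hlim.eventually (gt_mem_nhds h1)] with n hn s hs
    have hpos := hδ n
    have h2 : δ n * (|(r₀ : ℝ)| + 1) < R⁻¹ := by
      rwa [lt_div_iff₀ (by positivity)] at hn
    have h3 : |(r₀ : ℝ)| + 1 < (s : ℝ) := by
      by_contra h4
      push Not at h4
      nlinarith
    have h5 : (r₀ : ℝ) < s := by linarith [le_abs_self (r₀ : ℝ)]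
    have h6 : (1 : ℝ) < s := by linarith [abs_nonneg (r₀ : ℝ)]
    exact ⟨by exact_mod_cast h5.le, by exact_mod_cast h6.le⟩
  obtain ⟨C, hC0, hC⟩ := hmm R hR l.length
  -- the bound for each factor
  have hone : ∀ g ∈ l, ∀ᶠ n in atTop, ∀ (p : ℤ × ℤ) (s : ℤ), |δ n * p.1| ≤ R →
      |δ n * p.2| ≤ R → R⁻¹ ≤ δ n * s → δ n * s ≤ R →
        II t P (ind (Zr p s)) (fun ω => hv (δ n) g ω ^ (2 * l.length)) ≤
          C * ((∫ z, g z ^ 2) + 1) ^ l.length := fun g hg =>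
    hC g (hl g hg) 1 one_pos
  have hall : ∀ᶠ n in atTop, ∀ g ∈ {g | g ∈ l}, ∀ (p : ℤ × ℤ) (s : ℤ), |δ n * p.1| ≤ R →
      |δ n * p.2| ≤ R → R⁻¹ ≤ δ n * s → δ n * s ≤ R →
        II t P (ind (Zr p s)) (fun ω => hv (δ n) g ω ^ (2 * l.length)) ≤
          C * ((∫ z, g z ^ 2) + 1) ^ l.length :=
    (Filter.eventually_all_finite (List.finite_toSet l)).2 fun g hg => hone g hg
  set K : ℝ := (l.map fun g => C * ((∫ z, g z ^ 2) + 1) ^ l.length).sum with hK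
  have hK0 : 0 ≤ K := by
    refine List.sum_nonneg fun x hx => ?_
    obtain ⟨g, -, rfl⟩ := List.mem_map.1 hx
    have : 0 ≤ ∫ z, g z ^ 2 := integral_nonneg fun z => sq_nonneg _
    positivity
  refine ⟨K / c₁ + 1, by positivity, ?_⟩
  filter_upwards [hs, hall] with n h1 h2 p s a1 a2 a3 a4
  obtain ⟨b1, b2⟩ := h1 s a3
  obtain ⟨d1, d2⟩ := hcirc s b1 p
  have hd : 0 < II t P (ind (Zr p s)) (fun _ => 1) := hc₁.trans_le d1
  refine ⟨b2, hd, ?_⟩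
  obtain ⟨-, hFn⟩ := hloc p s b2
  have hL : LocS univ (ind (Zr p s)) := locS_mono hFn.loc (subset_univ _)
  by_cases hnil : l = []
  · have e : II t P (ind (Zr p s)) (hvl (δ n) (l ++ l)) = II t P (ind (Zr p s)) (fun _ => 1) := by
      rw [hnil]
      rfl
    rw [e]
    have : 0 ≤ K / c₁ := by positivity
    nlinarith
  · have hb : Bornology.IsBounded (Metric.ball (0 : ℝ × ℝ) R) := Metric.isBounded_ball
    obtain ⟨i1, i2⟩ := II_list hint hL hFn.pin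
      (l.map fun g ω => hv (δ n) g ω ^ (2 * l.length)) (by
        intro A hA
        obtain ⟨g, hg, rfl⟩ := List.mem_map.1 hA
        exact (alg_hv (hδ n) hb (hl g hg)).pow _)
    simp only [List.map_map, Function.comp_def] at i1 i2
    have i3 : Integrable (fun x => ind (Zr p s) (bl x) * hvl (δ n) (l ++ l) (vm x.1))
        (MU t P) := by
      refine hint _ _ hL hFn.pin ?_
      obtain ⟨B, hB⟩ := Top.hv_eq_hB (R := R) (hδ n)
      refine (Top.alg_hl (B := B) (δ := δ n) (l ++ l)).of_eq fun ω => ?_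
      unfold hvl Top.hl
      congr 1
      refine List.map_congr_left fun g hg => (hB g (fun z hz => ?_) ω).symm
      have hg' : g ∈ l := by
        rcases List.mem_append.1 hg with h | h <;> exact h
      exact (hl g hg').2.2 (subset_tsupport _ hz)
    have e1 : II t P (ind (Zr p s)) (hvl (δ n) (l ++ l)) ≤
        II t P (ind (Zr p s)) (fun ω => (l.map fun g => hv (δ n) g ω ^ (2 * l.length)).sum) := by
      refine integral_mono i3 i1 fun x => ?_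
      exact mul_le_mul_of_nonneg_left (hvl_sq_le (δ n) l hnil (vm x.1)) (ind_nonneg _)
    have e2 : (l.map fun g => II t P (ind (Zr p s)) (fun ω => hv (δ n) g ω ^ (2 * l.length))).sum ≤
        K := by
      rw [hK]
      exact List.sum_le_sum fun g hg => h2 g hg p s a1 a2 a3 a4
    have e3 : K ≤ (K / c₁ + 1) * II t P (ind (Zr p s)) (fun _ => 1) := by
      have h5 : K / c₁ * c₁ = K := div_mul_cancel₀ K hc₁.ne'
      have h6 : 0 ≤ K / c₁ := by positivity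
      nlinarith
    rw [i2] at e1
    linarith

theorem support_in {δ : ℝ} {D : Set (ℝ × ℝ)} {V : Set (ℤ × ℤ)}
    (hV : ∀ v : ℤ × ℤ, (δ * (v.1 : ℝ), δ * (v.2 : ℝ)) ∈ D → v ∈ V)
    {g : ℝ × ℝ → ℝ} (hg : TestOn D g) (v : ℤ × ℤ)
    (hv : g (δ * v.1, δ * v.2) ≠ 0) : v ∈ V :=
  hV v (hg.2.2 (subset_tsupport _ hv))

/-- **Moments** of products given a monotone event which contains a macroscopic circuit. -/
theorem mom_Q (hint : S_int t P) (hemom : S_emom t P) (hloc : S_loc) (hrsw : S_rsw t P)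
    {δ : ℕ → ℝ} (hδ : ∀ n, 0 < δ n) (hlim : Tendsto δ atTop (𝓝 0)) (hmm : S_mm t P δ)
    {D : Set (ℝ × ℝ)} {R : ℝ} (hR : 1 ≤ R) (hDR : D ⊆ Metric.ball 0 R)
    (l : List (ℝ × ℝ → ℝ)) (hl : ∀ g ∈ l, TestOn D g ∧ ∀ z, 0 ≤ g z) :
    ∃ C : ℝ, 0 ≤ C ∧ ∀ᶠ n in atTop, ∀ (Q : Set Pt → Prop) (p : ℤ × ℤ) (s : ℤ),
      LocS univ (ind Q) → Monotone (ind Q) → (∀ B, Q B → Zr p (4 * s) B) →
      |δ n * p.1| ≤ R → |δ n * p.2| ≤ R → R⁻¹ ≤ δ n * s → δ n * s ≤ R →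
      (∀ v : ℤ × ℤ, (δ n * (v.1 : ℝ), δ n * (v.2 : ℝ)) ∈ D → v ∈ inV (bx p (8 * s))ᶜ) →
      ind Q ∅ = 0 ∧
      II t P (ind Q) (hvl (δ n) (l ++ l)) ≤ C * II t P (ind Q) (fun _ => 1) := by
  have hb : Bornology.IsBounded D := Metric.isBounded_ball.subset hDR
  obtain ⟨C, hC0, hC⟩ := mom_one hint hloc hδ hlim hmm hrsw hR l fun g hg =>
    ⟨(hl g hg).1.1, (hl g hg).1.2.1, (hl g hg).1.2.2.trans hDR⟩
  refine ⟨C, hC0, ?_⟩
  filter_upwards [hC] with n hn Q p s hQ hQm hQZ a1 a2 a3 a4 hV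
  obtain ⟨b1, b2, b3⟩ := hn p s a1 a2 a3 a4
  have h4 : 1 ≤ 4 * s := by linarith
  have h0 : ind Q ∅ = 0 := by
    refine ind_zero fun h => ?_
    have h1 := hQZ ∅ h
    have h2 := (hloc p (4 * s) h4).2.pin
    rw [ind_one h1] at h2
    norm_num at h2
  refine ⟨h0, ?_⟩
  have hl2 : ∀ g ∈ l ++ l, TestOn D g ∧ ∀ z, 0 ≤ g z := by
    intro g hg
    rcases List.mem_append.1 hg with hg | hg <;> exact hl g hg
  have key := hemom p s (ind Q) (hvl (δ n) (l ++ l)) b1 ⟨ind_nonneg, hQ, h0⟩ hQm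
    (fun B hB => hQZ B (ind_ne.1 hB)) (cone_hvl (hδ n) hb hl2)
    (on_hvl fun g hg v hv => support_in hV (hl2 g hg).1 v hv)
  have hpos : 0 ≤ II t P (ind Q) (fun _ => 1) :=
    integral_nonneg fun x => by
      simp only [mul_one]
      exact ind_nonneg _
  have h5 : II t P (ind Q) (hvl (δ n) (l ++ l)) * II t P (ind (Zr p s)) (fun _ => 1) ≤
      (C * II t P (ind Q) (fun _ => 1)) * II t P (ind (Zr p s)) (fun _ => 1) := by
    refine key.trans ((mul_le_mul_of_nonneg_left b3 hpos).trans (le_of_eq ?_))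
    ring
  exact le_of_mul_le_mul_right h5 b2

/-- **The sandwich** for the measures `nuX t P Q`. -/
theorem sand_n (hc : 0 < c) (hm : S_mono c) (hint : S_int t P) (hlow : S_low c t P)
    (hup : S_up c t P) (hemom : S_emom t P) (hloc : S_loc) (hrsw : S_rsw t P)
    {δ : ℕ → ℝ} (hδ : ∀ n, 0 < δ n) (hlim : Tendsto δ atTop (𝓝 0)) (hmm : S_mm t P δ)
    {D₁ D₂ : Set (ℝ × ℝ)} (hD₁ : IsOpen D₁) (hb₂ : Bornology.IsBounded D₂) (hsub : D₁ ⊆ D₂)
    {R : ℝ} (hR : 1 ≤ R) (hDR : D₁ ⊆ Metric.ball 0 R)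
    (L : List (List (ℝ × ℝ → ℝ))) (hL : ∀ l ∈ L, ∀ g ∈ l, TestOn D₁ g ∧ ∀ z, 0 ≤ g z) :
    ∃ C : ℝ, 0 ≤ C ∧ ∀ᶠ n in atTop, ∀ (η : ℝ) (Q : Set Pt → Prop) (p : ℤ × ℤ) (s : ℤ), 0 ≤ η →
      Fn (iE (Fs (δ n) D₁ : Set (ℤ × ℤ)))ᶜ (ind Q) → Monotone (ind Q) →
      (∀ B, Q B → Zr p (4 * s) B) →
      |δ n * p.1| ≤ R → |δ n * p.2| ≤ R → R⁻¹ ≤ δ n * s → δ n * s ≤ R →
      (∀ v : ℤ × ℤ, (δ n * (v.1 : ℝ), δ n * (v.2 : ℝ)) ∈ D₁ → v ∈ inV (bx p (8 * s))ᶜ) →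
      0 < II t P (ind Q) (fun _ => 1) →
      II t P (ind fun B => Q B ∧
        ¬ Conf B (Fs (δ n) D₂ : Set (ℤ × ℤ))ᶜ (Fs (δ n) D₁ : Set (ℤ × ℤ))ᶜ) (fun _ => 1) ≤
        η ^ 2 * II t P (ind Q) (fun _ => 1) →
      Mom (nuX t P Q) ∧ ∀ l ∈ L,
        EE c (δ n) D₁ (hvl (δ n) l) ≤ ∫ ω, hvl (δ n) l ω ∂(nuX t P Q) ∧
        ∫ ω, hvl (δ n) l ω ∂(nuX t P Q) ≤ EE c (δ n) D₂ (hvl (δ n) l) + η * C := by
  have hb₁ : Bornology.IsBounded D₁ := hb₂.subset hsub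
  -- the constants
  have hmomL : ∃ C : ℝ, 0 ≤ C ∧ ∀ᶠ n in atTop, ∀ l ∈ L, ∀ (Q : Set Pt → Prop) (p : ℤ × ℤ) (s : ℤ),
      LocS univ (ind Q) → Monotone (ind Q) → (∀ B, Q B → Zr p (4 * s) B) →
      |δ n * p.1| ≤ R → |δ n * p.2| ≤ R → R⁻¹ ≤ δ n * s → δ n * s ≤ R →
      (∀ v : ℤ × ℤ, (δ n * (v.1 : ℝ), δ n * (v.2 : ℝ)) ∈ D₁ → v ∈ inV (bx p (8 * s))ᶜ) →
      II t P (ind Q) (hvl (δ n) (l ++ l)) ≤ C ^ 2 * II t P (ind Q) (fun _ => 1) := by
    clear hup hlow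
    induction L with
    | nil =>
      refine ⟨0, le_rfl, Eventually.of_forall fun n l hl => ?_⟩
      exact absurd hl List.not_mem_nil
    | cons l L ih =>
      obtain ⟨C, hC0, hC⟩ := ih fun l' hl' => hL l' (List.mem_cons_of_mem _ hl')
      obtain ⟨C', hC'0, hC'⟩ := mom_Q hint hemom hloc hrsw hδ hlim hmm hR hDR l
        (hL l List.mem_cons_self)
      refine ⟨C + C' + 1, by positivity, ?_⟩
      filter_upwards [hC, hC'] with n h1 h2 l' hl' Q p s hQ hQm hQZ a1 a2 a3 a4 hV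
      have hpos : 0 ≤ II t P (ind Q) (fun _ => 1) :=
        integral_nonneg fun x => by
          simp only [mul_one]
          exact ind_nonneg _
      rcases List.mem_cons.1 hl' with rfl | hl'
      · refine (h2 Q p s hQ hQm hQZ a1 a2 a3 a4 hV).2.trans
          (mul_le_mul_of_nonneg_right ?_ hpos)
        nlinarith
      · refine (h1 l' hl' Q p s hQ hQm hQZ a1 a2 a3 a4 hV).trans
          (mul_le_mul_of_nonneg_right ?_ hpos)
        exact pow_le_pow_left₀ hC0 (by linarith) 2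
  obtain ⟨C, hC0, hC⟩ := hmomL
  refine ⟨C, hC0, ?_⟩
  -- the test functions live on the interior vertices
  have hsupp : ∀ᶠ n in atTop, ∀ l ∈ L, ∀ g ∈ l, ∀ v : ℤ × ℤ, g (δ n * v.1, δ n * v.2) ≠ 0 →
      v ∈ inV (Fs (δ n) D₁ : Set (ℤ × ℤ)) := by
    have h1 : ∀ᶠ n in atTop, ∀ l ∈ {l | l ∈ L}, ∀ g ∈ {g | g ∈ l}, ∀ v : ℤ × ℤ,
        g (δ n * v.1, δ n * v.2) ≠ 0 → v ∈ inV (Fs (δ n) D₁ : Set (ℤ × ℤ)) :=
      (Filter.eventually_all_finite (List.finite_toSet L)).2 fun l hl =>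
        (Filter.eventually_all_finite (List.finite_toSet l)).2 fun g hg =>
          vert_in hD₁ hb₁ (hL l hl g hg).1 hδ hlim
    exact h1
  filter_upwards [hC, hsupp] with n hn1 hn2 η Q p s hη hQ hQm hQZ a1 a2 a3 a4 hV hpos hgap
  have hQu : LocS univ (ind Q) := locS_mono hQ.loc (subset_univ _)
  have hx := xevQ hint hQu hQ.pin hpos
  refine ⟨nuX_mom hint hQu hQ.pin hpos, fun l hl => ?_⟩
  have hA := cone_hvl (hδ n) hb₁ (hL l hl)
  have hOn : On (inV (Fs (δ n) D₁ : Set (ℤ × ℤ))) (hvl (δ n) l) :=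
    on_hvl fun g hg v hv => hn2 l hl g hg v hv
  set F := Fs (δ n) D₁ with hF
  set F' := Fs (δ n) D₂ with hF'
  have hFF : F ⊆ F' := Top.Fs_mono (hδ n) hsub hb₂
  -- the confinement
  have hcl := conf_loc F F'
  have hQC := locS_and hQ.loc hcl
  have hQCm : Monotone (ind fun B => Q B ∧ Conf B (F' : Set (ℤ × ℤ))ᶜ (F : Set (ℤ × ℤ))ᶜ) :=
    mono_ind fun B B' hBB h => ⟨of_mono_ind hQm hBB h.1, conf_mono hBB h.2⟩
  have hQCu := locS_mono hQC (subset_univ _)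
  have hQN := locS_and hQu (locS_not (locS_mono hcl (subset_univ _)))
  have h0 : ind (fun B => Q B ∧ Conf B (F' : Set (ℤ × ℤ))ᶜ (F : Set (ℤ × ℤ))ᶜ) ∅ = 0 := by
    refine ind_zero fun h => ?_
    have := hQ.pin
    rw [ind_one h.1] at this
    norm_num at this
  have f1 := hlow F (ind Q) (hvl (δ n) l) hQ hA
  have f2 := hup F F' (ind fun B => Q B ∧ Conf B (F' : Set (ℤ × ℤ))ᶜ (F : Set (ℤ × ℤ))ᶜ)
    (hvl (δ n) l) hFF ⟨ind_nonneg, hQC, h0⟩ hQCm (fun B hB => (ind_ne.1 hB).2) hA hOn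
  rw [II_ind_one hQu, II_ind hQu] at f1
  rw [II_ind_one hQCu, II_ind hQCu] at f2
  rw [II_ind_one hQN, II_ind_one hQu] at hgap
  have f3 : 0 ≤ EE c (δ n) D₂ (hvl (δ n) l) := by
    obtain ⟨ρ, hρ, e⟩ := Top.exists_meas hc (Fs (δ n) D₂)
    have h1 : 0 ≤ ∫ ω, hvl (δ n) l ω ∂ρ :=
      hρ.nonneg (fun v => by rw [e]; exact (hm _ _ subset_rfl v).1) hA
    rw [e] at h1
    exact h1
  have f4 := hn1 l hl Q p s hQu hQm hQZ a1 a2 a3 a4 hV
  rw [II_ind_one hQu, II_ind hQu] at f4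
  have hZ : MeasurableSet {x : Hgt × Mk | Conf (bl x) (F' : Set (ℤ × ℤ))ᶜ (F : Set (ℤ × ℤ))ᶜ} :=
    measQ (locS_mono hcl (subset_univ _))
  refine hx.sand (Z := {x : Hgt × Mk | Conf (bl x) (F' : Set (ℤ × ℤ))ᶜ (F : Set (ℤ × ℤ))ᶜ}) hZ
    hA f3 hη hC0 f1 f2 hgap ?_
  refine le_trans (le_of_eq ?_) f4
  refine integral_congr_ae (ae_of_all _ fun x => ?_)
  simp only []
  rw [hvl_append, _root_.sq]

end Vale.Agent.P145.X.Sb
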