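import Vale.Agent.P145.X.Frame
import Vale.Agent.P145.X.SandT

/-!
P145, X-level: the sandwich half of the frame from `Sb.sand_n`.
-/

set_option autoImplicit false

namespace Vale.Agent.P145.X

open Filter Topology Set MeasureTheory
open Vale.Agent.P152 (Ori)
open Vale.Agent.P145.FB (Pt)
open Vale.Agent.P145.PT Vale.Agent.P145.Top

theorem nuInt_of {t : ℝ} {P : Measure (Ori (ℤ × ℤ))} (hint : S_int t P) :
    NuInt t P (Sb.nuX t P) := fun _ h h0 hpos _ hA => Sb.nuX_int hint h h0 hpos hA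

theorem sandH_of {c t : ℝ} {P : Measure (Ori (ℤ × ℤ))} {δ : ℕ → ℝ} (hc : 0 < c) (hm : S_mono c)
    (hint : S_int t P) (hlow : S_low c t P) (hup : S_up c t P) (hemom : S_emom t P)
    (hloc : S_loc) (hrsw : S_rsw t P) (hδ : ∀ n, 0 < δ n) (hlim : Tendsto δ atTop (𝓝 0))
    (hmm : S_mm t P δ) : SandH c t P δ (Sb.nuX t P) := by
  intro D₁ D₂ hD1 _ hb hcl R hR hDR L hL
  obtain ⟨C, hC0, hC⟩ := Sb.sand_n hc hm hint hlow hup hemom hloc hrsw hδ hlim hmm hD1 hb
    (subset_closure.trans hcl) hR hDR L hL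
  refine ⟨C, hC0, fun η hη => ?_⟩
  filter_upwards [hC] with n hn Q p s
  exact hn η Q p s hη

/-- `S_xst0` from the X-level statements and the Schwinger-Dyson half. -/
theorem xst0_of' {c t κ : ℝ} {P : Measure (Ori (ℤ × ℤ))} {δ : ℕ → ℝ} (hc : 0 < c)
    (hδ : ∀ n, 0 < δ n) (hlim : Tendsto δ atTop (𝓝 0)) (hm : S_mono c) (hint : S_int t P)
    (hlow : S_low c t P) (hup : S_up c t P) (hL : S_loc) (hrsw : S_rsw t P) (hgap : S_gap t P)
    (hpos : S_pos t P) (hemom : S_emom t P) (hmm : S_mm t P δ) (hgeom : S_geom) (hfar : S_far)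
    (hsd : SdH t κ P δ) : S_xst0 c κ δ :=
  xst0_of hδ hlim hint hL hrsw hgap hpos hemom hmm hgeom hfar (nuInt_of hint)
    (sandH_of hc hm hint hlow hup hemom hL hrsw hδ hlim hmm) hsd

end Vale.Agent.P145.X
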