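import Vale.Agent.P145.X.Stmt
import Vale.Agent.P145.X.Shell2

/-!
P145, block F-X: elementary facts for the shell of circuits (coordinates, scales, domains).
-/

namespace Vale.Agent.P145.X

open Relation Metric Filter Topology
open Vale.Agent.P145.FB (Pt o1 o2 e1 e2 fine Ann)

private theorem ga_af_inj {f g : ℤ × ℤ} (h : af f = af g) : f = g := by
  have h1 := congrArg Prod.fst h
  have h2 := congrArg Prod.snd h
  simp only [af] at h1 h2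
  exact Prod.ext (by omega) (by omega)

theorem stp_symm (B : Set Pt) (u v : ℤ × ℤ) (h : stp B u v) : stp B v u := by
  obtain ⟨w, hw, h | h⟩ := h
  · exact ⟨w, hw, Or.inr h⟩
  · exact ⟨w, hw, Or.inl h⟩

theorem stp_le (B : Set Pt) (u v : ℤ × ℤ) (h : stp B u v) :
    |u.1 - v.1| ≤ 1 ∧ |u.2 - v.2| ≤ 1 := by
  have key : ∀ (w : Pt) (u v : ℤ × ℤ), o1 w = af u → o2 w = af v →
      |u.1 - v.1| ≤ 1 ∧ |u.2 - v.2| ≤ 1 := by
    intro w u v h1 h2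
    have h3 := congrArg Prod.fst h1
    have h4 := congrArg Prod.snd h1
    have h5 := congrArg Prod.fst h2
    have h6 := congrArg Prod.snd h2
    unfold o1 at h3 h4
    unfold o2 at h5 h6
    by_cases he : Even (w.1 + w.2)
    · simp only [af, if_pos he] at h3 h4 h5 h6
      rw [abs_le, abs_le]
      omega
    · simp only [af, if_neg he] at h3 h4 h5 h6
      rw [abs_le, abs_le]
      omega
  obtain ⟨w, -, h | h⟩ := h
  · exact key w u v h.1 h.2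
  · have := key w v u h.1 h.2
    rw [abs_sub_comm, abs_sub_comm u.2]
    exact this

/-- The box form of the confinement by a circuit. -/
theorem Conf.cbox {B : Set Pt} {p : ℤ × ℤ} {r : ℤ} (h : Conf B (bx p r) (bx p (2 * r)))
    {u v : ℤ × ℤ} (h1 : |u.1 - p.1| ≤ r - 1) (h2 : |u.2 - p.2| ≤ r - 1)
    (huv : ReflTransGen (stp B) u v) : |v.1 - p.1| ≤ 2 * r ∧ |v.2 - p.2| ≤ 2 * r := by
  rw [abs_le] at h1 h2
  have h3 := h u (by simp only [bx, Set.mem_ofPred_eq]; omega) v huv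
  simp only [bx, Set.mem_ofPred_eq] at h3
  rw [abs_le, abs_le]
  omega

/-! ### Domains -/

theorem of_mem_Fs {δ : ℝ} {D : Set (ℝ × ℝ)} {f : ℤ × ℤ} (h : f ∈ Top.Fs δ D) :
    Top.sq δ f ⊆ D := by
  classical
  unfold Top.Fs at h
  split_ifs at h with hf
  · simpa using h
  · simp at h

theorem fpt_mem_sq {δ : ℝ} (hδ : 0 ≤ δ) (f : ℤ × ℤ) : fpt δ f ∈ Top.sq δ f := by
  refine ⟨le_refl _, ?_, le_refl _, ?_⟩ <;> simp only [fpt] <;> nlinarith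

theorem of_mem_Fs' {δ : ℝ} (hδ : 0 ≤ δ) {D : Set (ℝ × ℝ)} {f : ℤ × ℤ} (h : f ∈ Top.Fs δ D) :
    fpt δ f ∈ D := of_mem_Fs h (fpt_mem_sq hδ f)

theorem sq_finite {δ : ℝ} (hδ : 0 < δ) {D : Set (ℝ × ℝ)} (hD : Bornology.IsBounded D) :
    {f : ℤ × ℤ | Top.sq δ f ⊆ D}.Finite := by
  obtain ⟨M, hM⟩ := hD.subset_closedBall (0 : ℝ × ℝ)
  refine ((int_finite (M := M) hδ).prod (int_finite (M := M) hδ)).subset ?_
  intro f hf
  have h1 : dist (fpt δ f) 0 ≤ M := hM (hf (fpt_mem_sq hδ.le f))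
  rw [Prod.dist_eq] at h1
  have h4 := (le_max_left _ _).trans h1
  have h5 := (le_max_right _ _).trans h1
  simp only [Prod.fst_zero, Prod.snd_zero, dist_zero_right, Real.norm_eq_abs] at h4 h5
  exact ⟨h4, h5⟩

theorem mem_Fs_iff {δ : ℝ} (hδ : 0 < δ) {D : Set (ℝ × ℝ)} (hD : Bornology.IsBounded D)
    (f : ℤ × ℤ) : f ∈ Top.Fs δ D ↔ Top.sq δ f ⊆ D := by
  classical
  unfold Top.Fs
  rw [dif_pos (sq_finite hδ hD)]
  simp

theorem dist_sq_le {δ : ℝ} {f : ℤ × ℤ} {z : ℝ × ℝ} (hz : z ∈ Top.sq δ f) :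
    dist z (fpt δ f) ≤ δ := by
  obtain ⟨h1, h2, h3, h4⟩ := hz
  rw [Prod.dist_eq, Real.dist_eq, Real.dist_eq]
  simp only [fpt]
  refine max_le ?_ ?_ <;> rw [abs_le] <;> constructor <;> nlinarith

/-- A face outside the lattice version of `D₂` is far from `D₁`. -/
theorem le_infDist_of_notMem {δ r : ℝ} (hδ : 0 < δ) {D₁ D₂ : Set (ℝ × ℝ)}
    (hD₂ : Bornology.IsBounded D₂) (h : ∀ z, infDist z D₁ < r → z ∈ D₂)
    {f : ℤ × ℤ} (hf : f ∉ Top.Fs δ D₂) : r - δ ≤ infDist (fpt δ f) D₁ := by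
  rw [mem_Fs_iff hδ hD₂] at hf
  obtain ⟨z, hz, hzD⟩ := Set.not_subset.1 hf
  have h1 : r ≤ infDist z D₁ := by
    by_contra hc
    exact hzD (h z (not_le.1 hc))
  have h2 := abs_le.1 (abs_infDist_sub_le D₁ z (fpt δ f))
  linarith [dist_sq_le hz, h2.1, h2.2]

/-- A neighbourhood of `D₁` in `D₂`. -/
theorem exists_thick {D₁ D₂ : Set (ℝ × ℝ)} (h0 : D₁.Nonempty) (h2 : IsOpen D₂)
    (hb : Bornology.IsBounded D₂) (h : closure D₁ ⊆ D₂) :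
    ∃ r : ℝ, 0 < r ∧ ∀ z, infDist z D₁ < r → z ∈ D₂ := by
  have hc : IsCompact (closure D₁) := by
    refine Metric.isCompact_of_isClosed_isBounded isClosed_closure ?_
    exact (hb.subset h)
  obtain ⟨r, hr, hr'⟩ := hc.exists_thickening_subset_open h2 h
  refine ⟨r, hr, fun z hz => hr' ?_⟩
  rw [Metric.mem_thickening_iff]
  obtain ⟨p, hp, hpz⟩ := (infDist_lt_iff h0).1 hz
  exact ⟨p, subset_closure hp, hpz⟩

/-- Edges with a face in a box which avoids `D₁` are not interior edges of `D₁`. -/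
theorem tE_sub {δ : ℝ} (hδ : 0 ≤ δ) {D₁ : Set (ℝ × ℝ)} {F : Set (ℤ × ℤ)}
    (h : ∀ f ∈ F, fpt δ f ∉ D₁) : tE F ⊆ (iE (Top.Fs δ D₁ : Set (ℤ × ℤ)))ᶜ := by
  rintro w ⟨f, hf, hw⟩ ⟨f', hf', g, hg, h1, h2⟩
  rcases hw with hw | hw
  · have h3 : f = f' := ga_af_inj (hw.symm.trans h1)
    exact h f hf (of_mem_Fs' hδ (by rw [h3]; exact hf'))
  · have h3 : f = g := ga_af_inj (hw.symm.trans h2)
    exact h f hf (of_mem_Fs' hδ (by rw [h3]; exact hg))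

theorem dist_bx {δ : ℝ} (hδ : 0 ≤ δ) {p f : ℤ × ℤ} {r : ℤ} (hf : f ∈ bx p r) :
    dist (fpt δ f) (fpt δ p) ≤ δ * r := by
  simp only [bx, Set.mem_ofPred_eq] at hf
  refine dist_fpt_le hδ ?_ ?_ <;> rw [abs_le] <;> omega

theorem tE_bx_sub {δ : ℝ} (hδ : 0 ≤ δ) {D₁ : Set (ℝ × ℝ)} {p : ℤ × ℤ} {r : ℤ}
    (h : δ * r < infDist (fpt δ p) D₁) :
    tE (bx p r) ⊆ (iE (Top.Fs δ D₁ : Set (ℤ × ℤ)))ᶜ := by
  refine tE_sub hδ fun f hf hD => ?_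
  have h1 := infDist_le_dist_of_mem (x := fpt δ p) hD
  have h2 := dist_bx hδ hf
  rw [dist_comm] at h1
  linarith

/-! ### Scales -/

theorem cen_ce {δ : ℝ} (hδ : 0 < δ) (w : ℤ) (y : ℤ × ℤ) : cen (δ * w) δ y = ce w y := by
  have key : ∀ x : ℤ, ⌊δ * (w : ℝ) * (x : ℝ) / δ⌋ = w * x := by
    intro x
    have : δ * (w : ℝ) * (x : ℝ) / δ = ((w * x : ℤ) : ℝ) := by
      push_cast
      field_simp
    rw [this, Int.floor_intCast]
  exact Prod.ext (key y.1) (key y.2)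

theorem fpt_ce (δ : ℝ) (w : ℤ) (y : ℤ × ℤ) : fpt (δ * w) y = fpt δ (ce w y) := by
  refine Prod.ext ?_ ?_ <;> simp only [fpt, ce] <;> push_cast <;> ring

theorem sc_le {ε δ : ℝ} (hδ : 0 < δ) (i : ℕ) : δ * (sc ε δ i : ℝ) ≤ 4 ^ i * ε := by
  have h := Int.floor_le (ε / δ)
  rw [le_div_iff₀ hδ] at h
  have h2 : δ * (sc ε δ i : ℝ) = 4 ^ i * ((⌊ε / δ⌋ : ℝ) * δ) := by
    unfold sc
    push_cast
    ring
  rw [h2]
  exact mul_le_mul_of_nonneg_left h (by positivity)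

theorem le_sc {ε δ : ℝ} (hδ : 0 < δ) (hε : 2 * δ ≤ ε) (i : ℕ) :
    4 ^ i * (ε / 2) ≤ δ * (sc ε δ i : ℝ) := by
  have h := Int.lt_floor_add_one (ε / δ)
  rw [div_lt_iff₀ hδ] at h
  have h2 : δ * (sc ε δ i : ℝ) = 4 ^ i * ((⌊ε / δ⌋ : ℝ) * δ) := by
    unfold sc
    push_cast
    ring
  rw [h2]
  exact mul_le_mul_of_nonneg_left (by linarith) (by positivity)

theorem sc_pos {ε δ : ℝ} (hδ : 0 < δ) (hε : δ ≤ ε) (i : ℕ) : 1 ≤ sc ε δ i := by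
  have h : 1 ≤ ⌊ε / δ⌋ := by
    rw [Int.le_floor]
    push_cast
    rw [le_div_iff₀ hδ]
    linarith
  unfold sc
  have h4 : (1 : ℤ) ≤ 4 ^ i := one_le_pow₀ (by norm_num)
  nlinarith

/-- The quotient of two scales. -/
theorem sc_add (ε δ : ℝ) (i k : ℕ) : sc ε δ (i + k) = 4 ^ k * sc ε δ i := by
  unfold sc
  rw [pow_add]
  ring

/-- The indices of the centres are bounded. -/
theorem abs_le_of_sc {ε δ M : ℝ} (hδ : 0 < δ) (hε : 2 * δ ≤ ε) (i : ℕ) {x : ℤ}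
    (h : |δ * ((sc ε δ i * x : ℤ) : ℝ)| ≤ M) : |x| ≤ (⌈2 * M / ε⌉₊ : ℤ) := by
  have hε0 : 0 < ε := by linarith
  have h1 := le_sc hδ hε i
  have h2 : (1 : ℝ) ≤ 4 ^ i := one_le_pow₀ (by norm_num)
  have h3 : ε / 2 ≤ δ * (sc ε δ i : ℝ) := by nlinarith
  have h4 : |δ * ((sc ε δ i * x : ℤ) : ℝ)| = δ * (sc ε δ i : ℝ) * |(x : ℝ)| := by
    push_cast
    rw [← mul_assoc, abs_mul, abs_of_nonneg (by linarith : (0 : ℝ) ≤ δ * (sc ε δ i : ℝ))]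
  rw [h4] at h
  have h5 : |(x : ℝ)| ≤ 2 * M / ε := by
    rw [le_div_iff₀ hε0]
    nlinarith [abs_nonneg (x : ℝ)]
  have h6 := h5.trans (Nat.le_ceil _)
  exact_mod_cast h6

end Vale.Agent.P145.X
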