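import Vale.Agent.P145.X.Log
import Vale.Agent.P145.X.Cnt

/-!
P145, X-level: the plane input of the counting lemma, from the exponential moments.
-/

namespace Vale.Agent.P145.X

open Finset Filter Topology MeasureTheory
open Vale.Agent.P152 (Ori Ice pth)
open Vale.Agent.P145.FA (Hgt)
open Vale.Agent.P145.FB
open Vale.Agent.P145.FB.Mom (EGD)

/-- `MomP` from the exponential moments. -/
theorem momP_of_egd {P : Measure (Ori (ℤ × ℤ))} [IsProbabilityMeasure P]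
    (hice : ∀ᵐ a ∂P, ∀ x y, Ice a x y) {C γ : ℝ} (hC : 0 ≤ C) (hγ : 0 < γ) (hE : EGD P C γ) :
    MomP P := by
  have hγs : ∀ s : ℤ, (⌈2 / γ⌉₊ : ℤ) + 1 ≤ s → 0 < s.toNat ∧ 2 / (s.toNat : ℝ) ≤ γ := by
    intro s hs
    have h0 : 0 < s.toNat := by omega
    refine ⟨h0, ?_⟩
    have h0' : (0 : ℝ) < s.toNat := by exact_mod_cast h0
    rw [div_le_iff₀ h0']
    have h1 : 2 / γ ≤ (⌈2 / γ⌉₊ : ℝ) := Nat.le_ceil _
    have h2 : (⌈2 / γ⌉₊ : ℝ) ≤ s.toNat := by
      have : ⌈2 / γ⌉₊ ≤ s.toNat := by omega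
      exact_mod_cast this
    have h3 : 2 / γ ≤ s.toNat := h1.trans h2
    rw [div_le_iff₀ hγ] at h3
    linarith
  refine ⟨fun s => bw 0 s.toNat, 512 * 6 * 48 * 49 * Real.exp C, (⌈2 / γ⌉₊ : ℤ) + 1,
    by positivity, fun s hs => ⟨mass_bw 0 (hγs s hs).1, fun v hv => ?_⟩, fun j =>
    ⟨(⌈2 / γ⌉₊ : ℤ) + 1, fun s hs => ?_⟩⟩
  · obtain ⟨x, hx, y, hy, rfl⟩ := bw_supp hv
    unfold fi rc
    simp only [Set.mem_ofPred_eq]
    push_cast
    omega
  · obtain ⟨h0, hg⟩ := hγs s hs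
    set R := Flow.Rs s.toNat j with hR
    have hR0 : 0 < R := Flow.Rs_pos h0 j
    have hRz : (4 : ℤ) ^ j * s = (R : ℤ) := by
      rw [hR]; unfold Flow.Rs; push_cast
      rw [Int.toNat_of_nonneg (by omega)]
    refine ⟨-(bw (2 * R + 1) R), ?_, fun v hv => ?_, ?_⟩
    · rw [mass_neg', mass_bw _ hR0]
    · rw [Finsupp.support_neg] at hv
      obtain ⟨x, hx, y, hy, rfl⟩ := bw_supp hv
      rw [hRz]
      unfold fi rc
      simp only [Set.mem_ofPred_eq]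
      push_cast
      omega
    · refine le_trans (le_of_eq (lintegral_congr fun ω => ?_)) (diff_mom hC hγ hE hice h0 hg j)
      congr 1
      rw [ev_add', ev_neg', ev_bw, ev_bw, AS_zero]
      ring

end Vale.Agent.P145.X
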