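import Vale.Agent.P145.FK.ZeM6
import Vale.Agent.P145.X.DecB
import Vale.Agent.P145.X.Refl
import Vale.Agent.P145.X.Int

/-!
P145, decay at the boundary: comparison of the probability of a connection under the zero boundary
condition with the one in the plane (`S_lowc`).
-/

namespace Vale.Agent.P145.X

open Filter Topology Set MeasureTheory
open Vale.Agent.P152 (Ori)
open Vale.Agent.P145.FA (Hgt)
open Vale.Agent.P145.FB (Pt Mk e1 e2 o1 o2 MU mkm om)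
open Vale.Agent.P145.FP (Site)
open Vale.Agent.P145.Top (Om)
open Vale.Agent.P145.Dom (ze)
open Vale.Agent.P145.FK (Nb boxN VB FB EB inB KF blM zeM intE we bwM)

namespace LC

/-! ### Reflection -/

theorem int_msw (t : ℝ) (H : Mk → ℝ) :
    ∫ ξ, H (fun w => ξ w.swap) ∂(mkm t) = ∫ ξ, H ξ ∂(mkm t) := by
  have h := Measure.infinitePi_map_piCongrLeft (X := fun _ : Pt => Bool)
    (μ := fun _ : Pt => FB.bern t) (Equiv.prodComm ℤ ℤ)
  have e : ∀ ξ : Mk, (MeasurableEquiv.piCongrLeft (fun _ : Pt => Bool) (Equiv.prodComm ℤ ℤ) :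
      Mk → Mk) ξ = fun w => ξ w.swap := by
    intro ξ
    funext w
    exact Equiv.piCongrLeft_apply_apply (P := fun _ : Pt => Bool) (Equiv.prodComm ℤ ℤ) ξ w.swap
  have h3 := integral_map_equiv (μ := mkm t)
    (MeasurableEquiv.piCongrLeft (fun _ : Pt => Bool) (Equiv.prodComm ℤ ℤ)) H
  have h2 : (mkm t).map (MeasurableEquiv.piCongrLeft (fun _ : Pt => Bool)
      (Equiv.prodComm ℤ ℤ)) = mkm t := h
  rw [h2] at h3
  simp only [e] at h3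
  exact h3.symm

theorem fc_swap (s : Site) : (FP.fc s).swap = FP.fc (rs s) := by
  rw [fc_rs]
  rcases s with v | f
  · rfl
  · rfl

theorem cf_swap (q : Pt) : FP.cf q.swap = rs (FP.cf q) := by
  have h := fc_swap (FP.cf q)
  rw [FP.fc_cf] at h
  rw [h, FP.cf_fc]

theorem e_swap (w : Pt) : s(e1 w.swap, e2 w.swap) = s((e1 w).swap, (e2 w).swap) := by
  rw [Sym2.eq_iff]
  have hc : Even (w.swap.1 + w.swap.2) ↔ Even (w.1 + w.2) := by
    rw [Prod.fst_swap, Prod.snd_swap, add_comm]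
  unfold e1 e2
  by_cases h : Even (w.1 + w.2)
  · rw [if_pos (hc.2 h), if_pos (hc.2 h), if_pos h, if_pos h]
    exact Or.inl ⟨rfl, rfl⟩
  · rw [if_neg fun h' => h (hc.1 h'), if_neg fun h' => h (hc.1 h'), if_neg h, if_neg h]
    exact Or.inr ⟨rfl, rfl⟩

theorem o_swap (w : Pt) : s(o1 w.swap, o2 w.swap) = s((o1 w).swap, (o2 w).swap) := by
  rw [Sym2.eq_iff]
  have hc : Even (w.swap.1 + w.swap.2) ↔ Even (w.1 + w.2) := by
    rw [Prod.fst_swap, Prod.snd_swap, add_comm]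
  unfold o1 o2
  by_cases h : Even (w.1 + w.2)
  · rw [if_pos (hc.2 h), if_pos (hc.2 h), if_pos h, if_pos h]
    exact Or.inr ⟨rfl, rfl⟩
  · rw [if_neg fun h' => h (hc.1 h'), if_neg fun h' => h (hc.1 h'), if_neg h, if_neg h]
    exact Or.inl ⟨rfl, rfl⟩

theorem mem_rf {F : Finset (ℤ × ℤ)} {q : Pt} :
    (∃ f ∈ ((F.image rf : Finset (ℤ × ℤ)) : Set (ℤ × ℤ)), q = FP.fc (Sum.inr f)) ↔
      ∃ f ∈ (F : Set (ℤ × ℤ)), q.swap = FP.fc (Sum.inr f) := by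
  constructor
  · rintro ⟨f, hf, rfl⟩
    rw [Finset.mem_coe, mem_image_rf] at hf
    exact ⟨rf f, hf, fc_swap (Sum.inr f)⟩
  · rintro ⟨f, hf, h⟩
    refine ⟨rf f, ?_, ?_⟩
    · rw [Finset.mem_coe, mem_image_rf, rf_rf]
      exact hf
    · have h1 := congrArg Prod.swap h
      rw [Prod.swap_swap, fc_swap] at h1
      exact h1

theorem intE_swap {F : Finset (ℤ × ℤ)} (w : Pt) :
    intE ((F.image rf : Finset (ℤ × ℤ)) : Set (ℤ × ℤ)) w ↔ intE (F : Set (ℤ × ℤ)) w.swap := by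
  unfold intE
  rw [mem_rf, mem_rf]
  have h := o_swap w
  rw [Sym2.eq_iff] at h
  rcases h with ⟨h1, h2⟩ | ⟨h1, h2⟩
  · rw [h1, h2]
  · rw [h1, h2, and_comm]

theorem blM_swap (F : Finset (ℤ × ℤ)) (x : Site → ℤ) (ξ : Mk) (w : Pt) :
    blM ((F.image rf : Finset (ℤ × ℤ)) : Set (ℤ × ℤ)) (fun s => x (rs s)) ξ w =
      blM (F : Set (ℤ × ℤ)) x (fun w => ξ w.swap) w.swap := by
  unfold blM
  have h := o_swap w
  have h' := e_swap w
  rw [Sym2.eq_iff] at h h'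
  have hE := intE_swap (F := F) w
  have ho : (x (FP.cf (o1 w).swap) ≠ x (FP.cf (o2 w).swap)) ↔
      (x (FP.cf (o1 w.swap)) ≠ x (FP.cf (o2 w.swap))) := by
    rcases h with ⟨h1, h2⟩ | ⟨h1, h2⟩
    · rw [h1, h2]
    · rw [h1, h2, ne_comm]
  have he : (x (FP.cf (e1 w).swap) = 0 ∧ x (FP.cf (e2 w).swap) = 0) ↔
      (x (FP.cf (e1 w.swap)) = 0 ∧ x (FP.cf (e2 w.swap)) = 0) := by
    rcases h' with ⟨h1, h2⟩ | ⟨h1, h2⟩
    · rw [h1, h2]
    · rw [h1, h2, and_comm]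
  simp only [← cf_swap, Prod.swap_swap]
  by_cases hi : intE (F : Set (ℤ × ℤ)) w.swap
  · rw [if_pos (hE.2 hi), if_pos hi]
    apply Bool.decide_congr
    rw [← and_assoc, ← and_assoc, he, ho]
  · rw [if_neg fun h => hi (hE.1 h), if_neg hi]

/-- Reflection invariance for functions of the blocked edges. -/
theorem zeM_swap (c : ℝ) (F : Finset (ℤ × ℤ)) (G : Mk → ℝ) :
    zeM c (F.image rf) (fun _ b => G b) = zeM c F fun _ b => G fun w => b w.swap := by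
  unfold zeM
  rw [ze_rs c F fun x => ∫ ξ, G (blM ((F.image rf : Finset (ℤ × ℤ)) : Set (ℤ × ℤ)) x ξ)
    ∂(mkm c⁻¹)]
  congr 1
  funext x
  have e : ∀ ξ : Mk, blM ((F.image rf : Finset (ℤ × ℤ)) : Set (ℤ × ℤ)) (fun s => x (rs s)) ξ =
      fun w => blM (F : Set (ℤ × ℤ)) x (fun w => ξ w.swap) w.swap := fun ξ =>
    funext fun w => blM_swap F x ξ w
  simp only [e]
  exact int_msw c⁻¹ fun ξ => G fun w => blM (F : Set (ℤ × ℤ)) x ξ w.swap

/-! ### The probability of a connection as a zero boundary expectation -/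

theorem af_fc (f : ℤ × ℤ) : (FP.fc (Sum.inr f)).swap = af f := by
  rw [fc_swap, fc_rs]
  rfl

theorem lc_af_inj {f g : ℤ × ℤ} (h : af f = af g) : f = g := by
  have h1 : f.1 + f.2 + 1 = g.1 + g.2 + 1 := congrArg Prod.fst h
  have h2 : f.1 - f.2 = g.1 - g.2 := congrArg Prod.snd h
  exact Prod.ext (by omega) (by omega)

theorem stp_iff {E : Set Pt} {f g : ℤ × ℤ} :
    stp E f g ↔ ∃ w, w ∉ E ∧ s(o1 w, o2 w) = s(af f, af g) := by
  unfold stp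
  simp only [Sym2.eq_iff]

/-- The blocked edges of a configuration, in the coordinates of block X. -/
def bX {B : Finset (ℤ × ℤ)} (u : EB B → Bool) : Set Pt := {w | bwM u w.swap = true}

theorem step_iff {B F : Finset (ℤ × ℤ)} {K : ℕ} (x : FK.Net.Cfg (VB B) (FB B) (EB B) K)
    (a b : FB B) : (boxN B).stepI (inB B F) x a b ↔
      (a.1 ∈ (F : Set (ℤ × ℤ)) ∧ b.1 ∈ (F : Set (ℤ × ℤ)) ∧ stp (bX ((boxN B).wx x)) a.1 b.1) := by
  have key : ∀ e : EB B, s(o1 (we e).swap, o2 (we e).swap) =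
      s(af ((boxN B).f e).1, af ((boxN B).g e).1) := by
    intro e
    rw [o_swap, FK.o1_we, FK.o2_we, af_fc, af_fc]
  rw [stp_iff]
  constructor
  · rintro ⟨e, he, hb, hor⟩
    have hw : (we e).swap ∉ bX ((boxN B).wx x) := by
      intro h
      have h' : bwM ((boxN B).wx x) (we e) = true := h
      rw [FK.bwM_we, FK.Net.wx_true.2 hb] at h'
      exact Bool.noConfusion h'
    rcases hor with ⟨rfl, rfl⟩ | ⟨rfl, rfl⟩
    · exact ⟨he.1, he.2, (we e).swap, hw, key e⟩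
    · exact ⟨he.2, he.1, (we e).swap, hw, (key e).trans Sym2.eq_swap⟩
  · rintro ⟨ha, hb, w, hw, hs⟩
    have h1 : ∃ e : EB B, we e = w.swap := by
      by_contra h
      exact hw (FK.bwM_out ((boxN B).wx x) h)
    obtain ⟨e, he⟩ := h1
    have h2 := key e
    rw [he, Prod.swap_swap, hs, Sym2.eq_iff] at h2
    have h3 : (boxN B).wx x e = true := by
      by_contra h
      apply hw
      show bwM ((boxN B).wx x) w.swap = true
      rw [← he, FK.bwM_we]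
      simpa using h
    have h4 : ((boxN B).f e = a ∧ (boxN B).g e = b) ∨ ((boxN B).g e = a ∧ (boxN B).f e = b) := by
      rcases h2 with ⟨h5, h6⟩ | ⟨h5, h6⟩
      · exact Or.inl ⟨(Subtype.ext (lc_af_inj h5)).symm, (Subtype.ext (lc_af_inj h6)).symm⟩
      · exact Or.inr ⟨(Subtype.ext (lc_af_inj h5)).symm, (Subtype.ext (lc_af_inj h6)).symm⟩
    refine ⟨e, ?_, FK.Net.wx_true.1 h3, h4⟩
    rcases h4 with ⟨h5, h6⟩ | ⟨h5, h6⟩
    · exact ⟨by rw [h5]; exact ha, by rw [h6]; exact hb⟩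
    · exact ⟨by rw [h6]; exact hb, by rw [h5]; exact ha⟩

theorem cnnI_eq {B F : Finset (ℤ × ℤ)} (hF : ∀ f ∈ F, f ∈ B) {O I : Set (ℤ × ℤ)}
    (hO : ∀ f ∈ O, f ∈ B) {K : ℕ} (x : FK.Net.Cfg (VB B) (FB B) (EB B) K) :
    (boxN B).cnnI (inB B F) (inB B O) (inB B I) x =
      cn (F : Set (ℤ × ℤ)) O I (bX ((boxN B).wx x)) := by
  unfold FK.Net.cnnI cn ind
  have key : (¬ Disjoint ((boxN B).explI (inB B F) (inB B O) x) (inB B I)) ↔
      ∃ f ∈ O, ∃ g ∈ I, Relation.ReflTransGen (fun a b => a ∈ (F : Set (ℤ × ℤ)) ∧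
        b ∈ (F : Set (ℤ × ℤ)) ∧ stp (bX ((boxN B).wx x)) a b) f g := by
    rw [Set.not_disjoint_iff]
    constructor
    · rintro ⟨f, ⟨f0, hf0, hp⟩, hf⟩
      refine ⟨f0.1, hf0, f.1, hf, ?_⟩
      exact hp.lift (fun a : FB B => a.1) fun a b h => (step_iff x a b).1 h
    · rintro ⟨f, hf, g, hg, hp⟩
      have h : ∃ hg : g ∈ B, Relation.ReflTransGen ((boxN B).stepI (inB B F) x)
          ⟨f, hO f hf⟩ ⟨g, hg⟩ := by
        clear hg
        induction hp with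
        | refl => exact ⟨hO f hf, Relation.ReflTransGen.refl⟩
        | @tail u v _ huv ih =>
          obtain ⟨hu, ih⟩ := ih
          have hv : v ∈ B := hF v huv.2.1
          exact ⟨hv, ih.tail ((step_iff x ⟨u, hu⟩ ⟨v, hv⟩).2 huv)⟩
      obtain ⟨hgB, hr⟩ := h
      exact ⟨⟨g, hgB⟩, ⟨⟨f, hO f hf⟩, hf, hr⟩, hg⟩
  by_cases h : Disjoint ((boxN B).explI (inB B F) (inB B O) x) (inB B I)
  · rw [if_pos h, if_neg fun h' => (key.2 h') h]
  · rw [if_neg h, if_pos (key.1 h)]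

theorem pcn_eq {c : ℝ} (hc : 1 ≤ c) {B F : Finset (ℤ × ℤ)} {K : ℕ} {O I : Set (ℤ × ℤ)}
    (h : BoxOK B F K O I) : pcn c B F K O I =
      zeM c F fun _ b => cn (F : Set (ℤ × ℤ)) O I {w | b w.swap = true} := by
  have hc0 : 0 < c := by linarith
  have ht : 0 < c⁻¹ := inv_pos.mpr hc0
  have ht1 : c⁻¹ ≤ 1 := inv_le_one_of_one_le₀ hc
  have h1 := FK.J_zeM h.nb h.cut ht ht1
    (fun _ b => cn (F : Set (ℤ × ℤ)) O I {w | b w.swap = true})
  rw [inv_inv] at h1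
  have h2 : 0 < (boxN B).J (K := K) c⁻¹ FK.Net.κ6 (FK.Net.β6 c⁻¹)
      (fun x _ => (boxN B).zbi (inB B F) x) :=
    (boxN B).J_zbi_pos (K := K) ht.le FK.Net.κ6_nonneg (FK.Net.β6_nonneg ht.le ht1)
      (fun i => FK.Net.κ6_pos i 0) (fun e => FK.Net.β6_pos ht e) (inB B F)
  unfold pcn
  rw [div_eq_iff h2.ne', mul_comm (zeM _ _ _), ← h1]
  congr 1
  funext x _
  rw [cnnI_eq (fun f hf => h.nb.mem hf) h.o]
  rfl

/-! ### Locality and monotonicity -/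

theorem cn_anti (F O I : Set (ℤ × ℤ)) : Antitone (cn F O I) := by
  intro E E' h
  unfold cn ind
  have h1 : (∃ f ∈ O, ∃ g ∈ I, Relation.ReflTransGen (fun a b => a ∈ F ∧ b ∈ F ∧ stp E' a b) f g) →
      ∃ f ∈ O, ∃ g ∈ I, Relation.ReflTransGen (fun a b => a ∈ F ∧ b ∈ F ∧ stp E a b) f g := by
    rintro ⟨f, hf, g, hg, hp⟩
    refine ⟨f, hf, g, hg, Relation.ReflTransGen.mono (fun a b => ?_) _ _ hp⟩
    rintro ⟨ha, hb, w, hw, h'⟩
    exact ⟨ha, hb, w, fun h1 => hw (h h1), h'⟩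
  by_cases h2 : ∃ f ∈ O, ∃ g ∈ I, Relation.ReflTransGen
      (fun a b => a ∈ F ∧ b ∈ F ∧ stp E' a b) f g
  · rw [if_pos h2, if_pos (h1 h2)]
  · rw [if_neg h2]
    split_ifs
    · exact zero_le_one
    · exact le_rfl

/-- The edges which can be interior to `F`. -/
noncomputable def Lf (F : Finset (ℤ × ℤ)) : Finset Pt :=
  F.image af ∪ F.image fun f => ((af f).1 + 1, (af f).2)

theorem mem_Lf {F : Finset (ℤ × ℤ)} {f : ℤ × ℤ} (hf : f ∈ F) {w : Pt} (h : o1 w = af f) :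
    w ∈ Lf F := by
  unfold o1 at h
  rw [Lf, Finset.mem_union]
  by_cases he : Even (w.1 + w.2)
  · rw [if_pos he] at h
    right
    refine Finset.mem_image.2 ⟨f, hf, ?_⟩
    rw [← h]
    exact Prod.ext (by simp) rfl
  · rw [if_neg he] at h
    left
    exact Finset.mem_image.2 ⟨f, hf, h.symm⟩

theorem cn_congr {F : Finset (ℤ × ℤ)} {O I : Set (ℤ × ℤ)} {E E' : Set Pt}
    (h : ∀ w ∈ Lf F, w ∈ E ↔ w ∈ E') :
    cn (F : Set (ℤ × ℤ)) O I E = cn (F : Set (ℤ × ℤ)) O I E' := by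
  have e : (fun a b : ℤ × ℤ => a ∈ (F : Set (ℤ × ℤ)) ∧ b ∈ (F : Set (ℤ × ℤ)) ∧ stp E a b) =
      fun a b : ℤ × ℤ => a ∈ (F : Set (ℤ × ℤ)) ∧ b ∈ (F : Set (ℤ × ℤ)) ∧ stp E' a b := by
    funext a b
    refine propext ⟨?_, ?_⟩
    · rintro ⟨ha, hb, w, hw, h'⟩
      refine ⟨ha, hb, w, fun h1 => hw ((h w ?_).2 h1), h'⟩
      rcases h' with h' | h'
      · exact mem_Lf ha h'.1
      · exact mem_Lf hb h'.1
    · rintro ⟨ha, hb, w, hw, h'⟩
      refine ⟨ha, hb, w, fun h1 => hw ((h w ?_).1 h1), h'⟩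
      rcases h' with h' | h'
      · exact mem_Lf ha h'.1
      · exact mem_Lf hb h'.1
  have h2 : (∃ f ∈ O, ∃ g ∈ I, Relation.ReflTransGen (fun a b => a ∈ (F : Set (ℤ × ℤ)) ∧
      b ∈ (F : Set (ℤ × ℤ)) ∧ stp E a b) f g) ↔ ∃ f ∈ O, ∃ g ∈ I, Relation.ReflTransGen
      (fun a b => a ∈ (F : Set (ℤ × ℤ)) ∧ b ∈ (F : Set (ℤ × ℤ)) ∧ stp E' a b) f g := by
    rw [e]
  unfold cn ind
  by_cases h3 : ∃ f ∈ O, ∃ g ∈ I, Relation.ReflTransGen (fun a b => a ∈ (F : Set (ℤ × ℤ)) ∧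
      b ∈ (F : Set (ℤ × ℤ)) ∧ stp E a b) f g
  · rw [if_pos h3, if_pos (h2.1 h3)]
  · rw [if_neg h3, if_neg fun h => h3 (h2.2 h)]

theorem cn_loc (F : Finset (ℤ × ℤ)) (O I : Set (ℤ × ℤ)) :
    LocS univ (cn (F : Set (ℤ × ℤ)) O I) :=
  ⟨Lf F, fun _ _ => Set.mem_univ _, fun _ _ h => cn_congr h⟩

theorem exists_VB (Λ : Finset Pt) : ∃ m : ℕ, ∀ n, m ≤ n → ∀ w ∈ Λ, w ∈ FC.VB (FK.Sq n) := by
  classical
  set m : ℕ := Λ.sup (fun w => w.1.natAbs + w.2.natAbs) with hm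
  have hF : ∀ w ∈ Λ, w.1.natAbs + w.2.natAbs ≤ m := fun w hw =>
    Finset.le_sup (f := fun w : ℤ × ℤ => w.1.natAbs + w.2.natAbs) hw
  refine ⟨m + 1, fun n hn w hw => ?_⟩
  have h := hF w hw
  have hn' : ((m : ℤ) + 1) ≤ n := by exact_mod_cast hn
  have key : ∀ q : Pt, |q.1 - w.1| ≤ 1 → |q.2 - w.2| ≤ 1 → q ∈ FK.Sq n := by
    intro q h1 h2
    rw [FK.mem_Sq]
    rw [abs_le] at h1 h2 ⊢
    rw [abs_le]
    omega
  rw [FK.mem_VB]
  unfold FB.e1 FB.e2 FB.o1 FB.o2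
  refine ⟨?_, ?_, ?_, ?_⟩ <;> split_ifs <;> exact key _ (by simp) (by simp)

theorem in6_iE {F : Finset (ℤ × ℤ)} {w : Pt} :
    FK.In6 ((F.image rf : Finset (ℤ × ℤ)) : Set (ℤ × ℤ)) w ↔ w ∈ iE (F : Set (ℤ × ℤ)) := by
  rw [← FK.intE_iff]
  unfold intE
  rw [mem_rf, mem_rf]
  have e : ∀ (q : Pt) (f : ℤ × ℤ), q.swap = FP.fc (Sum.inr f) ↔ q = af f := by
    intro q f
    rw [← af_fc]
    constructor
    · intro h
      rw [← h, Prod.swap_swap]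
    · intro h
      rw [h, Prod.swap_swap]
  simp only [e]
  constructor
  · rintro ⟨⟨f, hf, h1⟩, g, hg, h2⟩
    exact ⟨f, hf, g, hg, h1, h2⟩
  · rintro ⟨f, hf, g, hg, h1, h2⟩
    exact ⟨⟨f, hf, h1⟩, g, hg, h2⟩

theorem outM_of {F : Finset (ℤ × ℤ)} {Θ : Set Pt → ℝ} (h : LocS (iE (F : Set (ℤ × ℤ)))ᶜ Θ) :
    FK.OutM ((F.image rf : Finset (ℤ × ℤ)) : Set (ℤ × ℤ)) fun _ b => Θ b := by
  obtain ⟨Λ, h1, h2⟩ := h
  intro _ _ b b' _ hb
  exact h2 b b' fun w hw => hb w fun h' => h1 w hw (in6_iE.1 h')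

/-- The probability of a connection on the boxes of the plane. -/
theorem Jz_cn {c : ℝ} (hc : 1 ≤ c) {B F : Finset (ℤ × ℤ)} {K : ℕ} {O I : Set (ℤ × ℤ)}
    (h : BoxOK B F K O I) {n : ℕ} (hI : FK.NI (FK.Sq n))
    (hB : FK.Nb6 (FK.Sq n) ((F.image rf : Finset (ℤ × ℤ)) : Set (ℤ × ℤ)))
    (hV : ∀ w ∈ Lf F, w ∈ FC.VB (FK.Sq n)) {K' : ℕ} (hK : KF (F.image rf) ≤ K') :
    FK.Jz (FK.Sq n) K' c⁻¹ ((F.image rf : Finset (ℤ × ℤ)) : Set (ℤ × ℤ))
        (fun _ b => cn (F : Set (ℤ × ℤ)) O I b) =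
      pcn c B F K O I * FK.Jz (FK.Sq n) K' c⁻¹ ((F.image rf : Finset (ℤ × ℤ)) : Set (ℤ × ℤ))
        (fun _ _ => 1) := by
  have hc0 : 0 < c := by linarith
  have ht : 0 < c⁻¹ := inv_pos.mpr hc0
  have ht1 : c⁻¹ ≤ 1 := inv_le_one_of_one_le₀ hc
  have h1 := FK.Jz_zeM hI hB hK ht ht1 (A := fun _ b => cn (F : Set (ℤ × ℤ)) O I b)
    (fun _ _ _ _ _ hb => cn_congr fun w hw => hb w (hV w hw))
  rw [inv_inv] at h1
  have h2 := zeM_swap c F fun b => cn (F : Set (ℤ × ℤ)) O I {w | b w = true}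
  rw [h1, h2, ← pcn_eq hc h, mul_comm]

end LC

end Vale.Agent.P145.X
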