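import Vale.Agent.P145.FB.Flip2
import Vale.Agent.P145.X.MuLev

/-!
P145, X-level: the law of the absolute heights and the bonds is invariant under the reflection of
the heights of a region at the height of its boundary.
-/

namespace Vale.Agent.P145.X

open Finset Filter Topology MeasureTheory
open Vale.Agent.P152 (Ori Ice pth pth_isHeight IsHeight pth_zero height_eq_pth)
open Vale.Agent.P145.FA (Hgt)
open Vale.Agent.P145.FB

/-- The reflection at the height of `b`, not normalised. -/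
noncomputable def rfl0 (U : Finset Pt) (b : Pt) (x : Hgt × Mk) : Hgt × Mk := (refl0 U b x.1, x.2)

lemma measurable_rfl0 (U : Finset Pt) (b : Pt) : Measurable (rfl0 U b) := by
  classical
  have hc : ∀ q : Pt, Measurable fun x : Hgt × Mk => x.1 q := fun q =>
    (measurable_pi_apply q).comp measurable_fst
  refine Measurable.prodMk (measurable_pi_lambda _ fun q => ?_) measurable_snd
  by_cases h : nb U q
  · simp only [refl0, h, if_true]
    exact ((hc b).const_mul 2).sub (hc q)
  · simp only [refl0, h, if_false]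
    exact hc q

lemma lintegral_Jmu {t : ℝ} {P : Measure (Ori (ℤ × ℤ))} {f : Hgt × Mk → ENNReal}
    (hf : Measurable f) : ∫⁻ x, f x ∂(Jmu t P) = ∫⁻ y, ∑' k : ℤ, f (hk k y) ∂(JO t P) := by
  rw [Jmu, lintegral_sum_measure]
  refine Eq.trans ?_
    (lintegral_tsum fun k => (hf.comp (measurable_hk k)).aemeasurable).symm
  exact tsum_congr fun k => lintegral_map hf (measurable_hk k)

lemma flipQ_hk {U : Finset Pt} {b : Pt} (x : Ori (ℤ × ℤ) × Mk) (k : ℤ) :
    hk k x ∈ FlipQ U b ↔ hk 0 x ∈ FlipQ U b := by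
  refine forall_congr' fun w => forall_congr' fun _ => ?_
  simp only [hk]
  constructor
  · rintro ⟨h1, h2, h3⟩
    exact ⟨h1, by omega, by omega⟩
  · rintro ⟨h1, h2, h3⟩
    exact ⟨h1, by omega, by omega⟩

open Classical in
/-- The change of the base height. -/
noncomputable def jj (U : Finset Pt) (b : Pt) (x : Ori (ℤ × ℤ) × Mk) : ℤ :=
  if nb U 0 then pth x.1 b else 0

lemma rfl_pt {U : Finset Pt} (hU : ∀ f ∈ U, Odd (f.1 + f.2)) (b : Pt)
    {x : Ori (ℤ × ℤ) × Mk} (hx : ∀ i j, Ice x.1 i j) (hq : hk 0 x ∈ FlipQ U b) (k : ℤ) :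
    rfl0 U b (hk k x) = hk (k + jj U b x) (flS (SU U) x) ∧ hk 0 (flS (SU U) x) ∈ FlipQ U b := by
  classical
  have hqk := (flipQ_hk (U := U) (b := b) x k).2 hq
  have hQ : QO U x.2 := fun w hw => (hq w hw).1
  have hS : SU U x.2 = (U : Set Pt) := by unfold SU; rw [if_pos hQ]
  have hh := pth_isHeight hx
  set h : Hgt := (hk k x).1 with hh0
  have hhk : IsHeight x.1 h := by
    intro i j
    have := hh i j
    simp only [hh0, hk]
    refine ⟨?_, ?_⟩
    · rw [← this.1]; ring
    · rw [← this.2]; ring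
  have hbd : ∀ w, ((o1 w ∈ U ∧ o2 w ∉ U) ∨ (o2 w ∈ U ∧ o1 w ∉ U)) →
      h (e1 w) = h b ∧ h (e2 w) = h b := fun w hw => (hqk w hw).2
  set h' : Hgt := fun q => if nb U q then 2 * h b - h q else h q with hh'
  have hH : IsHeight (flA (U : Set Pt) x.1) h' :=
    isHeight_flip hhk hU hbd h' (fun q hn => by simp [hh', hn]) (fun q hn => by simp [hh', hn])
  have h0 : h 0 = 2 * k := by
    simp only [hh0, hk, pth_zero, zero_add]
  have h'0 : h' 0 = 2 * (k + jj U b x) := by
    have hb : h b = pth x.1 b + 2 * k := rfl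
    simp only [hh', jj]
    by_cases hn : nb U 0
    · rw [if_pos hn, if_pos hn, hb, h0]; ring
    · rw [if_neg hn, if_neg hn, h0]; ring
  have e1' : rfl0 U b (hk k x) = hk (k + jj U b x) (flS (SU U) x) := by
    refine Prod.ext ?_ rfl
    funext q
    show h' q = pth (flA (SU U x.2) x.1) q + 2 * (k + jj U b x)
    rw [hS, ← height_eq_pth hH, h'0]
    ring
  refine ⟨e1', ?_⟩
  rw [← flipQ_hk (flS (SU U) x) (k + jj U b x), ← e1']
  intro w hw
  have hb' : h' b = h b := by simp only [hh']; split_ifs <;> omega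
  have key : ∀ q, h q = h b → h' q = h b := by
    intro q hq
    simp only [hh']; split_ifs <;> omega
  refine ⟨(hqk w hw).1, ?_, ?_⟩
  · show h' (e1 w) = h' b
    rw [hb', key _ (hbd w hw).1]
  · show h' (e2 w) = h' b
    rw [hb', key _ (hbd w hw).2]

/-- **The flip at the X-level.** -/
theorem lintegral_rfl {c t : ℝ} (hc : 0 < c) (hct : c * t = 1) (ht1 : t ≤ 1)
    {P : Measure (Ori (ℤ × ℤ))} [IsProbabilityMeasure P] (hice : ∀ᵐ a ∂P, ∀ x y, Ice a x y)
    (hS : Swap c P) {U : Finset Pt} (hU : ∀ f ∈ U, Odd (f.1 + f.2)) (b : Pt)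
    {f : Hgt × Mk → ENNReal} (hf : Measurable f) :
    ∫⁻ x in FlipQ U b, f (rfl0 U b x) ∂(Jmu t P) = ∫⁻ x in FlipQ U b, f x ∂(Jmu t P) := by
  classical
  have hmf := measurable_flS (S := SU U) U (SU_loc U)
  have hmp := flS_mp hc hct ht1 hice hS U (SU U) (SU_sub U) (SU_loc U) (SU_cl U)
  have hg : ∀ᵐ x ∂(JO t P), GdJ x := JO_good hice
  have hg2 : ∀ᵐ x ∂(JO t P), GdJ (flS (SU U) x) := by
    have h1 : ∀ᵐ x ∂((JO t P).map (flS (SU U))), GdJ x := by rw [hmp]; exact hg
    exact ae_of_ae_map hmf.aemeasurable h1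
  have hQm := measurableSet_FlipQ U b
  set G : Ori (ℤ × ℤ) × Mk → ENNReal := fun y =>
    ∑' k : ℤ, (FlipQ U b).indicator f (hk k y) with hG
  have hGm : Measurable G := Measurable.tsum fun k =>
    (hf.indicator hQm).comp (measurable_hk k)
  have hm1 : Measurable fun x => f (rfl0 U b x) := hf.comp (measurable_rfl0 U b)
  rw [← lintegral_indicator hQm, ← lintegral_indicator hQm, lintegral_Jmu (hm1.indicator hQm),
    lintegral_Jmu (hf.indicator hQm)]
  have e1 : ∫⁻ y, G y ∂(JO t P) = ∫⁻ y, G (flS (SU U) y) ∂(JO t P) := by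
    conv_lhs => rw [← hmp]
    exact lintegral_map hGm hmf
  refine Eq.trans ?_ e1.symm
  refine lintegral_congr_ae ?_
  filter_upwards [hg, hg2] with x hx hx2
  by_cases hq : hk 0 x ∈ FlipQ U b
  · have h1 := fun k => (rfl_pt hU b hx.1 hq k).1
    have h2 := (rfl_pt hU b hx.1 hq 0).2
    have h3 : ∀ k, hk k x ∈ FlipQ U b := fun k => (flipQ_hk x k).2 hq
    have h4 : ∀ k, hk k (flS (SU U) x) ∈ FlipQ U b := fun k => (flipQ_hk _ k).2 h2
    have e2 : ∀ k, (FlipQ U b).indicator (fun x => f (rfl0 U b x)) (hk k x) =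
        f (hk (k + jj U b x) (flS (SU U) x)) := fun k => by
      rw [Set.indicator_of_mem (h3 k), h1 k]
    have e3 : G (flS (SU U) x) = ∑' k : ℤ, f (hk k (flS (SU U) x)) := by
      simp only [hG]
      exact tsum_congr fun k => Set.indicator_of_mem (h4 k) _
    rw [e3, tsum_congr e2]
    exact (Equiv.addRight (jj U b x)).tsum_eq fun k => f (hk k (flS (SU U) x))
  · have h3 : ∀ k, hk k x ∉ FlipQ U b := fun k h => hq ((flipQ_hk x k).1 h)
    have h5 : hk 0 (flS (SU U) x) ∉ FlipQ U b := by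
      intro h
      have := (rfl_pt hU b hx2.1 h 0).2
      rw [flS_flS] at this
      exact hq this
    have h4 : ∀ k, hk k (flS (SU U) x) ∉ FlipQ U b := fun k h => h5 ((flipQ_hk _ k).1 h)
    have e3 : G (flS (SU U) x) = 0 := by
      simp only [hG]
      rw [tsum_congr fun k => Set.indicator_of_notMem (h4 k) _, tsum_zero]
    rw [e3, tsum_congr fun k => Set.indicator_of_notMem (h3 k) _, tsum_zero]

end Vale.Agent.P145.X
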