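import Vale.Agent.P145.X.Mom
import Vale.Agent.P145.X.Stmt
import Vale.Agent.P145.FK.Mono
import Vale.Agent.P145.FB.Sym
import Vale.Agent.P145.FB.MomD

/-!
P145, X-level: linear functionals of the vertex heights: monotonicity of the moments in the
weights, translations, and the moments near a circuit at level `0`.
-/

namespace Vale.Agent.P145.X

open Finset Filter Topology MeasureTheory
open Vale.Agent.P152 (Ori Ice pth pth_isHeight IsHeight pth_zero height_eq_pth)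
open Vale.Agent.P145.FA (Hgt mass)
open Vale.Agent.P145.FB
open Vale.Agent.P145.Top (Om Cone Alg Pol vh)
open Vale.Agent.P145.Dom (ze)

/-! ### Linear functionals -/

/-- `∑ u(v) ω(v)`. -/
noncomputable def LU (u : (ℤ × ℤ) →₀ ℝ) (ω : Om) : ℝ := u.sum fun v a => a * ω v

lemma LU_add (u d : (ℤ × ℤ) →₀ ℝ) (ω : Om) : LU (u + d) ω = LU u ω + LU d ω := by
  unfold LU
  rw [Finsupp.sum_add_index' (fun _ => by simp) (fun _ _ _ => by ring)]

lemma LU_smul (c : ℝ) (u : (ℤ × ℤ) →₀ ℝ) (ω : Om) : LU (c • u) ω = c * LU u ω := by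
  unfold LU
  rw [Finsupp.sum_smul_index' (fun _ => by simp), Finsupp.mul_sum]
  exact Finsupp.sum_congr fun v _ => by rw [smul_eq_mul]; ring

lemma pol_LU_mul {Q : ℝ → Prop} {u : (ℤ × ℤ) →₀ ℝ} (hu : ∀ v, Q (u v)) {g : Om → ℝ}
    (hg : Pol Q g) : Pol Q (fun ω => LU u ω * g ω) := by
  refine (Pol.sum u.support (fun v ω => u v * (ω v * g ω))
    fun v _ => (hg.cons v).smul _ (hu v)).of_eq fun ω => ?_
  unfold LU Finsupp.sum
  rw [Finset.sum_mul]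
  exact Finset.sum_congr rfl fun v _ => by ring

lemma pol_LU_pow {Q : ℝ → Prop} {u : (ℤ × ℤ) →₀ ℝ} (hu : ∀ v, Q (u v)) (n : ℕ) :
    Pol Q (fun ω => LU u ω ^ n) := by
  induction n with
  | zero => exact Pol.one.of_eq fun ω => by simp
  | succ n ih => exact (pol_LU_mul hu ih).of_eq fun ω => by ring

lemma cone_diff {u d : (ℤ × ℤ) →₀ ℝ} (hu : ∀ v, 0 ≤ u v) (hd : ∀ v, 0 ≤ d v) (n : ℕ) :
    Cone (fun ω => LU (u + d) ω ^ n - LU u ω ^ n) := by
  induction n with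
  | zero => exact Pol.zero.of_eq fun ω => by simp
  | succ n ih =>
    refine ((pol_LU_mul (u := u + d) (fun v => add_nonneg (hu v) (hd v)) ih).add
      (pol_LU_mul hd (pol_LU_pow hu n))).of_eq fun ω => ?_
    rw [LU_add]
    ring

lemma posH_of_cone {A : Om → ℝ} (hA : Cone A) : FK.PosH (fun x => A (vh x)) := by
  induction hA with
  | mon l => exact FK.posH_list l
  | zero => exact FK.PosH.const 0 le_rfl
  | add _ _ h1 h2 => exact FK.PosH.add h1 h2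
  | smul c hc _ h1 => exact FK.PosH.smul hc h1

/-- Positivity. -/
lemma II_nonneg {c t : ℝ} (hc : 1 ≤ c) {P : Measure (Ori (ℤ × ℤ))} (hlow : S_low c t P)
    {Θ : Set Pt → ℝ} (hΘ : Fn Set.univ Θ) {A : Om → ℝ} (hA : Cone A) : 0 ≤ II t P Θ A := by
  have hF : (iE (((∅ : Finset (ℤ × ℤ)) : Set (ℤ × ℤ))))ᶜ = Set.univ := by
    ext w
    simp [iE]
  have h1 := hlow ∅ Θ A (by rw [hF]; exact hΘ) hA
  refine le_trans (mul_nonneg ?_ ?_) h1
  · exact FK.ze_nonneg hc ∅ (posH_of_cone hA)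
  · unfold II
    refine integral_nonneg fun x => ?_
    simp only [mul_one]
    exact hΘ.nonneg _

/-- Monotonicity in the weights. -/
lemma II_mono {c t : ℝ} (hc : 1 ≤ c) {P : Measure (Ori (ℤ × ℤ))} (hlow : S_low c t P)
    (hint : S_int t P) {Θ : Set Pt → ℝ} (hΘ : Fn Set.univ Θ) {u u' : (ℤ × ℤ) →₀ ℝ}
    (hu : ∀ v, 0 ≤ u v) (huu : ∀ v, u v ≤ u' v) (n : ℕ) :
    II t P Θ (fun ω => LU u ω ^ n) ≤ II t P Θ (fun ω => LU u' ω ^ n) := by
  have e : u' = u + (u' - u) := by abel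
  have hd : ∀ v, 0 ≤ (u' - u) v := fun v => by
    rw [Finsupp.sub_apply]; linarith [huu v]
  have h1 := II_nonneg hc hlow hΘ (cone_diff hu hd n)
  rw [← e] at h1
  have i1 := hint Θ _ hΘ.loc hΘ.pin (pol_LU_pow (Q := fun _ => True) (u := u) (fun _ => trivial) n)
  have i2 := hint Θ _ hΘ.loc hΘ.pin (pol_LU_pow (Q := fun _ => True) (u := u') (fun _ => trivial) n)
  have e2 : II t P Θ (fun ω => LU u' ω ^ n - LU u ω ^ n) =
      II t P Θ (fun ω => LU u' ω ^ n) - II t P Θ (fun ω => LU u ω ^ n) := by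
    unfold II
    rw [← integral_sub i2 i1]
    congr 1
    funext x
    ring
  rw [e2] at h1
  linarith

/-- The weights on the six-vertex faces. -/
noncomputable def toE (u : (ℤ × ℤ) →₀ ℝ) : (ℤ × ℤ) →₀ ℝ := ((1 / 2 : ℝ) • u).mapDomain av

lemma ev_toE (u : (ℤ × ℤ) →₀ ℝ) (h : Hgt) : FA.ev (toE u) h = LU u (vm h) := by
  unfold FA.ev toE LU vm
  rw [Finsupp.sum_mapDomain_index (fun _ => by simp) (fun _ _ _ => by ring),
    Finsupp.sum_smul_index' (fun _ => by simp)]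
  exact Finsupp.sum_congr fun v _ => by rw [smul_eq_mul]; ring

lemma mass_toE (u : (ℤ × ℤ) →₀ ℝ) : mass (toE u) = (1 / 2) * u.sum fun _ a => a := by
  unfold FA.mass toE
  rw [Finsupp.sum_mapDomain_index (fun _ => rfl) (fun _ _ _ => rfl),
    Finsupp.sum_smul_index' (fun _ => rfl), Finsupp.mul_sum]
  rfl

lemma toE_add (u d : (ℤ × ℤ) →₀ ℝ) : toE (u + d) = toE u + toE d := by
  unfold toE
  rw [smul_add, Finsupp.mapDomain_add]

lemma fi_av (v : ℤ × ℤ) : fi (av v) = (2 * v.1, 2 * v.2) := by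
  unfold fi av
  ext <;> simp only <;> ring

lemma mem_supp_toE {u : (ℤ × ℤ) →₀ ℝ} {q : ℤ × ℤ} (hq : q ∈ (toE u).support) :
    ∃ v, u v ≠ 0 ∧ q = av v := by
  classical
  have h1 := Finsupp.mapDomain_support hq
  rw [Finset.mem_image] at h1
  obtain ⟨v, hv, rfl⟩ := h1
  refine ⟨v, ?_, rfl⟩
  rw [Finsupp.mem_support_iff, Finsupp.smul_apply, smul_eq_mul] at hv
  intro h
  rw [h, mul_zero] at hv
  exact hv rfl

/-! ### Translations -/

lemma lintegral_move {P : Measure (Ori (ℤ × ℤ))} (hice : ∀ᵐ ω ∂P, ∀ x y, Ice ω x y)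
    (hP : SymM P) {w : (ℤ × ℤ) →₀ ℝ} (hw : mass w = 0) (a b : ℤ) (n : ℕ) :
    ∫⁻ ω, ENNReal.ofReal (FA.ev (w.mapDomain fun q => (q.1 + a, q.2 + b)) (pth ω) ^ n) ∂P =
      ∫⁻ ω, ENNReal.ofReal (FA.ev w (pth ω) ^ n) ∂P := by
  have mp : Measurable fun ω : Ori (ℤ × ℤ) => ENNReal.ofReal (FA.ev w (pth ω) ^ n) :=
    (((measurable_evH w).comp (measurable_pi_lambda _ measurable_pth_apply)).pow_const
      _).ennreal_ofReal
  conv_rhs => rw [← hP.sh a b]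
  rw [lintegral_map mp (sh_meas a b)]
  refine lintegral_congr_ae ?_
  filter_upwards [hice] with ω hω
  have h1 := ht_sh hω a b
  have h2 : ∀ q, pth (P152.GFF.B3.shO a b ω) q = pth ω (q.1 + a, q.2 + b) - pth ω (a, b) := by
    intro q
    have := height_eq_pth h1 q
    simp only [Prod.fst_zero, Prod.snd_zero, zero_add] at this
    omega
  congr 2
  unfold FA.ev
  rw [Finsupp.sum_mapDomain_index (fun _ => by simp) (fun _ _ _ => by ring)]
  have h3 : ∀ q r, r * ((pth (P152.GFF.B3.shO a b ω) q : ℤ) : ℝ) =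
      r * ((pth ω (q.1 + a, q.2 + b) : ℤ) : ℝ) - r * ((pth ω (a, b) : ℤ) : ℝ) := by
    intro q r
    rw [h2]
    push_cast
    ring
  simp only [h3]
  rw [Finsupp.sum_sub]
  have h4 : (w.sum fun _ r => r * ((pth ω (a, b) : ℤ) : ℝ)) = 0 := by
    have h5 : (w.sum fun _ r => r * ((pth ω (a, b) : ℤ) : ℝ)) = mass w * ((pth ω (a, b) : ℤ) : ℝ) := by
      unfold FA.mass Finsupp.sum
      rw [Finset.sum_mul]
    rw [h5, hw, zero_mul]
  rw [h4, sub_zero]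

/-! ### Smooth weights -/

lemma fin_supp {φ : ℝ × ℝ → ℝ} (hφ : HasCompactSupport φ) {δ : ℝ} (hδ : 0 < δ) (p : ℤ × ℤ) :
    (Function.support fun v : ℤ × ℤ =>
      δ ^ 2 * φ (δ * (v.1 - p.1), -(δ * (v.2 - p.2)))).Finite := by
  obtain ⟨R, hR⟩ := hφ.isCompact.isBounded.subset_closedBall (0 : ℝ × ℝ)
  obtain ⟨N, hN⟩ := exists_nat_ge (R / δ)
  refine Set.Finite.subset ((Set.finite_Icc (p.1 - N) (p.1 + N)).prod
    (Set.finite_Icc (p.2 - N) (p.2 + N))) ?_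
  intro v hv
  have h1 : φ (δ * (v.1 - p.1), -(δ * (v.2 - p.2))) ≠ 0 := fun h => hv (by simp only [h, mul_zero])
  have h2 := hR (subset_tsupport φ h1)
  rw [mem_closedBall_zero_iff, Prod.norm_def, max_le_iff, Real.norm_eq_abs, Real.norm_eq_abs,
    abs_neg] at h2
  have key : ∀ a : ℤ, |δ * (a : ℝ)| ≤ R → |a| ≤ (N : ℤ) := by
    intro a ha
    rw [abs_mul, abs_of_pos hδ] at ha
    have h3 : |(a : ℝ)| ≤ R / δ := by rw [le_div_iff₀ hδ]; linarith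
    have h4 : ((|a| : ℤ) : ℝ) ≤ ((N : ℤ) : ℝ) := by push_cast; linarith
    exact_mod_cast h4
  have h3 := abs_le.1 (key (v.1 - p.1) (by push_cast; exact h2.1))
  have h4 := abs_le.1 (key (v.2 - p.2) (by push_cast; exact h2.2))
  exact ⟨⟨by omega, by omega⟩, ⟨by omega, by omega⟩⟩

open Classical in
/-- The weights `δ² φ(δ (v - p))` (reflected in the second coordinate). -/
noncomputable def Wt (δ : ℝ) (φ : ℝ × ℝ → ℝ) (p : ℤ × ℤ) : (ℤ × ℤ) →₀ ℝ :=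
  if h : (Function.support fun v : ℤ × ℤ =>
      δ ^ 2 * φ (δ * (v.1 - p.1), -(δ * (v.2 - p.2)))).Finite then
    Finsupp.ofSupportFinite _ h else 0

lemma Wt_apply {φ : ℝ × ℝ → ℝ} (hφ : HasCompactSupport φ) {δ : ℝ} (hδ : 0 < δ) (p v : ℤ × ℤ) :
    Wt δ φ p v = δ ^ 2 * φ (δ * (v.1 - p.1), -(δ * (v.2 - p.2))) := by
  unfold Wt
  rw [dif_pos (fin_supp hφ hδ p)]
  rfl

lemma Wt_move {φ : ℝ × ℝ → ℝ} (hφ : HasCompactSupport φ) {δ : ℝ} (hδ : 0 < δ) (p : ℤ × ℤ) :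
    Wt δ φ p = (Wt δ φ 0).mapDomain fun v => (v.1 + p.1, v.2 + p.2) := by
  have hinj : Function.Injective fun v : ℤ × ℤ => ((v.1 + p.1, v.2 + p.2) : ℤ × ℤ) := by
    intro a b hab
    simp only [Prod.mk.injEq] at hab
    exact Prod.ext (by omega) (by omega)
  ext v
  have e : v = (fun v : ℤ × ℤ => ((v.1 + p.1, v.2 + p.2) : ℤ × ℤ)) (v.1 - p.1, v.2 - p.2) := by
    ext <;> simp
  conv_rhs => rw [e]
  rw [Finsupp.mapDomain_apply hinj, Wt_apply hφ hδ, Wt_apply hφ hδ]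
  simp

lemma toE_move (u : (ℤ × ℤ) →₀ ℝ) (p : ℤ × ℤ) :
    toE (u.mapDomain fun v => (v.1 + p.1, v.2 + p.2)) =
      (toE u).mapDomain fun q => (q.1 + (p.1 + p.2), q.2 + (p.1 - p.2)) := by
  unfold toE
  rw [← Finsupp.mapDomain_smul, ← Finsupp.mapDomain_comp, ← Finsupp.mapDomain_comp]
  congr 1
  funext v
  simp only [Function.comp, av]
  ext <;> simp only <;> ring

lemma sum_reflect (F : ℤ × ℤ → ℝ) : ∑' v : ℤ × ℤ, F (v.1, -v.2) = ∑' v, F v :=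
  (Equiv.prodCongr (Equiv.refl ℤ) (Equiv.neg ℤ)).tsum_eq F

lemma LU_Wt {φ : ℝ × ℝ → ℝ} (hφ : HasCompactSupport φ) {δ : ℝ} (hδ : 0 < δ)
    (ω : Ori (ℤ × ℤ)) :
    LU (Wt δ φ 0) (vm (pth ω)) = FP.fld (FP.Hc ω) δ φ := by
  have e0 : ∑' v : ℤ × ℤ, Wt δ φ 0 v * vm (pth ω) v =
      ∑ v ∈ (Wt δ φ 0).support, Wt δ φ 0 v * vm (pth ω) v :=
    tsum_eq_sum fun v hv => by rw [Finsupp.notMem_support_iff.1 hv, zero_mul]
  unfold LU FP.fld
  rw [Finsupp.sum, ← e0, ← tsum_mul_left, ← sum_reflect (fun v => δ ^ 2 * (FP.Hc ω (Sum.inl v) * φ (δ * v.1, δ * v.2)))]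
  refine tsum_congr fun v => ?_
  rw [Wt_apply hφ hδ]
  have e1 : FP.Hc ω (Sum.inl (v.1, -v.2)) = vm (pth ω) v := by
    unfold FP.Hc vm FP.fc av
    simp only [sub_neg_eq_add]
    rw [← sub_eq_add_neg]
    ring
  rw [e1]
  simp only [Prod.fst_zero, Prod.snd_zero, Int.cast_zero, sub_zero, Int.cast_neg, mul_neg]
  ring

lemma sum_Wt {φ : ℝ × ℝ → ℝ} (hφ : HasCompactSupport φ) {δ : ℝ} (hδ : 0 < δ) (p : ℤ × ℤ) :
    ((Wt δ φ p).sum fun _ a => a) = Mom.sm δ φ := by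
  have h0 : ((Wt δ φ 0).sum fun _ a => a) = Mom.sm δ φ := by
    have e0 : ∑' v : ℤ × ℤ, Wt δ φ 0 v = ∑ v ∈ (Wt δ φ 0).support, Wt δ φ 0 v :=
      tsum_eq_sum fun v hv => Finsupp.notMem_support_iff.1 hv
    rw [Mom.sm_eq, Finsupp.sum, ← e0, ← tsum_mul_left, ← sum_reflect (fun v => δ ^ 2 * φ (δ * v.1, δ * v.2))]
    refine tsum_congr fun v => ?_
    rw [Wt_apply hφ hδ]
    simp
  rw [← h0, Wt_move hφ hδ p, Finsupp.sum_mapDomain_index (fun _ => rfl) (fun _ _ _ => rfl)]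

end Vale.Agent.P145.X
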