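import Vale.Agent.P145.FB.Sym0
import Vale.Agent.P145.FB.JLaw

/-!
P145, X-level: the law of the neutral linear functionals of the heights is invariant under the
translations of the six-vertex lattice.
-/

namespace Vale.Agent.P145.X

open Finset Filter Topology MeasureTheory
open Vale.Agent.P152 (Ori Ice pth)
open Vale.Agent.P152.GFF.B3 (shO)
open Vale.Agent.P145.FA (Hgt ev mass)
open Vale.Agent.P145.FB

/-- The weight `w` moved by `q`. -/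
noncomputable def mv (q : ℤ × ℤ) (w : (ℤ × ℤ) →₀ ℝ) : (ℤ × ℤ) →₀ ℝ :=
  w.mapDomain fun v => (v.1 + q.1, v.2 + q.2)

lemma mv_inj (q : ℤ × ℤ) : Function.Injective fun v : ℤ × ℤ => (v.1 + q.1, v.2 + q.2) := by
  rintro ⟨a, b⟩ ⟨c, d⟩ h
  simp only [Prod.mk.injEq, add_left_inj] at h
  exact Prod.ext h.1 h.2

lemma mv_apply (q : ℤ × ℤ) (w : (ℤ × ℤ) →₀ ℝ) (v : ℤ × ℤ) : mv q w v = w (v.1 - q.1, v.2 - q.2) := by
  have h := Finsupp.mapDomain_apply (mv_inj q) w (v.1 - q.1, v.2 - q.2)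
  simpa only [sub_add_cancel, mv] using h

lemma ev_mv (q : ℤ × ℤ) (w : (ℤ × ℤ) →₀ ℝ) (h : Hgt) :
    ev (mv q w) h = ev w fun v => h (v.1 + q.1, v.2 + q.2) := by
  unfold FA.ev mv
  exact Finsupp.sum_mapDomain_index_inj (mv_inj q)

lemma mass_mv (q : ℤ × ℤ) (w : (ℤ × ℤ) →₀ ℝ) : mass (mv q w) = mass w := by
  unfold mass mv
  exact Finsupp.sum_mapDomain_index_inj (mv_inj q)

lemma mem_support_mv (q : ℤ × ℤ) (w : (ℤ × ℤ) →₀ ℝ) (v : ℤ × ℤ) :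
    v ∈ (mv q w).support ↔ (v.1 - q.1, v.2 - q.2) ∈ w.support := by
  rw [Finsupp.mem_support_iff, Finsupp.mem_support_iff, mv_apply]

lemma mv_add (q : ℤ × ℤ) (a b : (ℤ × ℤ) →₀ ℝ) : mv q (a + b) = mv q a + mv q b :=
  Finsupp.mapDomain_add

lemma mv_sub (q : ℤ × ℤ) (a b : (ℤ × ℤ) →₀ ℝ) : mv q (a - b) = mv q a - mv q b := by
  ext v
  simp only [mv_apply, Finsupp.sub_apply]

lemma mv_smul (q : ℤ × ℤ) (c : ℝ) (a : (ℤ × ℤ) →₀ ℝ) : mv q (c • a) = c • mv q a := by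
  ext v
  simp only [mv_apply, Finsupp.smul_apply]

/-- Translation of the arrows: neutral functionals. -/
lemma ev_pth_sh {ω : Ori (ℤ × ℤ)} (h : ∀ x y, Ice ω x y) (q : ℤ × ℤ) {w : (ℤ × ℤ) →₀ ℝ}
    (hw : mass w = 0) : ev w (pth (shO q.1 q.2 ω)) = ev (mv q w) (pth ω) := by
  rw [ev_mv]
  have h1 : ∀ v, ((pth (shO q.1 q.2 ω) v : ℤ) : ℝ) =
      (pth ω (v.1 + q.1, v.2 + q.2) : ℝ) - (pth ω (q.1, q.2) : ℝ) := by
    intro v
    rw [pth_sh h]
    push_cast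
    ring
  unfold FA.ev
  unfold mass at hw
  have h2 : (w.sum fun v a => a * ((pth (shO q.1 q.2 ω) v : ℤ) : ℝ)) =
      (w.sum fun v a => a * (pth ω (v.1 + q.1, v.2 + q.2) : ℝ)) -
        (w.sum fun _ a => a) * (pth ω (q.1, q.2) : ℝ) := by
    rw [Finsupp.sum, Finsupp.sum, Finsupp.sum, Finset.sum_mul, ← Finset.sum_sub_distrib]
    refine Finset.sum_congr rfl fun v _ => ?_
    rw [h1]
    ring
  rw [h2, hw]
  ring

section

variable {P : Measure (Ori (ℤ × ℤ))}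

/-- The law of a neutral functional is invariant under the translations. -/
theorem lintegral_mv (hS : SymM P) (hice : ∀ᵐ ω ∂P, ∀ x y, Ice ω x y) (q : ℤ × ℤ)
    {w : (ℤ × ℤ) →₀ ℝ} (hw : mass w = 0) {G : ℝ → ENNReal} (hG : Measurable G) :
    ∫⁻ ω, G (ev (mv q w) (pth ω)) ∂P = ∫⁻ ω, G (ev w (pth ω)) ∂P := by
  have hm : Measurable fun ω : Ori (ℤ × ℤ) => G (ev w (pth ω)) := hG.comp (measurable_ev' w)
  have h1 : ∫⁻ ω, G (ev w (pth ω)) ∂P = ∫⁻ ω, G (ev w (pth ω)) ∂(P.map (shO q.1 q.2)) := by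
    rw [hS.sh]
  rw [h1, lintegral_map hm (sh_meas _ _)]
  refine lintegral_congr_ae ?_
  filter_upwards [hice] with ω hω
  rw [ev_pth_sh hω q hw]

/-- **Moments of neutral functionals are invariant under the translations.** -/
theorem mom_translate (hS : SymM P) (hice : ∀ᵐ ω ∂P, ∀ x y, Ice ω x y) (q : ℤ × ℤ)
    {w : (ℤ × ℤ) →₀ ℝ} (hw : mass w = 0) (n : ℕ) :
    ∫⁻ ω, ENNReal.ofReal (ev (mv q w) (pth ω) ^ n) ∂P = ∫⁻ ω, ENNReal.ofReal (ev w (pth ω) ^ n) ∂P :=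
  lintegral_mv hS hice q hw (G := fun x => ENNReal.ofReal (x ^ n))
    (ENNReal.measurable_ofReal.comp (measurable_id.pow_const n))

/-- The same for Bochner integrals. -/
theorem integral_mv (hS : SymM P) (hice : ∀ᵐ ω ∂P, ∀ x y, Ice ω x y) (q : ℤ × ℤ)
    {w : (ℤ × ℤ) →₀ ℝ} (hw : mass w = 0) {E : Type*} [NormedAddCommGroup E] [NormedSpace ℝ E]
    {G : ℝ → E} (hG : StronglyMeasurable G) :
    ∫ ω, G (ev (mv q w) (pth ω)) ∂P = ∫ ω, G (ev w (pth ω)) ∂P := by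
  have hm : StronglyMeasurable fun ω : Ori (ℤ × ℤ) => G (ev w (pth ω)) :=
    hG.comp_measurable (measurable_ev' w)
  have h1 : ∫ ω, G (ev w (pth ω)) ∂P = ∫ ω, G (ev w (pth ω)) ∂(P.map (shO q.1 q.2)) := by
    rw [hS.sh]
  rw [h1, integral_map (sh_meas _ _).aemeasurable hm.aestronglyMeasurable]
  refine integral_congr_ae ?_
  filter_upwards [hice] with ω hω
  rw [ev_pth_sh hω q hw]

/-- Even moments, Bochner integrals. -/
theorem mom_translate' (hS : SymM P) (hice : ∀ᵐ ω ∂P, ∀ x y, Ice ω x y) (q : ℤ × ℤ)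
    {w : (ℤ × ℤ) →₀ ℝ} (hw : mass w = 0) (n : ℕ) :
    ∫ ω, ev (mv q w) (pth ω) ^ n ∂P = ∫ ω, ev w (pth ω) ^ n ∂P :=
  integral_mv hS hice q hw (G := fun x => x ^ n) (continuous_pow n).stronglyMeasurable

end

end Vale.Agent.P145.X
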