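import Vale.Agent.P145.X.Stmt
import Vale.Agent.P145.X.SandX

/-!
P145, X-level: the measure `nuX`.
-/

namespace Vale.Agent.P145.X.Sb

open Filter Topology Set MeasureTheory
open Vale.Agent.P152 (Ori)
open Vale.Agent.P145.FA (Hgt)
open Vale.Agent.P145.FB
open Vale.Agent.P145.Top (Om Cone Alg Pol Mom vh EE hv hvl)
open Vale.Agent.P145.Dom (ze)
open Vale.Agent.P145.PT (TestOn)

/-- The law of the heights of the vertices given the event `Q(bl)`. -/
noncomputable def nuX (t : ℝ) (P : Measure (Ori (ℤ × ℤ))) (Q : Set Pt → Prop) : Measure Om :=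
  nuA (MU t P) {x : Hgt × Mk | Q (bl x)} fun x => vm x.1

variable {t : ℝ} {P : Measure (Ori (ℤ × ℤ))} {Q : Set Pt → Prop}

theorem ind_one {B : Set Pt} (h : Q B) : ind Q B = 1 := if_pos h

theorem ind_zero {B : Set Pt} (h : ¬ Q B) : ind Q B = 0 := if_neg h

theorem ind_ne {B : Set Pt} : ind Q B ≠ 0 ↔ Q B := by
  by_cases h : Q B
  · simp [ind_one h, h]
  · simp [ind_zero h, h]

theorem ind_nonneg (B : Set Pt) : 0 ≤ ind Q B := by
  by_cases h : Q B
  · rw [ind_one h]; norm_num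
  · rw [ind_zero h]

theorem ind_le_one (B : Set Pt) : ind Q B ≤ 1 := by
  by_cases h : Q B
  · rw [ind_one h]
  · rw [ind_zero h]; norm_num

theorem ind_congr {B B' : Set Pt} (h : ind Q B = ind Q B') (hB : Q B) : Q B' := by
  refine ind_ne.1 ?_
  rw [← h]
  exact ind_ne.2 hB

theorem locS_mono {A A' : Set Pt} {g : Set Pt → ℝ} (h : LocS A g) (hA : A ⊆ A') : LocS A' g := by
  obtain ⟨Λ, h1, h2⟩ := h
  exact ⟨Λ, fun w hw => hA (h1 w hw), h2⟩

/-- Events which depend on finitely many edges are measurable. -/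
theorem measQ (h : LocS univ (ind Q)) : MeasurableSet {x : Hgt × Mk | Q (bl x)} := by
  obtain ⟨Λ, -, h2⟩ := h
  exact meas_of_opl 0 ⟨Λ, fun A B hAB hA => ind_congr (h2 A B hAB) hA⟩

theorem measurable_vm : Measurable fun x : Hgt × Mk => vm x.1 := by
  refine measurable_pi_lambda _ fun v => ?_
  have h1 : Measurable fun x : Hgt × Mk => (x.1 (av v) : ℝ) :=
    (measurable_of_countable (fun z : ℤ => (z : ℝ))).comp
      ((measurable_pi_apply (av v)).comp measurable_fst)
  exact h1.div_const 2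

theorem ind_mul_eq (A : Om → ℝ) : (fun x : Hgt × Mk => ind Q (bl x) * A (vm x.1)) =
    {x : Hgt × Mk | Q (bl x)}.indicator fun x => A (vm x.1) := by
  funext x
  by_cases h : Q (bl x)
  · rw [ind_one h, one_mul, Set.indicator_of_mem (show x ∈ {x : Hgt × Mk | Q (bl x)} from h)]
  · rw [ind_zero h, zero_mul,
      Set.indicator_of_notMem (show x ∉ {x : Hgt × Mk | Q (bl x)} from h)]

theorem II_ind (h : LocS univ (ind Q)) (A : Om → ℝ) :
    II t P (ind Q) A = ∫ x in {x : Hgt × Mk | Q (bl x)}, A (vm x.1) ∂(MU t P) := by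
  unfold II
  rw [ind_mul_eq, integral_indicator (measQ h)]

theorem II_ind_one (h : LocS univ (ind Q)) :
    II t P (ind Q) (fun _ => 1) = (MU t P).real {x : Hgt × Mk | Q (bl x)} := by
  rw [II_ind h, setIntegral_const, smul_eq_mul, mul_one]

theorem int_ind (hint : S_int t P) (h : LocS univ (ind Q)) (h0 : ind Q ∅ = 0) {A : Om → ℝ}
    (hA : Alg A) : IntegrableOn (fun x => A (vm x.1)) {x : Hgt × Mk | Q (bl x)} (MU t P) := by
  have h1 := hint (ind Q) A h h0 hA
  rw [ind_mul_eq, integrable_indicator_iff (measQ h)] at h1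
  exact h1

theorem meas_fin (hint : S_int t P) (h : LocS univ (ind Q)) (h0 : ind Q ∅ = 0) :
    MU t P {x : Hgt × Mk | Q (bl x)} ≠ ⊤ := by
  have h1 := int_ind hint h h0 (A := fun _ => 1) Pol.one
  have h2 : IntegrableOn (fun _ : Hgt × Mk => (1 : ℝ)) {x : Hgt × Mk | Q (bl x)} (MU t P) := h1
  rw [integrableOn_const_iff] at h2
  rcases h2 with h2 | h2
  · exact absurd h2 (by simp)
  · exact h2.ne

/-- The event as an `XEv`. -/
theorem xevQ (hint : S_int t P) (h : LocS univ (ind Q)) (h0 : ind Q ∅ = 0)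
    (hpos : 0 < II t P (ind Q) fun _ => 1) :
    XEv (MU t P) {x : Hgt × Mk | Q (bl x)} fun x => vm x.1 := by
  refine ⟨measurable_vm, measQ h, ?_, meas_fin hint h h0, fun v => ?_⟩
  · intro h1
    rw [II_ind_one h, Measure.real, h1, ENNReal.toReal_zero] at hpos
    exact lt_irrefl _ hpos
  · exact int_ind hint h h0 (Pol.mon (P := fun _ => True) v)

theorem nuX_mom (hint : S_int t P) (h : LocS univ (ind Q)) (h0 : ind Q ∅ = 0)
    (hpos : 0 < II t P (ind Q) fun _ => 1) : Mom (nuX t P Q) := by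
  exact (xevQ hint h h0 hpos).mom

theorem nuX_int (hint : S_int t P) (h : LocS univ (ind Q)) (h0 : ind Q ∅ = 0)
    (hpos : 0 < II t P (ind Q) fun _ => 1) {A : Om → ℝ} (hA : Alg A) :
    ∫ ω, A ω ∂(nuX t P Q) = II t P (ind Q) A / II t P (ind Q) fun _ => 1 := by
  rw [nuX, (xevQ hint h h0 hpos).integral (measurable_pol hA), II_ind h,
    II_ind_one h, inv_mul_eq_div]

/-- The same for measurable functions. -/
theorem nuX_int' (hint : S_int t P) (h : LocS univ (ind Q)) (h0 : ind Q ∅ = 0)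
    (hpos : 0 < II t P (ind Q) fun _ => 1) {A : Om → ℝ} (hA : Measurable A) :
    ∫ ω, A ω ∂(nuX t P Q) = II t P (ind Q) A / II t P (ind Q) fun _ => 1 := by
  rw [nuX, (xevQ hint h h0 hpos).integral hA, II_ind h, II_ind_one h, inv_mul_eq_div]

end Vale.Agent.P145.X.Sb
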