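import Vale.Agent.P145.FB.Out

/-!
P145, X-level: positivity. The circuits of spin plus around all centres of a connected net occur
together with positive probability (association), and then all of them have the same level; so the
measure of the event that all of them have level `0` is bounded below.
-/

namespace Vale.Agent.P145.X

open Finset Filter Topology MeasureTheory
open Vale.Agent.P152 (Edge Ori Ice sgb pth IsHeight)
open Vale.Agent.P145.FA (Hgt mu0)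
open Vale.Agent.P145.FB

variable {t : ℝ} {P : Measure (Ori (ℤ × ℤ))}

/-- Association for finitely many increasing local events. -/
theorem assoc_prod [IsProbabilityMeasure P] (hA : Assoc t P) {ι : Type*} (Y : Finset ι)
    (U : ι → Set Pt → Prop) (hm : ∀ i ∈ Y, ∀ A B, A ⊆ B → U i A → U i B)
    (hl : ∀ i ∈ Y, ∃ F : Finset Pt, ∀ A B : Set Pt, (∀ w ∈ F, w ∈ A ↔ w ∈ B) → U i A → U i B)
    {c : ℝ} (hc : 0 ≤ c) (h : ∀ i ∈ Y, c ≤ (J t P).real {x | U i (opp x)}) :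
    c ^ Y.card ≤ (J t P).real {x | ∀ i ∈ Y, U i (opp x)} := by
  classical
  induction Y using Finset.induction_on with
  | empty =>
    simp only [Finset.card_empty, pow_zero, Finset.notMem_empty, false_implies, implies_true]
    rw [Set.ofPred_true, probReal_univ]
  | @insert i Y hi ih =>
    have ih' := ih (fun j hj => hm j (Finset.mem_insert_of_mem hj))
      (fun j hj => hl j (Finset.mem_insert_of_mem hj))
      (fun j hj => h j (Finset.mem_insert_of_mem hj))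
    have hl' : ∃ F : Finset Pt, ∀ A B : Set Pt, (∀ w ∈ F, w ∈ A ↔ w ∈ B) →
        (∀ j ∈ Y, U j A) → ∀ j ∈ Y, U j B := by
      choose! F hF using fun j (hj : j ∈ Y) => hl j (Finset.mem_insert_of_mem hj)
      refine ⟨Y.biUnion F, fun A B hAB hU j hj => hF j hj A B (fun w hw => hAB w ?_) (hU j hj)⟩
      exact Finset.mem_biUnion.2 ⟨j, hj, hw⟩
    have h1 := hA (U i) (fun A => ∀ j ∈ Y, U j A) (hm i (Finset.mem_insert_self i Y))
      (fun A B hAB hU j hj => hm j (Finset.mem_insert_of_mem hj) A B hAB (hU j hj))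
      (hl i (Finset.mem_insert_self i Y)) hl'
    have h2 := h i (Finset.mem_insert_self i Y)
    have e : {x : Hgt × Mk | ∀ j ∈ insert i Y, U j (opp x)} =
        {x | U i (opp x) ∧ ∀ j ∈ Y, U j (opp x)} := by
      ext x
      simp only [Set.mem_ofPred_eq, Finset.forall_mem_insert]
    rw [e, Finset.card_insert_of_notMem hi, pow_succ, mul_comm]
    exact (mul_le_mul h2 ih' (pow_nonneg hc _) measureReal_nonneg).trans h1

/-- Any two centres of `Y` are joined by a chain in `Y`. -/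
def ChC (w : ℤ) (Y : Set (ℤ × ℤ)) : Prop :=
  ∀ y ∈ Y, ∀ y' ∈ Y, ∃ (n : ℕ) (c : ℕ → ℤ × ℤ), IsCh w n c ∧ c 0 = y ∧ c n = y' ∧
    ∀ i ≤ n, c i ∈ Y

/-- The circuits of a net have one level. -/
theorem net_level {x : Hgt × Mk} (hx : Op x) {w : ℤ} (hw : 0 < w) {Y : Set (ℤ × ℤ)}
    (hY : ChC w Y) (hne : Y.Nonempty) (hA : ∀ y ∈ Y, Ann y.1 y.2 w (SQ x)) :
    ∃ l, 4 ∣ l ∧ ∀ y ∈ Y, Ann y.1 y.2 w (fine (opl l x)) := by
  obtain ⟨y0, hy0⟩ := hne
  obtain ⟨l, hl, h0⟩ := Ann_SQ_level hx hw (hA y0 hy0)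
  refine ⟨l, hl, fun y hy => ?_⟩
  obtain ⟨n, c, hc, c0, cn, hcY⟩ := hY y0 hy0 y hy
  obtain ⟨l', -, h1⟩ := chain_SQ_level hx hw hc (fun i hi => hA _ (hcY i hi))
  have h2 := h1 0 (Nat.zero_le n)
  have h3 := h1 n le_rfl
  rw [c0] at h2
  rw [cn] at h3
  have : l = l' := opl_unique hw h0 h2 (by simp [hw.le]) (by simp [hw.le])
  rwa [this]

/-- A circuit which is crossed by the net has the level of the net. -/
theorem big_level {x : Hgt × Mk} (hx : Op x) {w : ℤ} (hw : 0 < w) {Y : Set (ℤ × ℤ)}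
    (hY : ChC w Y) {l : ℤ} (hA : ∀ y ∈ Y, Ann y.1 y.2 w (fine (opl l x))) {p q r : ℤ}
    (hr : 0 < r) (hB : Ann p q r (SQ x)) {y y' : ℤ × ℤ} (hy : y ∈ Y) (hy' : y' ∈ Y)
    (hin : |y.1 - p| + 2 * w ≤ r ∧ |y.2 - q| + 2 * w ≤ r)
    (hout : 2 * r + 2 * w ≤ |y'.1 - p| ∨ 2 * r + 2 * w ≤ |y'.2 - q|) :
    Ann p q r (fine (opl l x)) := by
  obtain ⟨l', -, h1⟩ := Ann_SQ_level hx hr hB
  obtain ⟨n, c, hc, c0, cn, hcY⟩ := hY y hy y' hy'
  obtain ⟨o, ho⟩ := h1.base hr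
  have hsep := ho.sep hr
  have h2 : l = l' := by
    refine SepG.lev (S := fine (opl l x)) (lev := lv x) hsep
      (fun z hz => lv_opl (NC.right_mem hz).1) hw hc (fun i hi => ?_) ?_ ?_
    · refine (IL_Ann _ _ w).1 _ _ ?_ (hA _ (hcY i hi))
      exact fun z hz => ⟨hz, lv_opl hz⟩
    · rw [c0]
      intro z hz
      rw [mem_rc] at hz ⊢
      obtain ⟨i1, i2⟩ := hin
      have a1 := abs_le.1 (le_refl |y.1 - p|)
      have a2 := abs_le.1 (le_refl |y.2 - q|)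
      omega
    · rw [cn]
      rcases hout with h3 | h3
      · rcases abs_cases (y'.1 - p) with ⟨h4, -⟩ | ⟨h4, -⟩ <;> rw [h4] at h3 <;> omega
      · rcases abs_cases (y'.2 - q) with ⟨h4, -⟩ | ⟨h4, -⟩ <;> rw [h4] at h3 <;> omega
  rwa [h2]

/-- The event that all circuits of the family occur at level `l`. -/
def Fam (w : ℤ) (Y : Finset (ℤ × ℤ)) (Z : Finset (ℤ × ℤ × ℤ)) (l : ℤ) : Set (Hgt × Mk) :=
  {x | (∀ y ∈ Y, Ann y.1 y.2 w (fine (opl l x))) ∧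
    ∀ z ∈ Z, Ann z.1 z.2.1 z.2.2 (fine (opl l x))}

theorem fam_loc (w : ℤ) (Y : Finset (ℤ × ℤ)) (Z : Finset (ℤ × ℤ × ℤ)) :
    ∃ F : Finset Pt, ∀ A B : Set Pt, (∀ w ∈ F, w ∈ A ↔ w ∈ B) →
      ((∀ y ∈ Y, Ann y.1 y.2 w (fine A)) ∧ ∀ z ∈ Z, Ann z.1 z.2.1 z.2.2 (fine A)) →
      ((∀ y ∈ Y, Ann y.1 y.2 w (fine B)) ∧ ∀ z ∈ Z, Ann z.1 z.2.1 z.2.2 (fine B)) := by
  classical
  choose F hF using fun y : ℤ × ℤ => loc_fine (IL_Ann y.1 y.2 w).2
  choose G hG using fun z : ℤ × ℤ × ℤ => loc_fine (IL_Ann z.1 z.2.1 z.2.2).2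
  refine ⟨Y.biUnion F ∪ Z.biUnion G, fun A B hAB h => ⟨fun y hy => ?_, fun z hz => ?_⟩⟩
  · refine hF y A B (fun v hv => hAB v ?_) (h.1 y hy)
    exact Finset.mem_union_left _ (Finset.mem_biUnion.2 ⟨y, hy, hv⟩)
  · refine hG z A B (fun v hv => hAB v ?_) (h.2 z hz)
    exact Finset.mem_union_right _ (Finset.mem_biUnion.2 ⟨z, hz, hv⟩)

theorem levFam_Fam (w : ℤ) (Y : Finset (ℤ × ℤ)) (Z : Finset (ℤ × ℤ × ℤ)) :
    LevFam (Fam w Y Z) :=
  levFam_opl (Q := fun A => (∀ y ∈ Y, Ann y.1 y.2 w (fine A)) ∧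
    ∀ z ∈ Z, Ann z.1 z.2.1 z.2.2 (fine A)) (fam_loc w Y Z)

theorem Fam_anti {w : ℤ} {Y Y' : Finset (ℤ × ℤ)} {Z Z' : Finset (ℤ × ℤ × ℤ)} (h : Y' ⊆ Y)
    (h' : Z' ⊆ Z) (l : ℤ) : Fam w Y Z l ⊆ Fam w Y' Z' l :=
  fun _ hx => ⟨fun y hy => hx.1 y (h hy), fun z hz => hx.2 z (h' hz)⟩

/-- **Positivity.** -/
theorem pos_J [IsProbabilityMeasure P] (hA : Assoc t P) {c : ℝ} (hc : 0 ≤ c) {w : ℤ}
    {Y : Finset (ℤ × ℤ)} {Z : Finset (ℤ × ℤ × ℤ)}
    (h1 : ∀ y ∈ Y, c ≤ (J t P).real {x | Ann y.1 y.2 w (SQ x)})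
    (h2 : ∀ z ∈ Z, c ≤ (J t P).real {x | Ann z.1 z.2.1 z.2.2 (SQ x)}) :
    c ^ (Y.card + Z.card) ≤ (J t P).real {x | (∀ y ∈ Y, Ann y.1 y.2 w (SQ x)) ∧
      ∀ z ∈ Z, Ann z.1 z.2.1 z.2.2 (SQ x)} := by
  have key := assoc_prod hA (Y.disjSum Z)
    (Sum.elim (fun y A => Ann y.1 y.2 w (fine A)) (fun z A => Ann z.1 z.2.1 z.2.2 (fine A)))
    (fun i _ => by
      rcases i with y | z
      · exact fun A B hAB h => (IL_Ann _ _ _).1 _ _ (fine_mono hAB) h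
      · exact fun A B hAB h => (IL_Ann _ _ _).1 _ _ (fine_mono hAB) h)
    (fun i _ => by
      rcases i with y | z
      · exact loc_fine (IL_Ann y.1 y.2 w).2
      · exact loc_fine (IL_Ann z.1 z.2.1 z.2.2).2) hc
    (fun i hi => by
      rcases i with y | z
      · exact h1 y (Finset.inl_mem_disjSum.1 hi)
      · exact h2 z (Finset.inr_mem_disjSum.1 hi))
  rw [Finset.card_disjSum] at key
  refine key.trans (le_of_eq ?_)
  congr 1
  ext x
  simp only [Set.mem_ofPred_eq]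
  constructor
  · intro h
    exact ⟨fun y hy => h (Sum.inl y) (Finset.inl_mem_disjSum.2 hy),
      fun z hz => h (Sum.inr z) (Finset.inr_mem_disjSum.2 hz)⟩
  · rintro ⟨h3, h4⟩ (y | z) hi
    · exact h3 y (Finset.inl_mem_disjSum.1 hi)
    · exact h4 z (Finset.inr_mem_disjSum.1 hi)

/-- **Positivity at level `0`.** `Y` is a connected net of centres at the scale `w`, `Z` a family of
circuits which are crossed by the net. -/
theorem pos_mu [IsProbabilityMeasure P] (hice : ∀ᵐ a ∂P, ∀ x y, Ice a x y) (hA : Assoc t P)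
    {c : ℝ} (hc : 0 ≤ c) {w : ℤ} (hw : 0 < w) {Y : Finset (ℤ × ℤ)} {Z : Finset (ℤ × ℤ × ℤ)}
    (hne : Y.Nonempty) (hch : ChC w Y)
    (h1 : ∀ y ∈ Y, c ≤ (J t P).real {x | Ann y.1 y.2 w (SQ x)})
    (h2 : ∀ z ∈ Z, c ≤ (J t P).real {x | Ann z.1 z.2.1 z.2.2 (SQ x)})
    (hZ : ∀ z ∈ Z, 0 < z.2.2 ∧ (∃ y ∈ Y, |y.1 - z.1| + 2 * w ≤ z.2.2 ∧
      |y.2 - z.2.1| + 2 * w ≤ z.2.2) ∧
      ∃ y ∈ Y, 2 * z.2.2 + 2 * w ≤ |y.1 - z.1| ∨ 2 * z.2.2 + 2 * w ≤ |y.2 - z.2.1|) :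
    ENNReal.ofReal (2 * c ^ (Y.card + Z.card)) ≤ Jmu t P (Fam w Y Z 0) := by
  refine le_trans ?_ (two_mul_J_le (levFam_Fam w Y Z))
  have h3 : J t P {x | (∀ y ∈ Y, Ann y.1 y.2 w (SQ x)) ∧ ∀ z ∈ Z, Ann z.1 z.2.1 z.2.2 (SQ x)} ≤
      J t P (some4 (Fam w Y Z)) := by
    refine measure_mono_ae ?_
    filter_upwards [open_even t P hice] with x hx hx2
    obtain ⟨l, hl, h4⟩ := net_level (Y := (Y : Set (ℤ × ℤ))) hx hw hch (by exact_mod_cast hne)
      (fun y hy => hx2.1 y (by exact_mod_cast hy))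
    refine ⟨l, hl, fun y hy => h4 y (by exact_mod_cast hy), fun z hz => ?_⟩
    obtain ⟨hr, ⟨y, hy, h5⟩, y', hy', h6⟩ := hZ z hz
    exact big_level hx hw hch h4 hr (hx2.2 z hz) (by exact_mod_cast hy) (by exact_mod_cast hy') h5 h6
  rw [ENNReal.ofReal_mul (by norm_num), ENNReal.ofReal_ofNat]
  gcongr
  refine le_trans ?_ h3
  rw [← ENNReal.ofReal_toReal (measure_ne_top (J t P) _)]
  exact ENNReal.ofReal_le_ofReal (pos_J hA hc h1 h2)

/-- The measure of the event is at most `2`. -/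
theorem Fam_le [IsProbabilityMeasure P] {w : ℤ} (hw : 0 < w) {Y : Finset (ℤ × ℤ)}
    {Z : Finset (ℤ × ℤ × ℤ)} (hne : Y.Nonempty) : Jmu t P (Fam w Y Z 0) ≤ 2 := by
  obtain ⟨y, hy⟩ := hne
  refine (measure_mono ?_).trans (Jmu_Ann_le (t := t) (P := P) (p := y.1) (q := y.2) hw)
  exact fun x hx => hx.1 y hy

/-- The same for `Z`. -/
theorem Fam_le' [IsProbabilityMeasure P] {w : ℤ} {Y : Finset (ℤ × ℤ)}
    {Z : Finset (ℤ × ℤ × ℤ)} {z : ℤ × ℤ × ℤ} (hz : z ∈ Z) (hz0 : 0 < z.2.2) :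
    Jmu t P (Fam w Y Z 0) ≤ 2 :=
  (measure_mono (fun _ hx => hx.2 z hz)).trans
    (Jmu_Ann_le (t := t) (P := P) (p := z.1) (q := z.2.1) hz0)

/-- Grids are connected nets. -/
theorem chC_grid {w : ℤ} (hw : 0 < w) (p0 q0 s : ℤ) (hs0 : 0 ≤ s) (hs : s ≤ 3 * w) (m n : ℕ) :
    ChC w {y : ℤ × ℤ | ∃ i j : ℕ, i ≤ m ∧ j ≤ n ∧ y = (p0 + s * i, q0 + s * j)} := by
  rintro _ ⟨i, j, hi, hj, rfl⟩ _ ⟨i', j', hi', hj', rfl⟩
  -- first the first coordinate, then the second one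
  have hrow : ∀ i i' j : ℕ, i ≤ m → i' ≤ m → j ≤ n → ∃ (N : ℕ) (c : ℕ → ℤ × ℤ), IsCh w N c ∧
      c 0 = (p0 + s * i, q0 + s * j) ∧ c N = (p0 + s * i', q0 + s * j) ∧
      ∀ k ≤ N, ∃ a b : ℕ, a ≤ m ∧ b ≤ n ∧ c k = (p0 + s * a, q0 + s * b) := by
    intro i i' j hi hi' hj
    rcases le_total i i' with h | h
    · refine ⟨i' - i, fun k => (p0 + s * ((i + k : ℕ) : ℤ), q0 + s * j), fun k _ => ⟨?_, ?_⟩,
        by simp, ?_, fun k hk => ⟨i + k, j, by omega, hj, rfl⟩⟩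
      · rw [abs_le]; push_cast; constructor <;> nlinarith
      · simp [hw.le]
      · have : i + (i' - i) = i' := by omega
        simp only [this]
    · refine ⟨i - i', fun k => (p0 + s * ((i - k : ℕ) : ℤ), q0 + s * j), fun k hk => ⟨?_, ?_⟩,
        by simp, ?_, fun k hk => ⟨i - k, j, by omega, hj, rfl⟩⟩
      · have e : ((i - k : ℕ) : ℤ) = ((i - (k + 1) : ℕ) : ℤ) + 1 := by omega
        simp only [e]
        rw [abs_le]; constructor <;> nlinarith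
      · simp [hw.le]
      · have : i - (i - i') = i' := by omega
        simp only [this]
  have hcol : ∀ i j j' : ℕ, i ≤ m → j ≤ n → j' ≤ n → ∃ (N : ℕ) (c : ℕ → ℤ × ℤ), IsCh w N c ∧
      c 0 = (p0 + s * i, q0 + s * j) ∧ c N = (p0 + s * i, q0 + s * j') ∧
      ∀ k ≤ N, ∃ a b : ℕ, a ≤ m ∧ b ≤ n ∧ c k = (p0 + s * a, q0 + s * b) := by
    intro i j j' hi hj hj'
    rcases le_total j j' with h | h
    · refine ⟨j' - j, fun k => (p0 + s * i, q0 + s * ((j + k : ℕ) : ℤ)), fun k _ => ⟨?_, ?_⟩,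
        by simp, ?_, fun k hk => ⟨i, j + k, hi, by omega, rfl⟩⟩
      · simp [hw.le]
      · rw [abs_le]; push_cast; constructor <;> nlinarith
      · have : j + (j' - j) = j' := by omega
        simp only [this]
    · refine ⟨j - j', fun k => (p0 + s * i, q0 + s * ((j - k : ℕ) : ℤ)), fun k hk => ⟨?_, ?_⟩,
        by simp, ?_, fun k hk => ⟨i, j - k, hi, by omega, rfl⟩⟩
      · simp [hw.le]
      · have e : ((j - k : ℕ) : ℤ) = ((j - (k + 1) : ℕ) : ℤ) + 1 := by omega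
        simp only [e]
        rw [abs_le]; constructor <;> nlinarith
      · have : j - (j - j') = j' := by omega
        simp only [this]
  obtain ⟨N1, c1, h1, a1, b1, d1⟩ := hrow i i' j hi hi' hj
  obtain ⟨N2, c2, h2, a2, b2, d2⟩ := hcol i' j j' hi' hj hj'
  refine ⟨N1 + N2, fun k => if k ≤ N1 then c1 k else c2 (k - N1), ?_, ?_, ?_, ?_⟩
  · intro k hk
    by_cases h3 : k + 1 ≤ N1
    · simp only [if_pos h3, if_pos (by omega : k ≤ N1)]
      exact h1 k (by omega)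
    · by_cases h4 : k ≤ N1
      · have h5 : k = N1 := by omega
        simp only [if_neg h3, if_pos h4]
        have h6 : c1 k = c2 0 := by rw [h5, b1, a2]
        rw [h6]
        have h7 : k + 1 - N1 = 0 + 1 := by omega
        rw [h7]
        exact h2 0 (by omega)
      · simp only [if_neg h3, if_neg h4]
        have h7 : k + 1 - N1 = (k - N1) + 1 := by omega
        rw [h7]
        exact h2 (k - N1) (by omega)
  · simp only [Nat.zero_le, if_true]; exact a1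
  · by_cases h3 : N2 = 0
    · subst h3
      simp only [Nat.add_zero, le_refl, if_true]
      rw [b1, ← a2, b2]
    · beta_reduce
      rw [if_neg (by omega), Nat.add_sub_cancel_left, b2]
  · intro k hk
    by_cases h3 : k ≤ N1
    · simp only [if_pos h3]
      obtain ⟨a, b, ha, hb, h4⟩ := d1 k h3
      exact ⟨a, b, ha, hb, h4⟩
    · simp only [if_neg h3]
      obtain ⟨a, b, ha, hb, h4⟩ := d2 (k - N1) (by omega)
      exact ⟨a, b, ha, hb, h4⟩

end Vale.Agent.P145.X
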