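import Vale.Agent.P145.X.Tr
import Vale.Agent.P145.FA.UseE
import Vale.Agent.P145.Top.Zm
import Vale.Agent.P145.Top.Dominate

/-!
P145, block X: functionals of the heights representing functions of the blocked edges; moments.
-/

namespace Vale.Agent.P145.X.Sdx

open Filter Topology Set MeasureTheory
open Vale.Agent.P152 (Ori)
open Vale.Agent.P145.FA (Hgt mu0 Wd)
open Vale.Agent.P145.FA.Use (Lf)
open Vale.Agent.P145.FB (Pt MU bl)
open Vale.Agent.P145.Top
open Vale.Agent.P145.PT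

/-- Polynomials in the vertex heights are local. -/
theorem loc_vm {A : Om → ℝ} (hA : Alg A) : FA.Loc univ (fun h : Hgt => A (vm h)) := by
  classical
  induction hA with
  | mon v =>
    refine ⟨(v.map av).toFinset, fun _ _ => mem_univ _, fun h h' hh => ?_⟩
    show (v.map (vm h)).prod = (v.map (vm h')).prod
    congr 1
    refine List.map_congr_left fun a ha => ?_
    unfold vm
    rw [hh (av a) (List.mem_toFinset.2 (List.mem_map_of_mem ha))]
  | zero => exact ⟨∅, by simp, fun _ _ _ => rfl⟩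
  | add _ _ h1 h2 => exact h1.comp₂ h2 (fun x y : ℝ => x + y)
  | smul c _ _ h1 => exact h1.comp (fun x : ℝ => c * x)

/-- The functional `X` of the heights represents the function `g` of the blocked edges. -/
structure Rep (t : ℝ) (P : Measure (Ori (ℤ × ℤ))) (g : Set Pt → ℝ) (X : Hgt → ℝ) : Prop where
  loc : LocS univ g
  emp : g ∅ = 0
  g0 : ∀ B, 0 ≤ g B
  Xm : Measurable X
  X0 : ∀ h, 0 ≤ X h
  int : ∀ F : Hgt → ℂ, FA.Loc univ F →
    ∫ h, ((X h : ℝ) : ℂ) * F h ∂(mu0 P) = ∫ x, ((g (bl x) : ℝ) : ℂ) * F x.1 ∂(MU t P)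

section

variable {t : ℝ} {P : Measure (Ori (ℤ × ℤ))} {g : Set Pt → ℝ} {Y : Hgt → ℝ}

theorem Rep.eII (r : Rep t P g Y) {A : Om → ℝ} (hA : Alg A) :
    ∫ h, Y h * A (vm h) ∂(mu0 P) = II t P g A := by
  have h1 := r.int (fun h => ((A (vm h) : ℝ) : ℂ)) ((loc_vm hA).comp (fun x : ℝ => (x : ℂ)))
  have e1 : ∀ h, ((Y h : ℝ) : ℂ) * ((A (vm h) : ℝ) : ℂ) = ((Y h * A (vm h) : ℝ) : ℂ) := by
    intro h; push_cast; rfl
  have e2 : ∀ x : Hgt × FB.Mk, ((g (bl x) : ℝ) : ℂ) * ((A (vm x.1) : ℝ) : ℂ) =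
      ((g (bl x) * A (vm x.1) : ℝ) : ℂ) := by
    intro h; push_cast; rfl
  simp only [e1, e2] at h1
  rw [integral_complex_ofReal, integral_complex_ofReal] at h1
  exact_mod_cast h1

theorem Rep.eI (r : Rep t P g Y) : ∫ h, Y h ∂(mu0 P) = II t P g (fun _ => 1) := by
  rw [← r.eII Pol.one]
  simp

theorem Rep.integrable (r : Rep t P g Y) (hi : S_int t P) (hp : 0 < II t P g (fun _ => 1))
    {A : Om → ℝ} (hA : Alg A) (h0 : ∀ ω, 0 ≤ A ω) :
    Integrable (fun h => A (vm h) * Y h) (mu0 P) := by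
  have hA1 : Alg (fun ω => 1 + A ω) := Pol.one.add hA
  have i1 := hi g (fun _ => 1) r.loc r.emp Pol.one
  have i2 := hi g A r.loc r.emp hA
  have e : II t P g (fun ω => 1 + A ω) = II t P g (fun _ => 1) + II t P g A := by
    unfold II
    rw [← integral_add i1 i2]
    refine integral_congr_ae (Eventually.of_forall fun x => ?_)
    simp only
    ring
  have h2 : 0 ≤ II t P g A := integral_nonneg fun x => mul_nonneg (r.g0 _) (h0 _)
  have h3 : Integrable (fun h => Y h * (1 + A (vm h))) (mu0 P) := by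
    by_contra h
    have h4 := r.eII hA1
    rw [integral_undef h, e] at h4
    linarith
  refine h3.mono' ?_ (Eventually.of_forall fun h => ?_)
  · exact ((loc_vm hA).measurable.mul r.Xm).aestronglyMeasurable
  · have a1 := r.X0 h
    have a2 := h0 (vm h)
    rw [Real.norm_eq_abs, abs_of_nonneg (mul_nonneg a2 a1)]
    nlinarith

theorem Rep.integrable' (r : Rep t P g Y) (hi : S_int t P) (hp : 0 < II t P g (fun _ => 1)) :
    Integrable Y (mu0 P) := by
  have := r.integrable hi hp Pol.one (fun _ => zero_le_one)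
  simpa using this

/-- `hv δ f` is a polynomial. -/
theorem alg_hv {δ : ℝ} (hδ : 0 < δ) {f : ℝ × ℝ → ℝ} (hf : HasCompactSupport f) :
    Alg (hv δ f) := by
  obtain ⟨R, hR⟩ := hf.isCompact.isBounded.subset_ball (0 : ℝ × ℝ)
  obtain ⟨B, hB⟩ := hv_eq_hB (R := R) hδ
  exact alg_hB.of_eq fun ω => (hB f (fun z hz => hR (subset_tsupport _ hz)) ω).symm

theorem hv_sub' {δ : ℝ} (hδ : 0 < δ) {f g : ℝ × ℝ → ℝ} (hf : HasCompactSupport f)
    (hg : HasCompactSupport g) (ω : Om) : hv δ (fun z => f z - g z) ω = hv δ f ω - hv δ g ω := by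
  obtain ⟨R, hR⟩ := hf.isCompact.isBounded.subset_ball (0 : ℝ × ℝ)
  obtain ⟨R', hR'⟩ := hg.isCompact.isBounded.subset_ball (0 : ℝ × ℝ)
  obtain ⟨B, hB⟩ := hv_eq_hB (R := max R R') hδ
  have h1 : ∀ z, f z ≠ 0 → z ∈ Metric.ball (0 : ℝ × ℝ) (max R R') := fun z hz =>
    Metric.ball_subset_ball (le_max_left _ _) (hR (subset_tsupport _ hz))
  have h2 : ∀ z, g z ≠ 0 → z ∈ Metric.ball (0 : ℝ × ℝ) (max R R') := fun z hz =>
    Metric.ball_subset_ball (le_max_right _ _) (hR' (subset_tsupport _ hz))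
  rw [hB f h1, hB g h2, hB (fun z => f z - g z) ?_, hB_sub]
  intro z hz
  by_cases h3 : f z = 0
  · refine h2 z fun h4 => hz ?_
    simp [h3, h4]
  · exact h1 z h3

theorem even_sub_le (x y : ℝ) (k : ℕ) :
    (x - y) ^ (2 * k) ≤ 4 ^ k * (x ^ (2 * k) + y ^ (2 * k)) := by
  have h1 : (x - y) ^ 2 ≤ 4 * max (x ^ 2) (y ^ 2) := by
    have a1 := le_max_left (x ^ 2) (y ^ 2)
    have a2 := le_max_right (x ^ 2) (y ^ 2)
    nlinarith [sq_nonneg (x + y)]
  have h2 : 0 ≤ max (x ^ 2) (y ^ 2) := le_trans (sq_nonneg x) (le_max_left _ _)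
  rw [pow_mul, pow_mul, pow_mul]
  calc ((x - y) ^ 2) ^ k ≤ (4 * max (x ^ 2) (y ^ 2)) ^ k := pow_le_pow_left₀ (sq_nonneg _) h1 k
    _ = 4 ^ k * max (x ^ 2) (y ^ 2) ^ k := mul_pow _ _ _
    _ ≤ 4 ^ k * ((x ^ 2) ^ k + (y ^ 2) ^ k) := by
        refine mul_le_mul_of_nonneg_left ?_ (by positivity)
        rcases le_total (x ^ 2) (y ^ 2) with h | h
        · rw [max_eq_right h]
          have : 0 ≤ (x ^ 2) ^ k := by positivity
          linarith
        · rw [max_eq_left h]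
          have : 0 ≤ (y ^ 2) ^ k := by positivity
          linarith

/-- The even moments of a test function of any sign. -/
theorem mom_signed {δ : ℕ → ℝ} (hδ : ∀ n, 0 < δ n) {D : Set (ℝ × ℝ)} (hD : IsOpen D)
    (hb : Bornology.IsBounded D) {G : ℕ → Set Pt → ℝ} (hi : S_int t P)
    (hG : ∀ᶠ n in atTop, LocS univ (G n) ∧ G n ∅ = 0 ∧ ∀ B, 0 ≤ G n B)
    (hmom : ∀ f, TestOn D f → (∀ z, 0 ≤ f z) → ∀ k : ℕ, ∃ C : ℝ, ∀ᶠ n in atTop,
      II t P (G n) (fun ω => hv (δ n) f ω ^ (2 * k)) ≤ C * II t P (G n) (fun _ => 1))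
    {f : ℝ × ℝ → ℝ} (hf : TestOn D f) (k : ℕ) : ∃ C : ℝ, ∀ᶠ n in atTop,
      II t P (G n) (fun ω => hv (δ n) f ω ^ (2 * k)) ≤ C * II t P (G n) (fun _ => 1) := by
  obtain ⟨F, hF, hFf, -⟩ := exists_dom hD hb hf one_pos
  have hF0 : ∀ z, 0 ≤ F z := fun z => (abs_nonneg _).trans (hFf z)
  have hFs : TestOn D (fun z => F z - f z) := hF.sub hf
  obtain ⟨C1, h1⟩ := hmom F hF hF0 k
  obtain ⟨C2, h2⟩ := hmom (fun z => F z - f z) hFs
    (fun z => sub_nonneg.2 ((le_abs_self _).trans (hFf z))) k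
  refine ⟨4 ^ k * (C1 + C2), ?_⟩
  filter_upwards [h1, h2, hG] with n g1 g2 hGn
  obtain ⟨l1, l2, l3⟩ := hGn
  have a1 : Alg (fun ω => hv (δ n) F ω ^ (2 * k)) := (alg_hv (hδ n) hF.cs).pow _
  have a2 : Alg (fun ω => hv (δ n) (fun z => F z - f z) ω ^ (2 * k)) :=
    (alg_hv (hδ n) hFs.cs).pow _
  have a3 : Alg (fun ω => hv (δ n) f ω ^ (2 * k)) := (alg_hv (hδ n) hf.cs).pow _
  have i1 := hi (G n) _ l1 l2 a1
  have i2 := hi (G n) _ l1 l2 a2
  have i3 := hi (G n) _ l1 l2 a3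
  have key : II t P (G n) (fun ω => hv (δ n) f ω ^ (2 * k)) ≤
      4 ^ k * (II t P (G n) (fun ω => hv (δ n) F ω ^ (2 * k)) +
        II t P (G n) (fun ω => hv (δ n) (fun z => F z - f z) ω ^ (2 * k))) := by
    unfold II
    rw [← integral_add i1 i2, ← integral_const_mul]
    refine integral_mono i3 ((i1.add i2).const_mul _) fun x => ?_
    have e : hv (δ n) f (vm x.1) = hv (δ n) F (vm x.1) -
        hv (δ n) (fun z => F z - f z) (vm x.1) := by
      rw [hv_sub' (hδ n) hF.cs hf.cs]; ring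
    have h5 := even_sub_le (hv (δ n) F (vm x.1)) (hv (δ n) (fun z => F z - f z) (vm x.1)) k
    rw [← e] at h5
    have h6 := mul_le_mul_of_nonneg_left h5 (l3 (bl x))
    simp only [Pi.add_apply]
    linarith
  refine key.trans ?_
  have h4 : (0 : ℝ) ≤ 4 ^ k := by positivity
  calc _ ≤ 4 ^ k * (C1 * II t P (G n) (fun _ => 1) + C2 * II t P (G n) (fun _ => 1)) :=
        mul_le_mul_of_nonneg_left (add_le_add g1 g2) h4
    _ = _ := by ring

end

/-- Test functions in the six-vertex coordinates. -/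
theorem exists_tl {D : Set (ℝ × ℝ)} {f' : ℝ × ℝ → ℝ} (h : TestOn (Ro.symm ⁻¹' D) f') :
    ∃ f, TestOn D f ∧ tl f = f' := by
  refine ⟨f' ∘ Ro, ⟨?_, ?_, ?_⟩, ?_⟩
  · exact ContDiff.comp h.1 ((contDiff_fst.add contDiff_snd).prodMk
      (contDiff_fst.sub contDiff_snd))
  · exact h.2.1.comp_homeomorph Ro
  · rw [tsupport_comp_eq_preimage f' Ro]
    intro z hz
    have := h.2.2 hz
    rwa [mem_preimage, Ro.symm_apply_apply] at this
  · rw [tl_eq]
    funext z
    simp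

end Vale.Agent.P145.X.Sdx
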