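import Vale.Agent.P145.X.Stmt
import Vale.Agent.P145.FA.UseC

/-!
P145, block F-X: the indicator of a family of circuits in the four regions of a pinwheel is, after
averaging over the marks, a product of four local functionals of the heights.
-/

namespace Vale.Agent.P145.X

open Filter Topology Set MeasureTheory
open Vale.Agent.P152 (Ori)
open Vale.Agent.P145.FA (Hgt)
open Vale.Agent.P145.FB (Pt Mk e1 e2 o1 o2 MU bl mkm om)
open Vale.Agent.P145.FA.Use (PW lat)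

/-- The four regions with the radius `R`. -/
def sdK (x₁ x₂ y₁ y₂ e R : ℝ) (i : Fin 4) : Set (ℝ × ℝ) :=
  {z | z ∈ Kq x₁ x₂ y₁ y₂ e i ∧ |z.1| ≤ R ∧ |z.2| ≤ R}

/-- The edges all faces of which are in the region. -/
def sdE (δ : ℝ) (K : Set (ℝ × ℝ)) : Set Pt :=
  {w | ∀ q, (q = e1 w ∨ q = e2 w ∨ q = o1 w ∨ q = o2 w) → (δ * (q.1 : ℝ), δ * (q.2 : ℝ)) ∈ K}

theorem sdK_disj {x₁ x₂ y₁ y₂ e R : ℝ} (hx : x₁ < x₂) (hy : y₁ < y₂) (he : 0 < e) {i j : Fin 4}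
    (hij : i ≠ j) (z : ℝ × ℝ) (hi : z ∈ sdK x₁ x₂ y₁ y₂ e R i) : z ∉ sdK x₁ x₂ y₁ y₂ e R j := by
  intro hj
  have h1 := hi.1
  have h2 := hj.1
  simp only [Kq, Set.mem_setOf_eq] at h1 h2
  rcases h1 with ⟨a, b⟩ | ⟨a, b, c⟩ | ⟨a, b, c⟩ | ⟨a, b, c, d⟩ <;>
    rcases h2 with ⟨a', b'⟩ | ⟨a', b', c'⟩ | ⟨a', b', c'⟩ | ⟨a', b', c', d'⟩ <;>
    first
      | (exact hij (a.trans a'.symm))
      | linarith

theorem sdE_disj {δ x₁ x₂ y₁ y₂ e R : ℝ} (hx : x₁ < x₂) (hy : y₁ < y₂) (he : 0 < e) {i j : Fin 4}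
    (hij : i ≠ j) : Disjoint (sdE δ (sdK x₁ x₂ y₁ y₂ e R i)) (sdE δ (sdK x₁ x₂ y₁ y₂ e R j)) := by
  rw [Set.disjoint_left]
  intro w hw hw'
  exact sdK_disj hx hy he hij _ (hw (e1 w) (Or.inl rfl)) (hw' (e1 w) (Or.inl rfl))

/-- The events of the circuits of `T`. -/
def AllZ (T : Finset ((ℤ × ℤ) × ℤ)) (B : Set Pt) : Prop := ∀ s ∈ T, Zr s.1 s.2 B

theorem locS_allZ (hL : S_loc) {A : Set Pt} (T : Finset ((ℤ × ℤ) × ℤ))
    (hT : ∀ s ∈ T, 1 ≤ s.2 ∧ tE (bx s.1 (2 * s.2)) ⊆ A) : LocS A (ind (AllZ T)) := by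
  classical
  have h1 : ∀ s ∈ T, ∃ Λ : Finset Pt, (∀ w ∈ Λ, w ∈ A) ∧
      ∀ B B' : Set Pt, (∀ w ∈ Λ, w ∈ B ↔ w ∈ B') → (Zr s.1 s.2 B ↔ Zr s.1 s.2 B') := by
    intro s hs
    obtain ⟨Λ, h2, h3⟩ := (hL s.1 s.2 (hT s hs).1).2.loc
    refine ⟨Λ, fun w hw => (hT s hs).2 (h2 w hw).1, fun B B' hB => ?_⟩
    have h4 := h3 B B' hB
    unfold ind at h4
    by_cases p : Zr s.1 s.2 B <;> by_cases p' : Zr s.1 s.2 B' <;> simp_all
  choose! Λ h2 h3 using h1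
  refine ⟨T.biUnion Λ, fun w hw => ?_, fun B B' hB => ?_⟩
  · obtain ⟨s, hs, hw⟩ := Finset.mem_biUnion.1 hw
    exact h2 s hs w hw
  · have h4 : AllZ T B ↔ AllZ T B' := by
      refine forall₂_congr fun s hs => h3 s hs B B' fun w hw => hB w ?_
      exact Finset.mem_biUnion.2 ⟨s, hs, hw⟩
    unfold ind
    simp only [h4]

theorem sd_ind_nonneg (Q : Set Pt → Prop) (B : Set Pt) : 0 ≤ ind Q B := by
  unfold ind; split_ifs <;> norm_num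

theorem sd_ind_le_one (Q : Set Pt → Prop) (B : Set Pt) : ind Q B ≤ 1 := by
  unfold ind; split_ifs <;> norm_num

theorem LocS.mono' {A A' : Set Pt} {g : Set Pt → ℝ} (h : LocS A g) (hA : A ⊆ A') : LocS A' g := by
  obtain ⟨Λ, h1, h2⟩ := h
  exact ⟨Λ, fun w hw => hA (h1 w hw), h2⟩

theorem LocS.mul' {A A' : Set Pt} {g g' : Set Pt → ℝ} (h : LocS A g) (h' : LocS A' g') :
    LocS (A ∪ A') (fun B => g B * g' B) := by
  classical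
  obtain ⟨Λ, h1, h2⟩ := h
  obtain ⟨Λ', h1', h2'⟩ := h'
  refine ⟨Λ ∪ Λ', fun w hw => ?_, fun B B' hB => ?_⟩
  · rcases Finset.mem_union.1 hw with hw | hw
    · exact Or.inl (h1 w hw)
    · exact Or.inr (h1' w hw)
  · simp only
    rw [h2 B B' fun w hw => hB w (Finset.mem_union_left _ hw),
      h2' B B' fun w hw => hB w (Finset.mem_union_right _ hw)]

theorem loc_mono {R : Type} {A A' : Set (ℤ × ℤ)} {F : Hgt → R} (h : FA.Loc A F) (hA : A ⊆ A') :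
    FA.Loc A' F := by
  obtain ⟨Λ, h1, h2⟩ := h
  exact ⟨Λ, fun w hw => hA (h1 w hw), h2⟩

/-- **Product decomposition.** -/
theorem exists_prod {t : ℝ} {P : Measure (Ori (ℤ × ℤ))} (hA : S_avg t P) (hL : S_loc)
    {x₁ x₂ y₁ y₂ e δ R : ℝ} (hx : x₁ < x₂) (hy : y₁ < y₂) (he : 0 < e)
    (T : Finset ((ℤ × ℤ) × ℤ)) (hne : T.Nonempty)
    (hT : ∀ s ∈ T, 1 ≤ s.2 ∧ (∃ i, Fin6 δ (tE (bx s.1 (2 * s.2))) (Kq x₁ x₂ y₁ y₂ e i)) ∧
      Fin6 δ (tE (bx s.1 (2 * s.2))) {z | |z.1| ≤ R ∧ |z.2| ≤ R}) :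
    ∃ X1 X2 X3 X4 : Hgt → ℝ,
      (FA.Loc (lat δ (PW.K1 ⟨x₁, x₂, y₁, y₂, e, R⟩)) X1 ∧
        FA.Loc (lat δ (PW.K2 ⟨x₁, x₂, y₁, y₂, e, R⟩)) X2 ∧
        FA.Loc (lat δ (PW.K3 ⟨x₁, x₂, y₁, y₂, e, R⟩)) X3 ∧
        FA.Loc (lat δ (PW.K4 ⟨x₁, x₂, y₁, y₂, e, R⟩)) X4) ∧
      ((∀ h, 0 ≤ X1 h ∧ X1 h ≤ 1) ∧ (∀ h, 0 ≤ X2 h ∧ X2 h ≤ 1) ∧ (∀ h, 0 ≤ X3 h ∧ X3 h ≤ 1) ∧
        ∀ h, 0 ≤ X4 h ∧ X4 h ≤ 1) ∧
      ∀ F : Hgt → ℂ, FA.Loc univ F →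
        ∫ h, ((X1 h * X2 h * X3 h * X4 h : ℝ) : ℂ) * F h ∂(FA.mu0 P) =
          ∫ x, ((ind (AllZ T) (bl x) : ℝ) : ℂ) * F x.1 ∂(MU t P) := by
  classical
  have hi : ∀ s ∈ T, ∃ i, Fin6 δ (tE (bx s.1 (2 * s.2))) (Kq x₁ x₂ y₁ y₂ e i) :=
    fun s hs => (hT s hs).2.1
  choose! i hi using hi
  let Tj : Fin 4 → Finset ((ℤ × ℤ) × ℤ) := fun j => T.filter fun s => i s = j
  let Aj : Fin 4 → Set Pt := fun j => sdE δ (sdK x₁ x₂ y₁ y₂ e R j)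
  have hloc : ∀ j, LocS (Aj j) (ind (AllZ (Tj j))) := by
    intro j
    refine locS_allZ hL _ fun s hs => ?_
    obtain ⟨hs1, hs2⟩ := Finset.mem_filter.1 hs
    refine ⟨(hT s hs1).1, fun w hw q hq => ⟨?_, ?_⟩⟩
    · have := hi s hs1 w hw q hq
      rwa [hs2] at this
    · exact (hT s hs1).2.2 w hw q hq
  have hdis : ∀ {a b : Fin 4}, a ≠ b → Disjoint (Aj a) (Aj b) := fun h => sdE_disj hx hy he h
  have hprod : ∀ B, ind (AllZ T) B = ind (AllZ (Tj 0)) B * (ind (AllZ (Tj 1)) B *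
      (ind (AllZ (Tj 2)) B * ind (AllZ (Tj 3)) B)) := by
    intro B
    have key : AllZ T B ↔ (AllZ (Tj 0) B ∧ AllZ (Tj 1) B ∧ AllZ (Tj 2) B ∧ AllZ (Tj 3) B) := by
      constructor
      · intro h
        exact ⟨fun s hs => h s (Finset.mem_filter.1 hs).1, fun s hs => h s (Finset.mem_filter.1 hs).1,
          fun s hs => h s (Finset.mem_filter.1 hs).1, fun s hs => h s (Finset.mem_filter.1 hs).1⟩
      · rintro ⟨h0, h1, h2, h3⟩ s hs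
        have hj : ∀ j, i s = j → s ∈ Tj j := fun j hj => Finset.mem_filter.2 ⟨hs, hj⟩
        have hcase : i s = 0 ∨ i s = 1 ∨ i s = 2 ∨ i s = 3 := by
          generalize i s = k
          fin_cases k <;> simp
        rcases hcase with h | h | h | h
        · exact h0 s (hj _ h)
        · exact h1 s (hj _ h)
        · exact h2 s (hj _ h)
        · exact h3 s (hj _ h)
    unfold ind
    by_cases h0 : AllZ (Tj 0) B <;> by_cases h1 : AllZ (Tj 1) B <;>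
      by_cases h2 : AllZ (Tj 2) B <;> by_cases h3 : AllZ (Tj 3) B <;>
      simp [key, h0, h1, h2, h3]
  have l23 := (hloc 2).mul' (hloc 3)
  have l123 := (hloc 1).mul' l23
  have havg : ∀ h, avg t (ind (AllZ T)) h = avg t (ind (AllZ (Tj 0))) h *
      avg t (ind (AllZ (Tj 1))) h * avg t (ind (AllZ (Tj 2))) h * avg t (ind (AllZ (Tj 3))) h := by
    intro h
    have e0 : (ind (AllZ T)) = fun B => ind (AllZ (Tj 0)) B * (ind (AllZ (Tj 1)) B *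
      (ind (AllZ (Tj 2)) B * ind (AllZ (Tj 3)) B)) := funext hprod
    have d0 : Disjoint (Aj 0) (Aj 1 ∪ (Aj 2 ∪ Aj 3)) :=
      (hdis (by decide)).union_right ((hdis (by decide)).union_right (hdis (by decide)))
    have d1 : Disjoint (Aj 1) (Aj 2 ∪ Aj 3) :=
      (hdis (by decide)).union_right (hdis (by decide))
    rw [e0, hA.mul _ _ _ _ (hloc 0) l123 d0 h, hA.mul _ _ _ _ (hloc 1) l23 d1 h,
      hA.mul _ _ _ _ (hloc 2) (hloc 3) (hdis (by decide)) h]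
    ring
  have hav01 : ∀ j h, 0 ≤ avg t (ind (AllZ (Tj j))) h ∧ avg t (ind (AllZ (Tj j))) h ≤ 1 :=
    fun j h => ⟨hA.nonneg _ (sd_ind_nonneg _) h,
      hA.le_one _ ((hloc j).mono' (subset_univ _)) (sd_ind_le_one _) h⟩
  have hFl : ∀ j (K : Set (ℝ × ℝ)), (∀ z, z ∈ sdK x₁ x₂ y₁ y₂ e R j → z ∈ K) →
      FA.Loc (lat δ K) (avg t (ind (AllZ (Tj j)))) := by
    intro j K hK
    refine loc_mono (hA.loc _ _ (hloc j)) ?_
    rintro q ⟨w, hw, hq⟩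
    exact hK _ (hw q hq)
  refine ⟨avg t (ind (AllZ (Tj 0))), avg t (ind (AllZ (Tj 1))), avg t (ind (AllZ (Tj 2))),
    avg t (ind (AllZ (Tj 3))), ⟨hFl 0 _ ?_, hFl 1 _ ?_, hFl 2 _ ?_, hFl 3 _ ?_⟩,
    ⟨hav01 0, hav01 1, hav01 2, hav01 3⟩, fun F hF => ?_⟩
  · rintro z ⟨h1, h2, h3⟩
    simp only [Kq, Set.mem_setOf_eq] at h1
    rcases h1 with ⟨-, b⟩ | ⟨a, -⟩ | ⟨a, -⟩ | ⟨a, -⟩
    · exact ⟨b, h2, h3⟩
    all_goals exact absurd a (by decide)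
  · rintro z ⟨h1, h2, h3⟩
    simp only [Kq, Set.mem_setOf_eq] at h1
    rcases h1 with ⟨a, -⟩ | ⟨-, b, c⟩ | ⟨a, -⟩ | ⟨a, -⟩
    · exact absurd a (by decide)
    · exact ⟨b, c, h2, h3⟩
    all_goals exact absurd a (by decide)
  · rintro z ⟨h1, h2, h3⟩
    simp only [Kq, Set.mem_setOf_eq] at h1
    rcases h1 with ⟨a, -⟩ | ⟨a, -⟩ | ⟨-, b, c⟩ | ⟨a, -⟩
    · exact absurd a (by decide)
    · exact absurd a (by decide)
    · exact ⟨b, c, h2, h3⟩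
    · exact absurd a (by decide)
  · rintro z ⟨h1, h2, h3⟩
    simp only [Kq, Set.mem_setOf_eq] at h1
    rcases h1 with ⟨a, -⟩ | ⟨a, -⟩ | ⟨a, -⟩ | ⟨-, b, c, d⟩
    · exact absurd a (by decide)
    · exact absurd a (by decide)
    · exact absurd a (by decide)
    · exact ⟨b, c, d, h2, h3⟩
  · have hT' : LocS univ (ind (AllZ T)) :=
      locS_allZ hL T fun s hs => ⟨(hT s hs).1, subset_univ _⟩
    have h0 : ind (AllZ T) ∅ = 0 := by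
      obtain ⟨s, hs⟩ := hne
      have h1 := (hL s.1 s.2 (hT s hs).1).2.pin
      unfold ind at h1 ⊢
      have h2 : ¬ Zr s.1 s.2 ∅ := by
        intro h3
        rw [if_pos h3] at h1
        norm_num at h1
      rw [if_neg fun h3 => h2 (h3 s hs)]
    rw [← hA.int _ F hT' h0 hF]
    refine integral_congr_ae (Eventually.of_forall fun h => ?_)
    simp only
    rw [havg h]

end Vale.Agent.P145.X
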