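import Vale.Agent.P145.X.SdA
import Vale.Agent.P145.X.SdProd
import Vale.Agent.P145.X.FrA
import Vale.Agent.P145.X.Pin

/-!
P145, block X: the Schwinger-Dyson equation given a family of circuits in the arms of a pinwheel,
in the coordinates of the block Top.
-/

namespace Vale.Agent.P145.X

open Filter Topology Set MeasureTheory
open Vale.Agent.P152 (Ori)
open Vale.Agent.P145.FA (Hgt mu0 Wd Pl GRP CLT dX dY dD dA RX RY RD RA)
open Vale.Agent.P145.FA.Use (Lf PW lat DatE useE)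
open Vale.Agent.P145.FB (Pt MU bl e1 e2 o1 o2)
open Vale.Agent.P145.Top
open Vale.Agent.P145.PT

namespace Sdx

/-! ### Geometry -/

theorem tE_bd {p : ℤ × ℤ} {r : ℤ} {w : Pt} (hw : w ∈ tE (bx p r)) {q : Pt}
    (hq : q = e1 w ∨ q = e2 w ∨ q = o1 w ∨ q = o2 w) :
    |q.1| ≤ |p.1| + |p.2| + 2 * r + 3 ∧ |q.2| ≤ |p.1| + |p.2| + 2 * r + 3 := by
  obtain ⟨f, ⟨b1, b2, b3, b4⟩, h⟩ := hw
  have c1 := le_abs_self p.1
  have c2 := neg_abs_le p.1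
  have c3 := le_abs_self p.2
  have c4 := neg_abs_le p.2
  have h' : (o1 w = (f.1 + f.2 + 1, f.1 - f.2)) ∨ (o2 w = (f.1 + f.2 + 1, f.1 - f.2)) := h
  have k1 : |w.1 - (f.1 + f.2 + 1)| ≤ 1 ∧ |w.2 - (f.1 - f.2)| ≤ 1 := by
    rcases h' with h' | h'
    · have u1 := congrArg Prod.fst h'
      have u2 := congrArg Prod.snd h'
      unfold o1 at u1 u2
      split_ifs at u1 u2 <;> simp only at u1 u2 <;> constructor <;> rw [abs_le] <;> omega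
    · have u1 := congrArg Prod.fst h'
      have u2 := congrArg Prod.snd h'
      unfold o2 at u1 u2
      split_ifs at u1 u2 <;> simp only at u1 u2 <;> constructor <;> rw [abs_le] <;> omega
  rw [abs_le, abs_le] at k1
  have k2 : w.1 - 1 ≤ q.1 ∧ q.1 ≤ w.1 ∧ w.2 - 1 ≤ q.2 ∧ q.2 ≤ w.2 := by
    rcases hq with rfl | rfl | rfl | rfl
    · unfold e1; split_ifs <;> (try simp only) <;> omega
    · unfold e2; split_ifs <;> (try simp only) <;> omega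
    · unfold o1; split_ifs <;> (try simp only) <;> omega
    · unfold o2; split_ifs <;> (try simp only) <;> omega
  constructor <;> rw [abs_le] <;> omega

theorem sc_bd {ε δ : ℝ} (hδ : 0 < δ) (i : ℕ) : δ * (sc ε δ i : ℝ) ≤ 4 ^ i * ε := by
  unfold sc
  push_cast
  have h1 : ((⌊ε / δ⌋ : ℤ) : ℝ) ≤ ε / δ := Int.floor_le _
  calc δ * (4 ^ i * ((⌊ε / δ⌋ : ℤ) : ℝ)) = 4 ^ i * (δ * ((⌊ε / δ⌋ : ℤ) : ℝ)) := by ring
    _ ≤ 4 ^ i * (δ * (ε / δ)) := by gcongr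
    _ = 4 ^ i * ε := by rw [mul_div_cancel₀ _ hδ.ne']

theorem sc_pos {ε δ : ℝ} (hδ : 0 < δ) (h : δ ≤ ε) (i : ℕ) : 1 ≤ sc ε δ i := by
  have h1 : 1 ≤ ⌊ε / δ⌋ := Int.le_floor.2 (by rw [Int.cast_one, le_div_iff₀ hδ]; linarith)
  exact pow_ge h1 i

theorem fin6_bd {δ : ℝ} (hδ : 0 < δ) {w : ℤ} {M : ℝ} (hM : δ * (w : ℝ) ≤ M) {K : ℤ} (hK : 0 ≤ K)
    {p : ℤ × ℤ} {r : ℤ} (h : |p.1| + |p.2| + 2 * r + 3 ≤ w * K) {R : ℝ} (hR : M * K ≤ R) :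
    Fin6 δ (tE (bx p r)) {z | |z.1| ≤ R ∧ |z.2| ≤ R} := by
  intro w' hw' q hq
  obtain ⟨h1, h2⟩ := tE_bd hw' hq
  have hK' : (0 : ℝ) ≤ K := by exact_mod_cast hK
  have key : ∀ x : ℤ, |x| ≤ |p.1| + |p.2| + 2 * r + 3 → |δ * (x : ℝ)| ≤ R := by
    intro x hx
    have h3 : ((|x| : ℤ) : ℝ) ≤ ((w * K : ℤ) : ℝ) := by exact_mod_cast hx.trans h
    rw [abs_mul, abs_of_pos hδ]
    push_cast at h3
    calc δ * |(x : ℝ)| ≤ δ * (w * K) := mul_le_mul_of_nonneg_left h3 hδ.le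
      _ = δ * w * K := by ring
      _ ≤ M * K := mul_le_mul_of_nonneg_right hM hK'
      _ ≤ R := hR
  exact ⟨key _ h1, key _ h2⟩

theorem fin6_mono {δ : ℝ} {A : Set Pt} {K K' : Set (ℝ × ℝ)} (h : Fin6 δ A K) (hK : K ⊆ K') :
    Fin6 δ A K' := fun w hw q hq => hK (h w hw q hq)

theorem Kq_mono {x₁ x₂ y₁ y₂ e e' : ℝ} (he : e' ≤ e) (i : Fin 4) :
    Kq x₁ x₂ y₁ y₂ e i ⊆ Kq x₁ x₂ y₁ y₂ e' i := by
  intro z hz
  rcases hz with ⟨h, h1⟩ | ⟨h, h1, h2⟩ | ⟨h, h1, h2⟩ | ⟨h, h1, h2, h3⟩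
  · exact Or.inl ⟨h, by linarith⟩
  · exact Or.inr (Or.inl ⟨h, by linarith, h2⟩)
  · exact Or.inr (Or.inr (Or.inl ⟨h, by linarith, h2⟩))
  · exact Or.inr (Or.inr (Or.inr ⟨h, by linarith, h2, h3⟩))

/-- The family of circuits as a list of centres and radii. -/
noncomputable def TT (w : ℤ) (Y : Finset (ℤ × ℤ)) (p : ℤ × ℤ) (r : ℤ) :
    Finset ((ℤ × ℤ) × ℤ) := by
  classical
  exact insert (p, r) (Y.image fun y => (ce w y, w))

theorem allZ_TT {w : ℤ} {Y : Finset (ℤ × ℤ)} {p : ℤ × ℤ} {r : ℤ} {B : Set Pt} :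
    AllZ (TT w Y p r) B ↔ Fy w Y p r B := by
  classical
  unfold AllZ TT Fy
  simp only [Finset.mem_insert, Finset.mem_image, forall_eq_or_imp, forall_exists_index, and_imp,
    forall_apply_eq_imp_iff₂]
  exact and_comm

theorem ind_TT {w : ℤ} {Y : Finset (ℤ × ℤ)} {p : ℤ × ℤ} {r : ℤ} :
    ind (AllZ (TT w Y p r)) = ind (Fy w Y p r) := by
  have e : AllZ (TT w Y p r) = Fy w Y p r := funext fun _ => propext allZ_TT
  rw [e]

/-! ### Bumps in the arms -/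

theorem exists_rho1 {D : Set (ℝ × ℝ)} (hD : IsOpen D) {a b a' b' : ℝ} (hab' : a' < b')
    (hp : (a, (a' + b') / 2) ∈ D) : ∃ e R : ℝ, 0 < e ∧ 0 < R ∧ ∀ e' R' : ℝ, e' ≤ e → R ≤ R' →
      ∃ ρ : ℝ × ℝ → ℝ, TestOn (PW.K1 ⟨a, b, a', b', e', R'⟩ ∩ D) ρ ∧ ∫ x, ρ x = 1 := by
  obtain ⟨s, hs, hball⟩ := Metric.isOpen_iff.1 hD _ hp
  refine ⟨s / 4, |a| + |a'| + |b'| + s, by linarith, by positivity, fun e' R' he hR => ?_⟩
  have hs8 : 0 < s / 8 := by linarith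
  refine ⟨bump (s / 8) (a - s / 2, (a' + b') / 2), bump_test hs8 fun z hz => ?_, bump_int hs8 _⟩
  rw [Metric.mem_closedBall, Prod.dist_eq, max_le_iff, Real.dist_eq, Real.dist_eq, abs_le,
    abs_le] at hz
  simp only at hz
  obtain ⟨⟨z1, z2⟩, z3, z4⟩ := hz
  have c1 := le_abs_self a
  have c2 := neg_abs_le a
  have c3 := le_abs_self a'
  have c4 := neg_abs_le a'
  have c5 := le_abs_self b'
  have c6 := neg_abs_le b'
  refine ⟨⟨?_, ?_, ?_⟩, hball ?_⟩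
  · show z.1 ≤ a - e'
    linarith
  · show |z.1| ≤ R'
    rw [abs_le]; constructor <;> linarith [abs_nonneg a', abs_nonneg b']
  · show |z.2| ≤ R'
    rw [abs_le]; constructor <;> linarith [abs_nonneg a]
  · rw [Metric.mem_ball, Prod.dist_eq, max_lt_iff, Real.dist_eq, Real.dist_eq, abs_lt, abs_lt]
    refine ⟨⟨?_, ?_⟩, ?_, ?_⟩ <;> simp only <;> linarith

theorem exists_rho4 {D : Set (ℝ × ℝ)} (hD : IsOpen D) {a b a' b' : ℝ} (hab : a < b)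
    (hp : ((a + b) / 2, a') ∈ D) : ∃ e R : ℝ, 0 < e ∧ 0 < R ∧ ∀ e' R' : ℝ, e' ≤ e → R ≤ R' →
      ∃ ρ : ℝ × ℝ → ℝ, TestOn (PW.K4 ⟨a, b, a', b', e', R'⟩ ∩ D) ρ ∧ ∫ x, ρ x = 1 := by
  obtain ⟨s, hs, hball⟩ := Metric.isOpen_iff.1 hD _ hp
  refine ⟨s / 4, |a| + |b| + |a'| + s, by linarith, by positivity, fun e' R' he hR => ?_⟩
  set s8 : ℝ := min (s / 8) ((b - a) / 2) with hs8d
  have hs8 : 0 < s8 := lt_min (by linarith) (by linarith)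
  have m1 : s8 ≤ s / 8 := min_le_left _ _
  have m2 : s8 ≤ (b - a) / 2 := min_le_right _ _
  refine ⟨bump s8 ((a + b) / 2, a' - s / 2), bump_test hs8 fun z hz => ?_, bump_int hs8 _⟩
  rw [Metric.mem_closedBall, Prod.dist_eq, max_le_iff, Real.dist_eq, Real.dist_eq, abs_le,
    abs_le] at hz
  simp only at hz
  obtain ⟨⟨z1, z2⟩, z3, z4⟩ := hz
  have c1 := le_abs_self a
  have c2 := neg_abs_le a
  have c3 := le_abs_self a'
  have c4 := neg_abs_le a'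
  have c5 := le_abs_self b
  have c6 := neg_abs_le b
  refine ⟨⟨?_, ?_, ?_, ?_, ?_⟩, hball ?_⟩
  · show z.2 ≤ a' - e'
    linarith
  · show a ≤ z.1
    linarith
  · show z.1 ≤ b
    linarith
  · show |z.1| ≤ R'
    rw [abs_le]; constructor <;> linarith [abs_nonneg a']
  · show |z.2| ≤ R'
    rw [abs_le]; constructor <;> linarith [abs_nonneg a, abs_nonneg b]
  · rw [Metric.mem_ball, Prod.dist_eq, max_lt_iff, Real.dist_eq, Real.dist_eq, abs_lt, abs_lt]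
    refine ⟨⟨?_, ?_⟩, ?_, ?_⟩ <;> simp only <;> linarith

/-- The geometric conditions. -/
def Gd (δ ε : ℝ) (j N : ℕ) (a b a' b' e1 : ℝ) (Y : Finset (ℤ × ℤ)) (y0 : ℤ × ℤ) (l : ℤ) : Prop :=
  (∀ y ∈ Y, |y.1| ≤ N ∧ |y.2| ≤ N ∧
    ∃ i, Fin6 δ (tE (bx (ce (sc ε δ (j + 1)) y) (2 * sc ε δ (j + 1)))) (Kq a b a' b' e1 i)) ∧
  1 ≤ l ∧ |y0.1| + 8 * l ≤ N ∧ |y0.2| + 8 * l ≤ N ∧
  Fin6 δ (tE (bx (ce (sc ε δ (j + 1)) y0) (8 * (l * sc ε δ (j + 1))))) {z | z.1 ≤ a - 1}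

/-- The product decomposition of the family. -/
theorem exists_X {t : ℝ} {P : Measure (Ori (ℤ × ℤ))} (hA : S_avg t P) (hL : S_loc)
    {δ ε : ℝ} (hδ : 0 < δ) (hδε : δ ≤ ε) {j N : ℕ} {a b a' b' e1 e R : ℝ} (hab : a < b)
    (hab' : a' < b') (he : 0 < e) (hee : e ≤ e1) (he1 : e ≤ 1) (hR : 4 ^ (j + 1) * ε * (2 * N + 7) ≤ R)
    {Y : Finset (ℤ × ℤ)} {y0 : ℤ × ℤ} {l : ℤ} (h : Gd δ ε j N a b a' b' e1 Y y0 l) :
    ∃ X1 X2 X3 X4 : Hgt → ℝ,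
      (FA.Loc (lat δ (PW.K1 ⟨a, b, a', b', e, R⟩)) X1 ∧
        FA.Loc (lat δ (PW.K2 ⟨a, b, a', b', e, R⟩)) X2 ∧
        FA.Loc (lat δ (PW.K3 ⟨a, b, a', b', e, R⟩)) X3 ∧
        FA.Loc (lat δ (PW.K4 ⟨a, b, a', b', e, R⟩)) X4) ∧
      ((∀ h, 0 ≤ X1 h ∧ X1 h ≤ 1) ∧ (∀ h, 0 ≤ X2 h ∧ X2 h ≤ 1) ∧ (∀ h, 0 ≤ X3 h ∧ X3 h ≤ 1) ∧
        ∀ h, 0 ≤ X4 h ∧ X4 h ≤ 1) ∧
      Rep t P (ind (Fy (sc ε δ (j + 1)) Y (ce (sc ε δ (j + 1)) y0) (4 * (l * sc ε δ (j + 1)))))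
        (fun h => X1 h * X2 h * X3 h * X4 h) := by
  classical
  obtain ⟨hY, hl, hy1, hy2, hfar⟩ := h
  set w : ℤ := sc ε δ (j + 1) with hw
  have hw1 : 1 ≤ w := sc_pos hδ hδε _
  have hM : δ * (w : ℝ) ≤ 4 ^ (j + 1) * ε := sc_bd hδ _
  have hlw : 1 ≤ l * w := by nlinarith
  have hN : (0 : ℤ) ≤ N := Int.natCast_nonneg N
  have hR' : 4 ^ (j + 1) * ε * ((2 * (N : ℤ) + 7 : ℤ) : ℝ) ≤ R := by push_cast; exact hR
  have hT : ∀ s ∈ TT w Y (ce w y0) (4 * (l * w)), 1 ≤ s.2 ∧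
      (∃ i, Fin6 δ (tE (bx s.1 (2 * s.2))) (Kq a b a' b' e i)) ∧
      Fin6 δ (tE (bx s.1 (2 * s.2))) {z | |z.1| ≤ R ∧ |z.2| ≤ R} := by
    intro s hs
    unfold TT at hs
    rcases Finset.mem_insert.1 hs with rfl | hs
    · refine ⟨by simp only; linarith, ⟨0, ?_⟩, ?_⟩
      · have e8 : 2 * (4 * (l * w)) = 8 * (l * w) := by ring
        simp only
        rw [e8]
        refine fin6_mono hfar fun z hz => Or.inl ⟨rfl, ?_⟩
        have : z.1 ≤ a - 1 := hz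
        linarith
      · refine fin6_bd hδ hM (K := 2 * (N : ℤ) + 7) (by linarith) ?_ hR'
        simp only [ce]
        rw [abs_mul, abs_mul, abs_of_pos (by linarith : (0 : ℤ) < w)]
        nlinarith
    · obtain ⟨y, hy, rfl⟩ := Finset.mem_image.1 hs
      obtain ⟨h1, h2, i, h3⟩ := hY y hy
      refine ⟨hw1, ⟨i, fin6_mono h3 (Kq_mono hee i)⟩, ?_⟩
      refine fin6_bd hδ hM (K := 2 * (N : ℤ) + 7) (by linarith) ?_ hR'
      simp only [ce]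
      rw [abs_mul, abs_mul, abs_of_pos (by linarith : (0 : ℤ) < w)]
      nlinarith
  have hne : (TT w Y (ce w y0) (4 * (l * w))).Nonempty := by
    unfold TT
    exact Finset.insert_nonempty _ _
  obtain ⟨X1, X2, X3, X4, hloc, hbd, hint⟩ := exists_prod hA hL hab hab' he _ hne hT
  refine ⟨X1, X2, X3, X4, hloc, hbd, ?_⟩
  rw [ind_TT] at hint
  have hr : 1 ≤ 4 * (l * w) := by linarith
  exact
    { loc := locP_iff.1 (fy_loc hL hw1 hr (fun _ _ => subset_univ _) (subset_univ _))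
      emp := ind_not (fy_empty hL hr)
      g0 := ind_nonneg _
      Xm := ((hloc.1.measurable.mul hloc.2.1.measurable).mul hloc.2.2.1.measurable).mul
        hloc.2.2.2.measurable
      X0 := fun h => mul_nonneg (mul_nonneg (mul_nonneg (hbd.1 h).1 (hbd.2.1 h).1)
        (hbd.2.2.1 h).1) (hbd.2.2.2 h).1
      int := hint }

end Sdx

open Sdx in
/-- **The Schwinger-Dyson equation given a family of circuits** at level `0` in the arms of the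
pinwheel of a cell. -/
theorem sdx_fam {c t κ : ℝ} {P : Measure (Ori (ℤ × ℤ))} (hPl : Pl c P)
    (hG : GRP P dX RX ∧ GRP P dY RY ∧ GRP P dD RD ∧ GRP P dA RA) (hP : FP.Hyp P)
    (hclt : CLT P (4 * κ)) (hA : S_avg t P) (hi : S_int t P) (hL : S_loc) {δ : ℕ → ℝ}
    (hδ : ∀ n, 0 < δ n) (hδ0 : Tendsto δ atTop (𝓝 0)) {D : Set (ℝ × ℝ)} (hD : IsOpen D)
    (hDb : Bornology.IsBounded D) {a b a' b' : ℝ} (hab : a < b) (hab' : a' < b')
    (hcell : ccell a b a' b' ⊆ D) {e : ℝ} (he : 0 < e) {ψ f0 g : ℝ × ℝ → ℝ} {k : ℕ}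
    (hψ : TestOn (cell a b a' b') ψ) (hf0 : TestOn (cell a b a' b') f0) (hg : TestOn D g)
    (hgP : ∀ z, g z ≠ 0 → z ∈ Pin a b a' b' e) {ε : ℝ} (hε : 0 < ε) {j N : ℕ} {e1 : ℝ}
    (he1 : 0 < e1) {Y : ℕ → Finset (ℤ × ℤ)} {y0 : ℕ → ℤ × ℤ} {l : ℕ → ℤ}
    (hY : ∀ᶠ n in atTop, (∀ y ∈ Y n, |y.1| ≤ N ∧ |y.2| ≤ N ∧
      ∃ i, Fin6 (δ n) (tE (bx (ce (sc ε (δ n) (j + 1)) y) (2 * sc ε (δ n) (j + 1))))
        (Kq a b a' b' e1 i)) ∧
      1 ≤ l n ∧ |(y0 n).1| + 8 * l n ≤ N ∧ |(y0 n).2| + 8 * l n ≤ N ∧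
      Fin6 (δ n) (tE (bx (ce (sc ε (δ n) (j + 1)) (y0 n))
        (8 * (l n * sc ε (δ n) (j + 1))))) {z | z.1 ≤ a - 1})
    {c0 : ℝ} (hc0 : 0 < c0)
    (hpos : ∀ᶠ n in atTop, c0 ≤ II t P (ind (Fy (sc ε (δ n) (j + 1)) (Y n)
      (ce (sc ε (δ n) (j + 1)) (y0 n)) (4 * (l n * sc ε (δ n) (j + 1))))) (fun _ => 1))
    (hmom : ∀ f, TestOn D f → (∀ z, 0 ≤ f z) → ∀ k : ℕ, ∃ C : ℝ, ∀ᶠ n in atTop,
      II t P (ind (Fy (sc ε (δ n) (j + 1)) (Y n) (ce (sc ε (δ n) (j + 1)) (y0 n))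
        (4 * (l n * sc ε (δ n) (j + 1))))) (fun ω => hv (δ n) f ω ^ (2 * k)) ≤
      C * II t P (ind (Fy (sc ε (δ n) (j + 1)) (Y n) (ce (sc ε (δ n) (j + 1)) (y0 n))
        (4 * (l n * sc ε (δ n) (j + 1))))) (fun _ => 1)) :
    Tendsto (fun n =>
      (II t P (ind (Fy (sc ε (δ n) (j + 1)) (Y n) (ce (sc ε (δ n) (j + 1)) (y0 n))
        (4 * (l n * sc ε (δ n) (j + 1)))))
        (fun ω => hv (δ n) (lap ψ) ω * hv (δ n) (fun z => f0 z + g z) ω ^ (k + 1)) +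
      κ * (k + 1) * (∫ z, ψ z * (f0 z + g z)) *
      II t P (ind (Fy (sc ε (δ n) (j + 1)) (Y n) (ce (sc ε (δ n) (j + 1)) (y0 n))
        (4 * (l n * sc ε (δ n) (j + 1)))))
        (fun ω => hv (δ n) (fun z => f0 z + g z) ω ^ k)) /
      II t P (ind (Fy (sc ε (δ n) (j + 1)) (Y n) (ce (sc ε (δ n) (j + 1)) (y0 n))
        (4 * (l n * sc ε (δ n) (j + 1))))) (fun _ => 1)) atTop (𝓝 0) := by
  classical
  set G : ℕ → Set Pt → ℝ := fun n => ind (Fy (sc ε (δ n) (j + 1)) (Y n)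
    (ce (sc ε (δ n) (j + 1)) (y0 n)) (4 * (l n * sc ε (δ n) (j + 1)))) with hGd
  set D' : Set (ℝ × ℝ) := Ro.symm ⁻¹' D with hD'
  have hD'o : IsOpen D' := hD.preimage Ro.symm.continuous
  have hcc : {z : ℝ × ℝ | a ≤ z.1 ∧ z.1 ≤ b ∧ a' ≤ z.2 ∧ z.2 ≤ b'} ⊆ D' := by
    rw [← Ro_symm_preimage_ccell]
    exact preimage_mono hcell
  obtain ⟨s1, R1, hs1, hR1, hρ1⟩ := exists_rho1 (b := b) hD'o hab'
    (hcc ⟨le_rfl, hab.le, by simp only; linarith, by simp only; linarith⟩)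
  obtain ⟨s4, R4, hs4, hR4, hρ4⟩ := exists_rho4 (b' := b') hD'o hab
    (hcc ⟨by simp only; linarith, by simp only; linarith, le_rfl, hab'.le⟩)
  set g' : ℝ × ℝ → ℝ := tl g with hg'
  have hgT : TestOn D' g' := tl_test hg
  obtain ⟨Rg, hRg⟩ := hgT.cs.isCompact.isBounded.subset_ball (0 : ℝ × ℝ)
  set E : ℝ := min (min e e1) (min (min s1 s4) 1) with hE
  have hE0 : 0 < E := lt_min (lt_min he he1) (lt_min (lt_min hs1 hs4) one_pos)
  have hEe : E ≤ e := (min_le_left _ _).trans (min_le_left _ _)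
  have hEe1 : E ≤ e1 := (min_le_left _ _).trans (min_le_right _ _)
  have hEs1 : E ≤ s1 := (min_le_right _ _).trans ((min_le_left _ _).trans (min_le_left _ _))
  have hEs4 : E ≤ s4 := (min_le_right _ _).trans ((min_le_left _ _).trans (min_le_right _ _))
  have hE1 : E ≤ 1 := (min_le_right _ _).trans (min_le_right _ _)
  set R : ℝ := R1 + R4 + |Rg| + 4 ^ (j + 1) * ε * (2 * N + 7) with hR
  have hRN : 0 ≤ 4 ^ (j + 1) * ε * (2 * (N : ℝ) + 7) := by positivity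
  have hRR1 : R1 ≤ R := by rw [hR]; linarith [abs_nonneg Rg]
  have hRR4 : R4 ≤ R := by rw [hR]; linarith [abs_nonneg Rg]
  have hRRg : Rg ≤ R := by rw [hR]; linarith [le_abs_self Rg]
  have hRRN : 4 ^ (j + 1) * ε * (2 * (N : ℝ) + 7) ≤ R := by rw [hR]; linarith [abs_nonneg Rg]
  -- the four factors
  have key : ∀ n, ∃ X1 X2 X3 X4 : Hgt → ℝ, δ n ≤ ε →
      Gd (δ n) ε j N a b a' b' e1 (Y n) (y0 n) (l n) →
      (FA.Loc (lat (δ n) (PW.K1 ⟨a, b, a', b', E, R⟩)) X1 ∧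
        FA.Loc (lat (δ n) (PW.K2 ⟨a, b, a', b', E, R⟩)) X2 ∧
        FA.Loc (lat (δ n) (PW.K3 ⟨a, b, a', b', E, R⟩)) X3 ∧
        FA.Loc (lat (δ n) (PW.K4 ⟨a, b, a', b', E, R⟩)) X4) ∧
      ((∀ h, 0 ≤ X1 h ∧ X1 h ≤ 1) ∧ (∀ h, 0 ≤ X2 h ∧ X2 h ≤ 1) ∧ (∀ h, 0 ≤ X3 h ∧ X3 h ≤ 1) ∧
        ∀ h, 0 ≤ X4 h ∧ X4 h ≤ 1) ∧ Rep t P (G n) (fun h => X1 h * X2 h * X3 h * X4 h) := by
    intro n
    by_cases hn : δ n ≤ ε ∧ Gd (δ n) ε j N a b a' b' e1 (Y n) (y0 n) (l n)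
    · obtain ⟨X1, X2, X3, X4, h⟩ := exists_X hA hL (hδ n) hn.1 hab hab' hE0 hEe1 hE1 hRRN hn.2
      exact ⟨X1, X2, X3, X4, fun _ _ => h⟩
    · exact ⟨0, 0, 0, 0, fun h1 h2 => absurd ⟨h1, h2⟩ hn⟩
  choose X1 X2 X3 X4 hX using key
  have hε' : ∀ᶠ n in atTop, δ n ≤ ε := hδ0.eventually (ge_mem_nhds hε)
  have hall : ∀ᶠ n in atTop,
      (FA.Loc (lat (δ n) (PW.K1 ⟨a, b, a', b', E, R⟩)) (X1 n) ∧
        FA.Loc (lat (δ n) (PW.K2 ⟨a, b, a', b', E, R⟩)) (X2 n) ∧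
        FA.Loc (lat (δ n) (PW.K3 ⟨a, b, a', b', E, R⟩)) (X3 n) ∧
        FA.Loc (lat (δ n) (PW.K4 ⟨a, b, a', b', E, R⟩)) (X4 n)) ∧
      ((∀ h, 0 ≤ X1 n h ∧ X1 n h ≤ 1) ∧ (∀ h, 0 ≤ X2 n h ∧ X2 n h ≤ 1) ∧
        (∀ h, 0 ≤ X3 n h ∧ X3 n h ≤ 1) ∧ ∀ h, 0 ≤ X4 n h ∧ X4 n h ≤ 1) ∧
      Rep t P (G n) (fun h => X1 n h * X2 n h * X3 n h * X4 n h) := by
    filter_upwards [hε', hY] with n h1 h2
    exact hX n h1 h2
  set X : ℕ → Hgt → ℝ := fun n h => X1 n h * X2 n h * X3 n h * X4 n h with hXd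
  have hrep : ∀ᶠ n in atTop, Rep t P (G n) (X n) := hall.mono fun n h => h.2.2
  have hposI : ∀ᶠ n in atTop, 0 < II t P (G n) (fun _ => 1) :=
    hpos.mono fun n h => lt_of_lt_of_le hc0 h
  have hms := fun {f : ℝ × ℝ → ℝ} (hf : TestOn D f) (k : ℕ) => mom_signed (t := t) (P := P) hδ hD
    hDb hi (G := G) (hrep.mono fun n h => ⟨h.loc, h.emp, h.g0⟩) hmom hf k
  have hbox : PW.box ⟨a, b, a', b', E, R⟩ = Ro.symm ⁻¹' cell a b a' b' := by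
    rw [Ro_symm_preimage_cell]; rfl
  have d : DatE P δ ⟨a, b, a', b', E, R⟩ D' X1 X2 X3 X4 X :=
    { hx := hab
      hy := hab'
      he := hE0
      hbD := fun z hz => hcc ⟨hz.1.le, hz.2.1.le, hz.2.2.1.le, hz.2.2.2.le⟩
      l1 := hall.mono fun n h => h.1.1
      l2 := hall.mono fun n h => h.1.2.1
      l3 := hall.mono fun n h => h.1.2.2.1
      l4 := hall.mono fun n h => h.1.2.2.2
      n1 := hall.mono fun n h => h.2.1.1
      n2 := hall.mono fun n h => h.2.1.2.1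
      n3 := hall.mono fun n h => h.2.1.2.2.1
      n4 := hall.mono fun n h => h.2.1.2.2.2
      hX := Eventually.of_forall fun n h => rfl
      int := by
        filter_upwards [hrep, hposI] with n h1 h2
        exact h1.integrable' hi h2
      pos := by
        refine ⟨c0, hc0, ?_⟩
        filter_upwards [hrep, hpos] with n h1 h2
        rw [h1.eI]
        exact h2
      mom := by
        intro f' hf' k
        obtain ⟨f, hf, rfl⟩ := exists_tl hf'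
        obtain ⟨C, hC⟩ := hms hf k
        refine ⟨4 ^ (2 * k) * C, ?_⟩
        filter_upwards [hrep, hposI, hC] with n h1 h2 h3
        have hAlg : Alg (fun ω => hv (δ n) f ω ^ (2 * k)) := (alg_hv (hδ n) hf.cs).pow _
        have h4 := h1.integrable hi h2 hAlg fun ω => (even_two_mul k).pow_nonneg _
        have h5 : ∀ h, Lf (δ n) (tl f) h ^ (2 * k) * X n h =
            4 ^ (2 * k) * (hv (δ n) f (vm h) ^ (2 * k) * X n h) := by
          intro h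
          unfold FA.Use.Lf
          rw [ev_Wd_tl (hδ n) hf.cs, mul_pow]
          ring
        simp only [h5]
        refine ⟨h4.const_mul _, ?_⟩
        rw [integral_const_mul, mul_assoc]
        refine mul_le_mul_of_nonneg_left ?_ (by positivity)
        have h6 := h1.eII hAlg
        have h7 : ∫ h, hv (δ n) f (vm h) ^ (2 * k) * X n h ∂(mu0 P) =
            II t P (G n) (fun ω => hv (δ n) f ω ^ (2 * k)) := by
          rw [← h6]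
          refine integral_congr_ae (Eventually.of_forall fun h => ?_)
          simp only
          ring
        rw [h7, h1.eI]
        exact h3
      r1 := hρ1 E R hEs1 hRR1
      r4 := hρ4 E R hEs4 hRR4 }
  have hψ' : TestOn (PW.box ⟨a, b, a', b', E, R⟩) (tl ψ) := by rw [hbox]; exact tl_test hψ
  have hf0' : TestOn (PW.box ⟨a, b, a', b', E, R⟩) (tl f0) := by rw [hbox]; exact tl_test hf0
  have hgK : ∀ x, g' x ≠ 0 → x ∈ PW.K1 ⟨a, b, a', b', E, R⟩ ∨ x ∈ PW.K2 ⟨a, b, a', b', E, R⟩ ∨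
      x ∈ PW.K3 ⟨a, b, a', b', E, R⟩ ∨ x ∈ PW.K4 ⟨a, b, a', b', E, R⟩ := by
    intro x hx
    have h1 := hRg (subset_tsupport _ hx)
    rw [mem_ball_zero_iff, Prod.norm_def, max_lt_iff, Real.norm_eq_abs, Real.norm_eq_abs] at h1
    have b1 : |x.1| ≤ R := (h1.1.le).trans hRRg
    have b2 : |x.2| ≤ R := (h1.2.le).trans hRRg
    have h2 := hgP _ (show g ((x.1 + x.2) / 2, (x.1 - x.2) / 2) ≠ 0 from hx)
    have e3 : (x.1 + x.2) / 2 + (x.1 - x.2) / 2 = x.1 := by ring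
    have e4 : (x.1 + x.2) / 2 - (x.1 - x.2) / 2 = x.2 := by ring
    simp only [Pin, Set.mem_ofPred_eq, e3, e4] at h2
    rcases h2 with h2 | ⟨h2, h3⟩ | ⟨h2, h3⟩ | ⟨h2, h3, h4⟩
    · exact Or.inl ⟨by simp only; linarith, b1, b2⟩
    · exact Or.inr (Or.inl ⟨by simp only; linarith, h2, b1, b2⟩)
    · exact Or.inr (Or.inr (Or.inl ⟨by simp only; linarith, h3, b1, b2⟩))
    · exact Or.inr (Or.inr (Or.inr ⟨by simp only; linarith, h2, h3, b1, b2⟩))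
  have hδ' : Tendsto δ atTop (𝓝[>] 0) :=
    tendsto_nhdsWithin_iff.2 ⟨hδ0, Eventually.of_forall hδ⟩
  have hmain := useE hPl hG hP hclt hδ hδ' d hψ' hf0' hgT hgK k
  have hm2 := hmain.const_mul (2 * 4 ^ (k + 1))⁻¹
  rw [mul_zero] at hm2
  refine hm2.congr' ?_
  filter_upwards [hrep] with n hr
  set f : ℝ × ℝ → ℝ := fun z => f0 z + g z with hf
  have hfc : HasCompactSupport f := hf0.cs.add hg.cs
  have ef : (fun x => tl f0 x + g' x) = tl f := rfl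
  have a1 : Alg (hv (δ n) (lap ψ)) := alg_hv (hδ n) hψ.lap.cs
  have a2 : Alg (hv (δ n) f) := alg_hv (hδ n) hfc
  have i1 : ∫ h, Lf (δ n) (lap (tl ψ)) h * Lf (δ n) (fun x => tl f0 x + g' x) h ^ (k + 1) *
      X n h ∂(mu0 P) = 2 * 4 ^ (k + 1) *
        II t P (G n) (fun ω => hv (δ n) (lap ψ) ω * hv (δ n) f ω ^ (k + 1)) := by
    rw [← hr.eII (a1.mul (a2.pow (k + 1))), ← integral_const_mul, ef]
    refine integral_congr_ae (Eventually.of_forall fun h => ?_)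
    have h1 := (sd_tl (hδ n) hψ.1 hψ.lap.cs hfc k h).1
    simp only
    unfold FA.Use.Lf
    rw [h1]
    ring
  have i2 : ∫ h, Lf (δ n) (fun x => tl f0 x + g' x) h ^ k * X n h ∂(mu0 P) =
      4 ^ k * II t P (G n) (fun ω => hv (δ n) f ω ^ k) := by
    rw [← hr.eII (a2.pow k), ← integral_const_mul, ef]
    refine integral_congr_ae (Eventually.of_forall fun h => ?_)
    have h1 := (sd_tl (hδ n) hψ.1 hψ.lap.cs hfc k h).2
    simp only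
    unfold FA.Use.Lf
    rw [h1]
    ring
  have i3 : ∫ x, tl ψ x * (tl f0 x + g' x) = 2 * ∫ z, ψ z * f z := int_tl_mul ψ f
  rw [i1, i2, i3, hr.eI, ← mul_div_assoc]
  congr 1
  have h4 : (4 : ℝ) ^ k ≠ 0 := by positivity
  rw [pow_succ]
  field_simp
  ring

end Vale.Agent.P145.X
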