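import Mathlib

/-!
P145: paths through a shell. A path which crosses a shell can only use the corridors, so it has to
pass one of the sparse points of the corridors.
-/

namespace Vale.Agent.P145.X

open Relation

/-- The faces joined by `E`-paths to the box of radius `r` around `x` are in the box of radius `R`
around `x`. -/
def CBox (E : ℤ × ℤ → ℤ × ℤ → Prop) (x : ℤ × ℤ) (r R : ℤ) : Prop :=
  ∀ u v, |u.1 - x.1| ≤ r → |u.2 - x.2| ≤ r → ReflTransGen E u v →
    |v.1 - x.1| ≤ R ∧ |v.2 - x.2| ≤ R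

theorem shell_symm {V : Type*} {E : V → V → Prop} (hs : ∀ u v, E u v → E v u) {u v : V}
    (h : ReflTransGen E u v) : ReflTransGen E v u := by
  induction h with
  | refl => exact ReflTransGen.refl
  | tail _ h ih => exact ReflTransGen.head (hs _ _ h) ih

theorem shell_floor {x y l p q W a : ℝ} (hl : 0 < l) (h : ⌊x / l⌋ = ⌊y / l⌋)
    (hpq : |p - q| ≤ |x - y| + W) (hp : p ≤ a) : q < a + l + W := by
  have h1 := Int.floor_le (x / l)
  have h2 := Int.lt_floor_add_one (x / l)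
  have h3 := Int.floor_le (y / l)
  have h4 := Int.lt_floor_add_one (y / l)
  rw [h] at h1 h2
  have h5 : |x / l - y / l| < 1 := by
    rw [abs_lt]
    constructor <;> linarith
  have h6 : |x - y| < l := by
    have : |x - y| = |x / l - y / l| * l := by
      rw [← sub_div, abs_div, abs_of_pos hl]
      field_simp
    rw [this]
    nlinarith
  have h7 := (abs_le.1 (hpq.trans (add_le_add_left h6.le W))).1
  have h8 := (abs_le.1 hpq).1
  linarith

theorem shell_step {x y l τ : ℝ} (hl : 0 < l) (hxy : |x - y| ≤ τ)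
    (h : ∀ k : ℤ, τ < |y - k * l|) : ⌊x / l⌋ = ⌊y / l⌋ := by
  have h3 := Int.floor_le (y / l)
  have h4 := Int.lt_floor_add_one (y / l)
  rw [le_div_iff₀ hl] at h3
  rw [div_lt_iff₀ hl] at h4
  have h5 := h ⌊y / l⌋
  have h6 := h (⌊y / l⌋ + 1)
  push_cast at h6
  rw [abs_of_nonneg (by linarith)] at h5
  rw [abs_of_nonpos (by linarith)] at h6
  have h7 := abs_le.1 hxy
  rw [Int.floor_eq_iff, le_div_iff₀ hl, div_lt_iff₀ hl]
  constructor <;> linarith

/-- **Shell lemma, abstract form.** `ρ` is the distance from the inner domain, `K i` the corridors,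
`t i` the coordinate along the corridor `i`. In the shell `a ≤ ρ ≤ b` the clusters of the vertices
off the corridors, and of the vertices of the corridors with `t i` close to a multiple of `l`, do
not change `ρ` by `h`. Then the shell is not crossed. -/
theorem shell_abs {V I : Type*} {E : V → V → Prop} (hs : ∀ u v, E u v → E v u) {ρ : V → ℝ}
    {K : I → Set V} {t : I → V → ℝ} {a b d τ l W h : ℝ} (hl : 0 < l) (hh : 0 < h) (hd : 0 ≤ d)
    (hW : 0 ≤ W) (hab : a + 2 * d + l + W ≤ b)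
    (hρ : ∀ u v, E u v → |ρ u - ρ v| ≤ d)
    (ht : ∀ i u v, E u v → |t i u - t i v| ≤ τ)
    (hK : ∀ i j u v, E u v → u ∈ K i → v ∈ K j → a ≤ ρ u → a ≤ ρ v → i = j)
    (hlip : ∀ i u v, u ∈ K i → v ∈ K i → |ρ u - ρ v| ≤ |t i u - t i v| + W)
    (h1 : ∀ v, a ≤ ρ v → ρ v ≤ b → (∀ i, v ∉ K i) → ∀ w, ReflTransGen E v w → |ρ v - ρ w| < h)
    (h2 : ∀ i v, v ∈ K i → a ≤ ρ v → ρ v ≤ b → (∃ k : ℤ, |t i v - k * l| ≤ τ) →
      ∀ w, ReflTransGen E v w → |ρ v - ρ w| < h)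
    {u v : V} (hu : ρ u ≤ a - h) (hv : b ≤ ρ v) : ¬ ReflTransGen E u v := by
  intro huv
  -- the vertices of the cluster in the shell
  have hC : ∀ x, ReflTransGen E u x → a ≤ ρ x → ρ x ≤ b →
      ∃ i, x ∈ K i ∧ ∀ k : ℤ, τ < |t i x - k * l| := by
    intro x hux hax hxb
    have hfar : ¬ |ρ x - ρ u| < h := by
      intro hlt
      have := (abs_lt.1 hlt).2
      linarith
    by_cases hx : ∀ i, x ∉ K i
    · exact absurd (h1 x hax hxb hx u (shell_symm hs hux)) hfar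
    · push Not at hx
      obtain ⟨i, hi⟩ := hx
      refine ⟨i, hi, fun k => ?_⟩
      by_contra hk
      push Not at hk
      exact hfar (h2 i x hi hax hxb ⟨k, hk⟩ u (shell_symm hs hux))
  have key : ρ v < a ∨ ∃ i e, e ∈ K i ∧ v ∈ K i ∧ ρ e ≤ a + d ∧ a ≤ ρ v ∧
      ⌊t i e / l⌋ = ⌊t i v / l⌋ := by
    clear hv
    induction huv with
    | refl => exact Or.inl (by linarith)
    | @tail x y hux hxy ih =>
      by_cases hya : ρ y < a
      · exact Or.inl hya
      push Not at hya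
      right
      have h3 := abs_le.1 (hρ x y hxy)
      rcases ih with ih | ⟨i, e, he, hx, hea, hax, hfl⟩
      · obtain ⟨i, hi, -⟩ := hC y (hux.tail hxy) hya (by linarith)
        exact ⟨i, y, hi, hi, by linarith, hya, rfl⟩
      · have h4 : ρ x < a + d + l + W := shell_floor hl hfl (hlip i e x he hx) hea
        obtain ⟨j, hj, hy⟩ := hC y (hux.tail hxy) hya (by linarith)
        have hij := hK i j x y hxy hx hj hax hya
        subst hij
        refine ⟨i, e, he, hj, hea, hya, hfl.trans ?_⟩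
        obtain ⟨i', hi', hx'⟩ := hC x hux hax (by linarith)
        exact shell_step hl (ht i x y hxy) hy
  rcases key with h | ⟨i, e, he, hx, hea, hax, hfl⟩
  · linarith
  · have h4 : ρ v < a + d + l + W := shell_floor hl hfl (hlip i e v he hx) hea
    linarith

/-! ### Geometry -/

/-- The point of the plane of the face `f` in the mesh `δ`. -/
def fpt (δ : ℝ) (f : ℤ × ℤ) : ℝ × ℝ := (δ * f.1, δ * f.2)

theorem dist_fpt_le {δ : ℝ} (hδ : 0 ≤ δ) {u v : ℤ × ℤ} {R : ℤ} (h1 : |u.1 - v.1| ≤ R)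
    (h2 : |u.2 - v.2| ≤ R) : dist (fpt δ u) (fpt δ v) ≤ δ * R := by
  have key : ∀ x y : ℤ, |x - y| ≤ R → dist (δ * (x : ℝ)) (δ * (y : ℝ)) ≤ δ * R := by
    intro x y hxy
    rw [Real.dist_eq, ← mul_sub, abs_mul, abs_of_nonneg hδ]
    refine mul_le_mul_of_nonneg_left ?_ hδ
    exact_mod_cast hxy
  rw [Prod.dist_eq]
  exact max_le (key _ _ h1) (key _ _ h2)

/-- Coordinates `s`, `d` like `z.1 + z.2` and `z.1 - z.2`. -/
structure Frame (s d : ℝ × ℝ → ℝ) : Prop where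
  s_lip : ∀ z z', |s z - s z'| ≤ 2 * dist z z'
  d_lip : ∀ z z', |d z - d z'| ≤ 2 * dist z z'
  dist_le : ∀ z z', 2 * dist z z' ≤ |s z - s z'| + |d z - d z'|

/-- The corridors: neighbourhoods of the line `s = a₁`, of the half line `d = b₂`, `a₁ ≤ s`, and
of the half line `s = b₁`, `d ≤ b₂`. -/
def cor (s d : ℝ × ℝ → ℝ) (a₁ b₁ b₂ W : ℝ) (i : Fin 3) : Set (ℝ × ℝ) :=
  match i with
  | 0 => {z | |s z - a₁| ≤ W}
  | 1 => {z | |d z - b₂| ≤ W ∧ a₁ - W ≤ s z}
  | 2 => {z | |s z - b₁| ≤ W ∧ d z ≤ b₂ + W}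

/-- The coordinate along the corridor. -/
def tc (s d : ℝ × ℝ → ℝ) (i : Fin 3) : ℝ × ℝ → ℝ :=
  match i with
  | 0 => d
  | 1 => s
  | 2 => d

theorem Frame.tc_lip {s d : ℝ × ℝ → ℝ} (hF : Frame s d) (i : Fin 3) (z z' : ℝ × ℝ) :
    |tc s d i z - tc s d i z'| ≤ 2 * dist z z' := by
  fin_cases i
  · exact hF.d_lip z z'
  · exact hF.s_lip z z'
  · exact hF.d_lip z z'

theorem Frame.cor_dist {s d : ℝ × ℝ → ℝ} (hF : Frame s d) {a₁ b₁ b₂ W : ℝ} (i : Fin 3)
    {z z' : ℝ × ℝ} (hz : z ∈ cor s d a₁ b₁ b₂ W i) (hz' : z' ∈ cor s d a₁ b₁ b₂ W i) :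
    2 * dist z z' ≤ 2 * W + |tc s d i z - tc s d i z'| := by
  have h := hF.dist_le z z'
  have key : ∀ x y c : ℝ, |x - c| ≤ W → |y - c| ≤ W → |x - y| ≤ 2 * W := by
    intro x y c h1 h2
    rw [abs_le] at h1 h2 ⊢
    constructor <;> linarith [h1.1, h1.2, h2.1, h2.2]
  fin_cases i
  · have := key _ _ _ hz hz'
    show 2 * dist z z' ≤ 2 * W + |d z - d z'|
    linarith
  · have := key _ _ _ hz.1 hz'.1
    show 2 * dist z z' ≤ 2 * W + |s z - s z'|
    linarith
  · have := key _ _ _ hz.1 hz'.1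
    show 2 * dist z z' ≤ 2 * W + |d z - d z'|
    linarith

/-- **Shell lemma.** `D` is the inner domain, `p₀`, `p₁` two corners of the cell in `D`, where the
corridors meet. Every face of the shell off the corridors, and every face of a corridor with
coordinate close to a multiple of `l`, is in a box whose clusters stay in the box of three times
the size. Then the shell is not crossed. -/
theorem shell_geo {E : ℤ × ℤ → ℤ × ℤ → Prop} (hs : ∀ u v, E u v → E v u)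
    (hE : ∀ u v, E u v → |u.1 - v.1| ≤ 1 ∧ |u.2 - v.2| ≤ 1) {s d : ℝ × ℝ → ℝ} (hF : Frame s d)
    {D : Set (ℝ × ℝ)} {p₀ p₁ : ℝ × ℝ} (hp₀ : p₀ ∈ D) (hp₁ : p₁ ∈ D) {a₁ b₁ b₂ : ℝ}
    (hs₀ : s p₀ = a₁) (hd₀ : d p₀ = b₂) (hs₁ : s p₁ = b₁) (hd₁ : d p₁ = b₂)
    {δ W l h a b : ℝ} (hδ : 0 ≤ δ) (hW : 0 ≤ W) (hl : 0 < l) (hh : 0 < h)
    (hWc : 2 * W + 2 * δ < b₁ - a₁) (hWa : W + δ < a) (hab : a + 2 * δ + l + W ≤ b)
    (h1 : ∀ f : ℤ × ℤ, a ≤ Metric.infDist (fpt δ f) D → Metric.infDist (fpt δ f) D ≤ b →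
      (∀ i, fpt δ f ∉ cor s d a₁ b₁ b₂ W i) → ∃ (x : ℤ × ℤ) (R : ℤ), |f.1 - x.1| ≤ R ∧
        |f.2 - x.2| ≤ R ∧ CBox E x R (3 * R) ∧ 4 * δ * R < h)
    (h2 : ∀ (i : Fin 3) (f : ℤ × ℤ), fpt δ f ∈ cor s d a₁ b₁ b₂ W i →
      a ≤ Metric.infDist (fpt δ f) D → Metric.infDist (fpt δ f) D ≤ b →
      (∃ k : ℤ, |tc s d i (fpt δ f) - k * l| ≤ 2 * δ) →
      ∃ (x : ℤ × ℤ) (R : ℤ), |f.1 - x.1| ≤ R ∧ |f.2 - x.2| ≤ R ∧ CBox E x R (3 * R) ∧
        4 * δ * R < h)
    {u v : ℤ × ℤ} (hu : Metric.infDist (fpt δ u) D ≤ a - h)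
    (hv : b ≤ Metric.infDist (fpt δ v) D) : ¬ ReflTransGen E u v := by
  have hρ : ∀ z z' : ℝ × ℝ, |Metric.infDist z D - Metric.infDist z' D| ≤ dist z z' := by
    intro z z'
    rw [abs_le]
    constructor
    · have := Metric.infDist_le_infDist_add_dist (s := D) (x := z') (y := z)
      rw [dist_comm] at this
      linarith
    · have := Metric.infDist_le_infDist_add_dist (s := D) (x := z) (y := z')
      linarith
  have hstep : ∀ u v, E u v → dist (fpt δ u) (fpt δ v) ≤ δ := by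
    intro u v huv
    have := dist_fpt_le hδ (R := 1) (hE u v huv).1 (hE u v huv).2
    simpa using this
  have hcl : ∀ f : ℤ × ℤ, (∃ (x : ℤ × ℤ) (R : ℤ), |f.1 - x.1| ≤ R ∧ |f.2 - x.2| ≤ R ∧
      CBox E x R (3 * R) ∧ 4 * δ * R < h) → ∀ w, ReflTransGen E f w →
      |Metric.infDist (fpt δ f) D - Metric.infDist (fpt δ w) D| < h := by
    rintro f ⟨x, R, hx1, hx2, hC, hR⟩ w hw
    obtain ⟨h3, h4⟩ := hC f w hx1 hx2 hw
    have h5 : dist (fpt δ f) (fpt δ w) ≤ δ * (4 * R : ℤ) := by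
      refine dist_fpt_le hδ ?_ ?_ <;> rw [abs_le] at * <;> constructor <;> linarith [hx1.1, hx1.2,
        hx2.1, hx2.2, h3.1, h3.2, h4.1, h4.2]
    push_cast at h5
    have := hρ (fpt δ f) (fpt δ w)
    nlinarith
  -- close to the corners
  have hc₀ : ∀ z, |s z - a₁| ≤ W + 2 * δ → |d z - b₂| ≤ W → Metric.infDist z D < a := by
    intro z h3 h4
    have h5 := hF.dist_le z p₀
    rw [hs₀, hd₀] at h5
    have h6 := Metric.infDist_le_dist_of_mem (x := z) hp₀
    linarith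
  have hc₀' : ∀ z, |s z - a₁| ≤ W → |d z - b₂| ≤ W + 2 * δ → Metric.infDist z D < a := by
    intro z h3 h4
    have h5 := hF.dist_le z p₀
    rw [hs₀, hd₀] at h5
    have h6 := Metric.infDist_le_dist_of_mem (x := z) hp₀
    linarith
  have hc₁ : ∀ z, |s z - b₁| ≤ W + 2 * δ → |d z - b₂| ≤ W → Metric.infDist z D < a := by
    intro z h3 h4
    have h5 := hF.dist_le z p₁
    rw [hs₁, hd₁] at h5
    have h6 := Metric.infDist_le_dist_of_mem (x := z) hp₁
    linarith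
  have hc₁' : ∀ z, |s z - b₁| ≤ W → |d z - b₂| ≤ W + 2 * δ → Metric.infDist z D < a := by
    intro z h3 h4
    have h5 := hF.dist_le z p₁
    rw [hs₁, hd₁] at h5
    have h6 := Metric.infDist_le_dist_of_mem (x := z) hp₁
    linarith
  have mv : ∀ {x y c e : ℝ}, |x - c| ≤ e → |x - y| ≤ 2 * δ → |y - c| ≤ e + 2 * δ := by
    intro x y c e h3 h4
    rw [abs_le] at *
    constructor <;> linarith [h3.1, h3.2, h4.1, h4.2]
  refine shell_abs (V := ℤ × ℤ) (I := Fin 3) hs (ρ := fun f => Metric.infDist (fpt δ f) D)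
    (K := fun i => {f | fpt δ f ∈ cor s d a₁ b₁ b₂ W i}) (t := fun i f => tc s d i (fpt δ f))
    (a := a) (b := b) (d := δ) (τ := 2 * δ) (l := l) (W := W) (h := h) hl hh hδ hW hab
    (fun u v huv => (hρ _ _).trans (hstep u v huv))
    (fun i u v huv => (hF.tc_lip i _ _).trans (by linarith [hstep u v huv])) ?_
    (fun i u v hu hv => by
      have h3 := hF.cor_dist i hu hv
      have h4 := hρ (fpt δ u) (fpt δ v)
      have h5 := abs_nonneg (tc s d i (fpt δ u) - tc s d i (fpt δ v))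
      linarith)
    (fun f hfa hfb hf => hcl f (h1 f hfa hfb hf))
    (fun i f hf hfa hfb hk => hcl f (h2 i f hf hfa hfb hk)) hu hv
  intro i j u v huv hi hj hau hav
  have hsl := (hF.s_lip (fpt δ u) (fpt δ v)).trans (by linarith [hstep u v huv] :
    2 * dist (fpt δ u) (fpt δ v) ≤ 2 * δ)
  have hdl := (hF.d_lip (fpt δ u) (fpt δ v)).trans (by linarith [hstep u v huv] :
    2 * dist (fpt δ u) (fpt δ v) ≤ 2 * δ)
  have hsl' : |s (fpt δ v) - s (fpt δ u)| ≤ 2 * δ := by rw [abs_sub_comm]; exact hsl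
  have hdl' : |d (fpt δ v) - d (fpt δ u)| ≤ 2 * δ := by rw [abs_sub_comm]; exact hdl
  have far : ∀ {x y : ℝ}, |x - a₁| ≤ W → |y - b₁| ≤ W → |x - y| ≤ 2 * δ → False := by
    intro x y h3 h4 h5
    rw [abs_le] at *
    linarith [h3.1, h3.2, h4.1, h4.2, h5.1, h5.2]
  fin_cases i <;> fin_cases j
  · rfl
  · exact absurd hau (not_le.2 (hc₀' _ hi (mv hj.1 hdl')))
  · exact (far hi hj.1 hsl).elim
  · exact absurd hav (not_le.2 (hc₀' _ hj (mv hi.1 hdl)))
  · rfl
  · exact absurd hau (not_le.2 (hc₁ _ (mv hj.1 hsl') hi.1))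
  · exact (far hj hi.1 hsl').elim
  · exact absurd hav (not_le.2 (hc₁ _ (mv hi.1 hsl) hj.1))
  · rfl

end Vale.Agent.P145.X
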