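import Vale.Agent.P145.X.Stmt
import Vale.Agent.P145.FA.Sd3
import Vale.Agent.P145.FP.Rot

/-!
P145, block X: from the coordinates of the Ashkin-Teller lattice (block Top) to the coordinates of
the six-vertex lattice (blocks FA, FB): the vertex `v` is the even face `(v.1 + v.2, v.1 - v.2)`.
-/

namespace Vale.Agent.P145.X

open Filter Topology Set MeasureTheory
open Vale.Agent.P145.PT Vale.Agent.P145.Top
open Vale.Agent.P145.FA (Hgt Wd wd mass)

theorem av_inj : Function.Injective av := by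
  intro v w h
  have h1 : v.1 + v.2 = w.1 + w.2 := congrArg Prod.fst h
  have h2 : v.1 - v.2 = w.1 - w.2 := congrArg Prod.snd h
  exact Prod.ext (by omega) (by omega)

theorem av_even (v : ℤ × ℤ) : ((av v).1 + (av v).2) % 2 = 0 := by
  unfold av
  show (v.1 + v.2 + (v.1 - v.2)) % 2 = 0
  omega

theorem exists_av {q : ℤ × ℤ} (h : (q.1 + q.2) % 2 = 0) : ∃ v, av v = q := by
  refine ⟨((q.1 + q.2) / 2, (q.1 - q.2) / 2), Prod.ext ?_ ?_⟩
  · show (q.1 + q.2) / 2 + (q.1 - q.2) / 2 = q.1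
    omega
  · show (q.1 + q.2) / 2 - (q.1 - q.2) / 2 = q.2
    omega

theorem fc_fine (v : ℤ × ℤ) : FB.fc (2 * v.1, 2 * v.2) = av v := by
  unfold FB.fc av
  refine Prod.ext ?_ ?_
  · show (2 * v.1 + 2 * v.2) / 2 = v.1 + v.2
    omega
  · show (2 * v.1 - 2 * v.2) / 2 = v.1 - v.2
    omega

theorem measurable_vm : Measurable vm :=
  measurable_pi_lambda _ fun v =>
    ((measurable_of_countable (fun k : ℤ => (k : ℝ))).comp (measurable_pi_apply (av v))).div_const 2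

/-- The coordinate change `(x, y) ↦ (x + y, x - y)` as a homeomorphism. -/
noncomputable def Ro : (ℝ × ℝ) ≃ₜ (ℝ × ℝ) where
  toFun z := (z.1 + z.2, z.1 - z.2)
  invFun z := ((z.1 + z.2) / 2, (z.1 - z.2) / 2)
  left_inv w := by refine Prod.ext ?_ ?_ <;> simp only <;> ring
  right_inv w := by refine Prod.ext ?_ ?_ <;> simp only <;> ring
  continuous_toFun := by fun_prop
  continuous_invFun := by fun_prop

theorem Ro_apply (z : ℝ × ℝ) : Ro z = (z.1 + z.2, z.1 - z.2) := rfl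

theorem Ro_symm_apply (z : ℝ × ℝ) : Ro.symm z = ((z.1 + z.2) / 2, (z.1 - z.2) / 2) := rfl

/-- The test function in the six-vertex coordinates. -/
noncomputable def tl (f : ℝ × ℝ → ℝ) : ℝ × ℝ → ℝ := fun z => f ((z.1 + z.2) / 2, (z.1 - z.2) / 2)

theorem tl_eq (f : ℝ × ℝ → ℝ) : tl f = f ∘ Ro.symm := rfl

theorem tl_Ro (f : ℝ × ℝ → ℝ) (z : ℝ × ℝ) : tl f (Ro z) = f z := by
  rw [tl_eq, Function.comp_apply, Ro.symm_apply_apply]

theorem tl_sm {f : ℝ × ℝ → ℝ} (h : Sm f) : Sm (tl f) :=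
  ContDiff.comp h (((contDiff_fst.add contDiff_snd).div_const 2).prodMk
    ((contDiff_fst.sub contDiff_snd).div_const 2))

theorem tl_cs {f : ℝ × ℝ → ℝ} (h : HasCompactSupport f) : HasCompactSupport (tl f) :=
  h.comp_homeomorph Ro.symm

theorem tsupport_tl (f : ℝ × ℝ → ℝ) : tsupport (tl f) = Ro.symm ⁻¹' tsupport f :=
  tsupport_comp_eq_preimage f Ro.symm

theorem tl_test {D : Set (ℝ × ℝ)} {f : ℝ × ℝ → ℝ} (h : TestOn D f) :
    TestOn (Ro.symm ⁻¹' D) (tl f) :=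
  ⟨tl_sm h.1, tl_cs h.2.1, by rw [tsupport_tl]; exact preimage_mono h.2.2⟩

theorem Ro_symm_preimage_cell (a b a' b' : ℝ) :
    Ro.symm ⁻¹' cell a b a' b' = {z | a < z.1 ∧ z.1 < b ∧ a' < z.2 ∧ z.2 < b'} := by
  ext z
  simp only [mem_preimage, cell, Ro_symm_apply, mem_setOf_eq]
  have e1 : (z.1 + z.2) / 2 + (z.1 - z.2) / 2 = z.1 := by ring
  have e2 : (z.1 + z.2) / 2 - (z.1 - z.2) / 2 = z.2 := by ring
  rw [e1, e2]

theorem Ro_symm_preimage_ccell (a b a' b' : ℝ) :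
    Ro.symm ⁻¹' ccell a b a' b' = {z | a ≤ z.1 ∧ z.1 ≤ b ∧ a' ≤ z.2 ∧ z.2 ≤ b'} := by
  ext z
  simp only [mem_preimage, ccell, Ro_symm_apply, mem_setOf_eq]
  have e1 : (z.1 + z.2) / 2 + (z.1 - z.2) / 2 = z.1 := by ring
  have e2 : (z.1 + z.2) / 2 - (z.1 - z.2) / 2 = z.2 := by ring
  rw [e1, e2]

/-! ### Derivatives -/

/-- The inverse coordinate change as a continuous linear map. -/
noncomputable def Rl : (ℝ × ℝ) →L[ℝ] (ℝ × ℝ) :=
  (((1 / 2 : ℝ) • (ContinuousLinearMap.fst ℝ ℝ ℝ + ContinuousLinearMap.snd ℝ ℝ ℝ)).prod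
    ((1 / 2 : ℝ) • (ContinuousLinearMap.fst ℝ ℝ ℝ - ContinuousLinearMap.snd ℝ ℝ ℝ)))

theorem Rl_apply (z : ℝ × ℝ) : Rl z = ((z.1 + z.2) / 2, (z.1 - z.2) / 2) := by
  simp only [Rl, ContinuousLinearMap.prod_apply, ContinuousLinearMap.smul_apply,
    ContinuousLinearMap.add_apply, ContinuousLinearMap.sub_apply, ContinuousLinearMap.coe_fst',
    ContinuousLinearMap.coe_snd', smul_eq_mul]
  exact Prod.ext (by ring) (by ring)

theorem tl_Rl (f : ℝ × ℝ → ℝ) : tl f = f ∘ Rl := by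
  funext z
  rw [Function.comp_apply, Rl_apply]
  rfl

theorem fderiv_tl {f : ℝ × ℝ → ℝ} (h : Sm f) (z v : ℝ × ℝ) :
    fderiv ℝ (tl f) z v = fderiv ℝ f (Rl z) (Rl v) := by
  rw [tl_Rl, fderiv_comp z (h.diff (Rl z)) Rl.differentiableAt, Rl.fderiv]
  rfl

theorem dx_tl {f : ℝ × ℝ → ℝ} (h : Sm f) : dx (tl f) = tl (fun z => (dx f z + dy f z) / 2) := by
  funext z
  have e : Rl (1, 0) = (1 / 2 : ℝ) • ((1, 0) : ℝ × ℝ) + (1 / 2 : ℝ) • ((0, 1) : ℝ × ℝ) := by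
    rw [Rl_apply]
    exact Prod.ext (by simp) (by simp)
  show fderiv ℝ (tl f) z (1, 0) = _
  rw [fderiv_tl h, e, map_add, map_smul, map_smul, tl_Rl]
  simp only [Function.comp_apply, dx, dy, smul_eq_mul]
  ring

theorem dy_tl {f : ℝ × ℝ → ℝ} (h : Sm f) : dy (tl f) = tl (fun z => (dx f z - dy f z) / 2) := by
  funext z
  have e : Rl (0, 1) = (1 / 2 : ℝ) • ((1, 0) : ℝ × ℝ) - (1 / 2 : ℝ) • ((0, 1) : ℝ × ℝ) := by
    rw [Rl_apply]
    refine Prod.ext (by simp) (by simp; ring)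
  show fderiv ℝ (tl f) z (0, 1) = _
  rw [fderiv_tl h, e, map_sub, map_smul, map_smul, tl_Rl]
  simp only [Function.comp_apply, dx, dy, smul_eq_mul]
  ring

theorem lap_tl {f : ℝ × ℝ → ℝ} (h : Sm f) : lap (tl f) = fun z => 1 / 2 * tl (lap f) z := by
  have hp : Sm (fun z => (dx f z + dy f z) / 2) := (h.dx.add h.dy).div_const 2
  have hm : Sm (fun z => (dx f z - dy f z) / 2) := (h.dx.sub h.dy).div_const 2
  funext z
  show dx (dx (tl f)) z + dy (dy (tl f)) z = _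
  rw [dx_tl h, dy_tl h, dx_tl hp, dy_tl hm]
  have d1 : ∀ w v, fderiv ℝ (fun z => (dx f z + dy f z) / 2) w v =
      (fderiv ℝ (dx f) w v + fderiv ℝ (dy f) w v) / 2 := by
    intro w v
    have : HasFDerivAt (fun z => (dx f z + dy f z) * (1 / 2)) _ w :=
      ((h.dx.diff w).hasFDerivAt.add (h.dy.diff w).hasFDerivAt).mul_const (1 / 2 : ℝ)
    have e : (fun z => (dx f z + dy f z) / 2) = fun z => (dx f z + dy f z) * (1 / 2) := by
      funext z; ring
    rw [e, this.fderiv]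
    simp only [ContinuousLinearMap.smul_apply, ContinuousLinearMap.add_apply, smul_eq_mul]
    ring
  have d2 : ∀ w v, fderiv ℝ (fun z => (dx f z - dy f z) / 2) w v =
      (fderiv ℝ (dx f) w v - fderiv ℝ (dy f) w v) / 2 := by
    intro w v
    have : HasFDerivAt (fun z => (dx f z - dy f z) * (1 / 2)) _ w :=
      ((h.dx.diff w).hasFDerivAt.sub (h.dy.diff w).hasFDerivAt).mul_const (1 / 2 : ℝ)
    have e : (fun z => (dx f z - dy f z) / 2) = fun z => (dx f z - dy f z) * (1 / 2) := by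
      funext z; ring
    rw [e, this.fderiv]
    simp only [ContinuousLinearMap.smul_apply, ContinuousLinearMap.sub_apply, smul_eq_mul]
    ring
  simp only [tl]
  show (fderiv ℝ (fun z => (dx f z + dy f z) / 2) _ (1, 0) +
      fderiv ℝ (fun z => (dx f z + dy f z) / 2) _ (0, 1)) / 2 +
    (fderiv ℝ (fun z => (dx f z - dy f z) / 2) _ (1, 0) -
      fderiv ℝ (fun z => (dx f z - dy f z) / 2) _ (0, 1)) / 2 = _
  rw [d1, d1, d2, d2]
  show _ = 1 / 2 * (fderiv ℝ (dx f) _ (1, 0) + fderiv ℝ (dy f) _ (0, 1))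
  ring

/-! ### Integrals -/

theorem int_tl (f : ℝ × ℝ → ℝ) : ∫ z, tl f z = 2 * ∫ z, f z := by
  have h1 := FP.int_Th (tl f)
  have e : ∀ w : ℝ × ℝ, tl f (FP.Th w) = f (w.1, -w.2) := by
    intro w
    show f (((w.1 - w.2) + (w.1 + w.2)) / 2, ((w.1 - w.2) - (w.1 + w.2)) / 2) = _
    congr 1
    exact Prod.ext (by ring) (by ring)
  rw [h1]
  congr 1
  simp only [e]
  have hmp : MeasurePreserving (fun w : ℝ × ℝ => (w.1, -w.2)) volume volume :=
    (MeasurePreserving.id _).prod (Measure.measurePreserving_neg volume)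
  have hemb : MeasurableEmbedding (fun w : ℝ × ℝ => (w.1, -w.2)) :=
    ((Homeomorph.refl ℝ).prodCongr (Homeomorph.neg ℝ)).measurableEmbedding
  exact hmp.integral_comp hemb f

theorem int_tl_mul (f g : ℝ × ℝ → ℝ) : ∫ z, tl f z * tl g z = 2 * ∫ z, f z * g z :=
  int_tl (fun z => f z * g z)

/-! ### Lattice sums -/

theorem ev_Wd_tl {δ : ℝ} (hδ : 0 < δ) {f : ℝ × ℝ → ℝ} (hf : HasCompactSupport f) (h : Hgt) :
    FA.ev (Wd δ (tl f) 0) h = 4 * hv δ f (vm h) := by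
  have cr := tl_cs hf
  rw [FA.ev_tsum]
  set G : ℤ × ℤ → ℝ := fun q => Wd δ (tl f) 0 q * (h q : ℝ) with hG
  have hsub : Function.support G ⊆ Set.range av := by
    intro q hq
    have h1 : Wd δ (tl f) 0 q ≠ 0 := left_ne_zero_of_mul hq
    exact exists_av (FA.Wd_supp hδ cr h1).1
  have hGv : ∀ v : ℤ × ℤ, G (av v) = 4 * (δ ^ 2 * (vm h v * f (δ * v.1, δ * v.2))) := by
    intro v
    rw [hG]
    simp only
    rw [FA.Wd_apply hδ cr]
    have e1 : FP.ev (av v) = 1 := by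
      unfold FP.ev
      rw [if_pos (av_even v)]
    have e2 : tl f (δ * (((av v).1 + (0 : ℤ × ℤ).1 : ℤ) : ℝ),
        δ * (((av v).2 + (0 : ℤ × ℤ).2 : ℤ) : ℝ)) = f (δ * v.1, δ * v.2) := by
      unfold tl av
      simp only [Prod.fst_zero, Prod.snd_zero, add_zero]
      congr 1
      refine Prod.ext ?_ ?_ <;> simp only <;> push_cast <;> ring
    rw [e1, e2]
    unfold vm
    ring
  have hfin : (Function.support fun v : ℤ × ℤ => vm h v * f (δ * v.1, δ * v.2)).Finite := by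
    have h3 : (Function.support G).Finite := by
      refine (Wd δ (tl f) 0).support.finite_toSet.subset fun q hq => ?_
      rw [Finset.mem_coe, Finsupp.mem_support_iff]
      exact left_ne_zero_of_mul hq
    refine (h3.preimage av_inj.injOn).subset fun v hv => ?_
    rw [Set.mem_preimage, Function.mem_support, hGv]
    exact mul_ne_zero (by norm_num) (mul_ne_zero (pow_ne_zero 2 hδ.ne') hv)
  have h4 : ∑' v : ℤ × ℤ, vm h v * f (δ * v.1, δ * v.2) =
      ∑ᶠ v : ℤ × ℤ, vm h v * f (δ * v.1, δ * v.2) := tsum_eq_finsum hfin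
  unfold Top.hv
  rw [← h4, ← tsum_mul_left, ← tsum_mul_left, ← av_inj.tsum_eq hsub]
  exact tsum_congr hGv

theorem ev_Wd_lap {δ : ℝ} (hδ : 0 < δ) {ψ : ℝ × ℝ → ℝ} (h1 : Sm ψ) (h2 : HasCompactSupport (lap ψ))
    (h : Hgt) : FA.ev (Wd δ (lap (tl ψ)) 0) h = 2 * hv δ (lap ψ) (vm h) := by
  have e : lap (tl ψ) = tl (fun z => 1 / 2 * lap ψ z) := lap_tl h1
  have cs : HasCompactSupport (fun z => 1 / 2 * lap ψ z) := h2.mul_left
  rw [e, ev_Wd_tl hδ cs]
  unfold Top.hv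
  have e2 : (fun v : ℤ × ℤ => vm h v * (1 / 2 * lap ψ (δ * v.1, δ * v.2))) =
      fun v => 1 / 2 * (vm h v * lap ψ (δ * v.1, δ * v.2)) := by
    funext v; ring
  rw [e2]
  have e3 := smul_finsum (1 / 2 : ℝ) fun v : ℤ × ℤ => vm h v * lap ψ (δ * v.1, δ * v.2)
  simp only [smul_eq_mul] at e3
  rw [← e3]
  ring

/-- The Schwinger-Dyson expression in the two coordinates. -/
theorem sd_tl {δ : ℝ} (hδ : 0 < δ) {ψ f : ℝ × ℝ → ℝ} (h1 : Sm ψ) (h2 : HasCompactSupport (lap ψ))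
    (h3 : HasCompactSupport f) (k : ℕ) (h : Hgt) :
    FA.ev (Wd δ (lap (tl ψ)) 0) h * FA.ev (Wd δ (tl f) 0) h ^ (k + 1) =
      2 * 4 ^ (k + 1) * (hv δ (lap ψ) (vm h) * hv δ f (vm h) ^ (k + 1)) ∧
    FA.ev (Wd δ (tl f) 0) h ^ k = 4 ^ k * hv δ f (vm h) ^ k := by
  rw [ev_Wd_lap hδ h1 h2, ev_Wd_tl hδ h3, mul_pow, mul_pow]
  exact ⟨by ring, rfl⟩

end Vale.Agent.P145.X
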