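import Vale.Agent.P145.FB.Out
import Vale.Agent.P145.FA.Base
import Vale.Agent.P145.X.SandX

/-!
P145, X-level: events on which the heights are bounded; the moments given an event from the
extension inequality.
-/

namespace Vale.Agent.P145.X

open Filter Topology Set MeasureTheory
open Vale.Agent.P152 (Ori Ice pth)
open Vale.Agent.P145.FA (Hgt mu0 Pl s_lip)
open Vale.Agent.P145.FB
open Vale.Agent.P145.Top

/-- Height functions of the six-vertex model. -/
def HLip (h : Hgt) : Prop := ∀ q : ℤ × ℤ,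
  (2 : ℤ) ∣ h q - (q.1 + q.2) ∧ |h (q + (1, 0)) - h q| = 1 ∧ |h (q + (0, 1)) - h q| = 1

theorem HLip.right {h : Hgt} (H : HLip h) (q : ℤ × ℤ) (n : ℕ) :
    |h (q + ((n : ℤ), 0)) - h q| ≤ n := by
  induction n with
  | zero =>
    have e : q + (((0 : ℕ) : ℤ), (0 : ℤ)) = q := by ext <;> simp
    rw [e]; simp
  | succ n ih =>
    have h1 := (H (q + ((n : ℤ), 0))).2.1
    have e : q + ((n : ℤ), (0 : ℤ)) + (1, 0) = q + (((n + 1 : ℕ) : ℤ), 0) := by
      ext
      · push_cast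
        simp [add_assoc]
      · simp
    rw [e] at h1
    rw [abs_le] at ih ⊢
    rw [abs_eq (by norm_num)] at h1
    push_cast
    push_cast at h1
    omega

theorem HLip.up {h : Hgt} (H : HLip h) (q : ℤ × ℤ) (n : ℕ) :
    |h (q + (0, (n : ℤ))) - h q| ≤ n := by
  induction n with
  | zero =>
    have e : q + ((0 : ℤ), ((0 : ℕ) : ℤ)) = q := by ext <;> simp
    rw [e]; simp
  | succ n ih =>
    have h1 := (H (q + (0, (n : ℤ)))).2.2
    have e : q + ((0 : ℤ), (n : ℤ)) + (0, 1) = q + (0, ((n + 1 : ℕ) : ℤ)) := by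
      ext
      · simp
      · push_cast
        simp [add_assoc]
    rw [e] at h1
    rw [abs_le] at ih ⊢
    rw [abs_eq (by norm_num)] at h1
    push_cast
    push_cast at h1
    omega

theorem HLip.le {h : Hgt} (H : HLip h) (p q : ℤ × ℤ) :
    |h p - h q| ≤ |p.1 - q.1| + |p.2 - q.2| := by
  -- `r = (p.1, q.2)`
  have h1 : |h (p.1, q.2) - h q| ≤ |p.1 - q.1| := by
    rcases le_total q.1 p.1 with h1 | h1
    · have h2 := H.right q (p.1 - q.1).toNat
      have e0 : ((p.1 - q.1).toNat : ℤ) = p.1 - q.1 := Int.toNat_of_nonneg (by omega)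
      have e : q + (((p.1 - q.1).toNat : ℤ), (0 : ℤ)) = (p.1, q.2) := by
        rw [e0]; ext <;> simp
      rw [e, e0] at h2
      exact h2.trans (le_abs_self _)
    · have h2 := H.right (p.1, q.2) (q.1 - p.1).toNat
      have e0 : ((q.1 - p.1).toNat : ℤ) = q.1 - p.1 := Int.toNat_of_nonneg (by omega)
      have e : (p.1, q.2) + (((q.1 - p.1).toNat : ℤ), (0 : ℤ)) = q := by
        rw [e0]; ext <;> simp
      rw [e, e0] at h2
      rw [abs_sub_comm]
      exact h2.trans (by rw [abs_sub_comm]; exact le_abs_self _)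
  have h3 : |h p - h (p.1, q.2)| ≤ |p.2 - q.2| := by
    rcases le_total q.2 p.2 with h1 | h1
    · have h2 := H.up (p.1, q.2) (p.2 - q.2).toNat
      have e0 : ((p.2 - q.2).toNat : ℤ) = p.2 - q.2 := Int.toNat_of_nonneg (by omega)
      have e : (p.1, q.2) + ((0 : ℤ), ((p.2 - q.2).toNat : ℤ)) = p := by
        rw [e0]; ext <;> simp
      rw [e, e0] at h2
      exact h2.trans (le_abs_self _)
    · have h2 := H.up p (q.2 - p.2).toNat
      have e0 : ((q.2 - p.2).toNat : ℤ) = q.2 - p.2 := Int.toNat_of_nonneg (by omega)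
      have e : p + ((0 : ℤ), ((q.2 - p.2).toNat : ℤ)) = (p.1, q.2) := by
        rw [e0]; ext <;> simp
      rw [e, e0] at h2
      rw [abs_sub_comm]
      exact h2.trans (by rw [abs_sub_comm]; exact le_abs_self _)
  rw [abs_le] at h1 h3 ⊢
  omega

theorem MU_fst {t : ℝ} {P : Measure (Ori (ℤ × ℤ))} [IsProbabilityMeasure P] :
    (MU t P).map Prod.fst = mu0 P := by
  have hpr : ∀ k : ℤ, IsProbabilityMeasure (P.map fun ω q => pth ω q + 2 * k) := fun k =>
    Measure.isProbabilityMeasure_map (measurable_pthk k).aemeasurable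
  rw [MU, Measure.map_map measurable_fst measurable_om]
  have e : (Prod.fst ∘ fun x : Hgt × Mk => (x.1, om x.1 x.2)) = Prod.fst := rfl
  rw [e]
  have : SFinite (mu0 P) := by unfold mu0; infer_instance
  rw [Measure.map_fst_prod, measure_univ, one_smul]

theorem ae_MU {t : ℝ} {P : Measure (Ori (ℤ × ℤ))} [IsProbabilityMeasure P] {Q : Hgt → Prop}
    (hQ : ∀ᵐ h ∂(mu0 P), Q h) : ∀ᵐ x ∂(MU t P), Q x.1 :=
  ae_of_ae_map measurable_fst.aemeasurable (by rw [MU_fst]; exact hQ)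

theorem ae_HLip {t c : ℝ} {P : Measure (Ori (ℤ × ℤ))} (hP : Pl c P) :
    ∀ᵐ x ∂(MU t P), HLip x.1 := by
  have := hP.prob
  exact ae_MU (s_lip c P hP)

/-- A circuit at level `0` gives a face of height `0`. -/
theorem zero_of_Ann {x : Hgt × Mk} {p q t : ℤ} (h : Ann p q t (fine (bl x))) :
    ∃ f : ℤ × ℤ, |f.1| ≤ 4 * (|p| + |q| + 4 * |t|) + 8 ∧ |f.2| ≤ 4 * (|p| + |q| + 4 * |t|) + 8 ∧
      x.1 f = 0 := by
  obtain ⟨z, y, ⟨⟨hz, hr⟩, -⟩, -⟩ := h.1
  have key : ∀ w : ℤ × ℤ, |w.1| ≤ 2 * (|p| + 2 * |t|) + 1 → |w.2| ≤ 2 * (|q| + 2 * |t|) + 1 →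
      |(e1 (vx w)).1| ≤ 4 * (|p| + |q| + 4 * |t|) + 8 ∧
      |(e1 (vx w)).2| ≤ 4 * (|p| + |q| + 4 * |t|) + 8 := by
    intro w h1 h2
    have a1 := abs_nonneg p
    have a2 := abs_nonneg q
    have a3 := abs_nonneg t
    rw [abs_le] at h1 h2
    unfold e1 vx
    split_ifs
    · simp only [abs_le]
      omega
    · simp only [abs_le]
      omega
  have hz1 : |z.1| ≤ 2 * (|p| + 2 * |t|) ∧ |z.2| ≤ 2 * (|q| + 2 * |t|) := by
    obtain ⟨r1, r2, r3, r4⟩ := hr
    have b1 := le_abs_self p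
    have b2 := neg_abs_le p
    have b3 := le_abs_self q
    have b4 := neg_abs_le q
    have b5 := le_abs_self t
    have b6 := neg_abs_le t
    rw [abs_le, abs_le]
    omega
  rcases hz with ⟨h1, h2⟩ | ⟨h1, h2, q', h3, h4⟩
  · obtain ⟨k1, k2⟩ := key z (by omega) (by omega)
    exact ⟨_, k1, k2, h2.2.1⟩
  · have hq : |q'.1| ≤ 2 * (|p| + 2 * |t|) + 1 ∧ |q'.2| ≤ 2 * (|q| + 2 * |t|) + 1 := by
      unfold NN at h3
      rw [abs_le, abs_le] at hz1 ⊢
      omega
    obtain ⟨k1, k2⟩ := key q' hq.1 hq.2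
    exact ⟨_, k1, k2, h4.2.1⟩

/-- **The hypotheses `XEv`** for an event which gives a face of height `0` in a box. -/
theorem xev_MU {t c : ℝ} {P : Measure (Ori (ℤ × ℤ))} (hP : Pl c P) {X : Set (Hgt × Mk)}
    (hX : MeasurableSet X) {ρ : ℤ}
    (hz : ∀ x ∈ X, ∃ f : ℤ × ℤ, |f.1| ≤ ρ ∧ |f.2| ≤ ρ ∧ x.1 f = 0)
    (h0 : MU t P X ≠ 0) (h1 : MU t P X ≠ ⊤) {T : Hgt × Mk → Om} {s : ℤ × ℤ → ℤ × ℤ}
    (hT : ∀ x v, T x v = (x.1 (s v) : ℝ) / 2) : XEv (MU t P) X T := by
  have mT : Measurable T := by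
    refine measurable_pi_lambda _ fun v => ?_
    have e : (fun x => T x v) = fun x : Hgt × Mk => (x.1 (s v) : ℝ) / 2 := funext fun x => hT x v
    rw [e]
    exact ((measurable_of_countable (fun z : ℤ => (z : ℝ))).comp
      ((measurable_pi_apply (s v)).comp measurable_fst)).div_const 2
  refine ⟨mT, hX, h0, h1, int_of_bdd mT h1 fun u => ?_⟩
  · refine ⟨((|(s u).1| + |(s u).2| + 2 * |ρ| : ℤ) : ℝ) / 2, ?_⟩
    rw [ae_restrict_iff' hX]
    filter_upwards [ae_HLip (t := t) hP] with x hx hxX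
    obtain ⟨f, f1, f2, f3⟩ := hz x hxX
    have h3 := hx.le (s u) f
    rw [f3, sub_zero] at h3
    have h4 : |x.1 (s u)| ≤ |(s u).1| + |(s u).2| + 2 * |ρ| := by
      have a1 := abs_sub (s u).1 f.1
      have a2 := abs_sub (s u).2 f.2
      have a3 := le_abs_self ρ
      linarith
    rw [hT, abs_div, abs_two]
    refine div_le_div_of_nonneg_right ?_ (by norm_num)
    exact_mod_cast h4

end Vale.Agent.P145.X
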